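import Vale.Agent.P218Q.Defs

/-!
# P218, block NF: the rows
-/

set_option linter.all false

open Set Filter Topology Metric

namespace Vale.Agent.P218Q

open Vale.Agent.P218S Vale.Agent.P218G Vale.Agent.P218T

noncomputable section

/-- Q.IN: a member whose normal coordinate is close to `Dm y Z` lies well inside the domain -/
def IN : Prop := ∀ y η : ℝ, 1 ≤ η → η ≤ y → ∀ᶠ Z : ℝ in atTop, ∀ c ∈ dsc 1 Z, ∀ c' ∈ Dm y Z,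
  ‖c' - gam Z c‖ ≤ η / Z ^ 4 → c ∈ dsc (y - η) Z

/-- Q.OBS: the observable determines the normal coordinate -/
def OBS : Prop := ∀ K : ℝ, ∃ K' : ℝ, ∀ᶠ m : ℝ in atTop, ∀ Z Z' c c' O O' V V1 V2 U U1 U2,
  m ∈ Icc (Z / 20) (Z / 2) → m ∈ Icc (Z' / 20) (Z' / 2) → c ∈ dsc (10 ^ 13) Z →
  c' ∈ dsc (10 ^ 13) Z' → Prof K Z c O V V1 V2 → Prof K Z' c' O' U U1 U2 →
  ‖O m - O' m‖ ≤ Real.exp (-m ^ 2 / 4) / m ^ 4 → ‖gam Z c - gam Z' c'‖ ≤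
    10 ^ 18 / (Z ^ 6 * ‖vb Z c‖) + 10 ^ 18 / (Z' ^ 6 * ‖vb Z' c'‖) + K' / (m ^ 4 * √m)

/-- the data at one end: `c` slope, `c'` normal coordinate, `D` envelope -/
structure End (J : ℕ) (K Z : ℝ) (c c' D : ℂ) : Prop where
  mem : c ∈ dsc (7 / 5 * nu J) Z
  df : DF J K Z c D
  near : ‖c' - gam Z c‖ ≤ 10 ^ 18 / (Z ^ 6 * ‖vb Z c‖) + K / (Z ^ 4 * √Z)

/-- Q.TM: the bounds `hol`, `tip`, `main` of `Fam` at one end -/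
def TM : Prop := ∀ J : ℕ, 10 ^ 13 ≤ J → ∀ K : ℝ,
  (∀ᶠ Z : ℝ in atTop, ∀ W ∈ Icc Z (Z + 1), ∀ c c' D, End J K W c c' D →
    ‖D‖ ≤ Z ^ 1 * Real.exp (-W ^ 2 / 4)) ∧
  (∃ C : ℝ, ∀ ε : ℝ, 0 < ε → ∀ᶠ Z : ℝ in atTop, ∀ W ∈ Icc Z (Z + 1), ∀ c c' D, End J K W c c' D →
    ‖D‖ * Real.exp (W ^ 2 / 4) * W ≤ C / ‖-c'⁻¹ - (tipv kap W : ℂ)‖ ^ 2 +
      ε / Z * (1 + ‖-c'⁻¹ - (tipv kap W : ℂ)‖ / Z) ^ 1) ∧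
  ∀ R : ℝ, ∀ᶠ W : ℝ in atTop, ∀ c c' D, End J K W c c' D → ‖-c'⁻¹ - (tipv kap W : ℂ)‖ ≤ R →
    2 ≤ (yb W c).re ∧
    ‖yb W c - Complex.log (yb W c) - (-c'⁻¹ - (tipv kap W : ℂ))‖ ≤ 10 ^ 18 / nu J ∧
    ‖D * (Real.exp (W ^ 2 / 4) * W : ℝ) + (4 * Real.pi * HJ.b (J + 1) : ℝ) *
        Complex.exp (-(nu J : ℂ) * Complex.log (yb W c))‖ ≤ 10 ^ 18 / nu J *
      (4 * Real.pi * HJ.b (J + 1)) * ‖Complex.exp (-(nu J : ℂ) * Complex.log (yb W c))‖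

variable {α ι : Type} [Fintype α] [Fintype ι]

/-- Q.PATH: lowering the cuts and changing the boundary term at fixed constraint values -/
def PATH (F : FD α ι) : Prop := ∀ J, F.J0 ≤ J → ∃ K' : ℝ, ∀ᶠ m : ℝ in atTop,
  ∀ p ∈ Ad (F.Zs J), ∀ q ∈ Ad (F.Zs J), (∀ l, q.1 l ≤ p.1 l) → (∀ l, 2 * m ≤ q.1 l) →
  (∀ l, p.1 l ≤ 20 * m) → ∀ y ∈ F.dm J p,
  (∀ l, gam (p.1 l) (y (.inr l)) ∈ Dm (29 / 20 * nu J) (p.1 l)) →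
  ∃ y' ∈ F.dm J q, F.X J q y' = F.X J p y ∧
    (∀ l, ‖gam (p.1 l) (y (.inr l)) - gam (q.1 l) (y' (.inr l))‖ ≤
      10 ^ 18 / (p.1 l ^ 6 * ‖vb (p.1 l) (y (.inr l))‖) +
      10 ^ 18 / (q.1 l ^ 6 * ‖vb (q.1 l) (y' (.inr l))‖) + K' / (m ^ 4 * √m)) ∧
    (q.1 = p.1 → ‖F.f J q y' - F.f J p y‖ ≤ Real.exp (-m ^ 2 / 2))

/-- Q.TEL: the normal form -/
def TEL (F : FD α ι) : Prop := ∃ Ψ Θ r, F.NFm Ψ Θ r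

/-- the mean over the circle -/
def av (f : ℝ → ℂ) : ℂ := ⨍ θ in (0 : ℝ)..2 * Real.pi, f θ

/-- the jets `(V, V_z, V_θ, V_zz, V_zθ, V_θθ)` on one circle, their means, and the sizes `a1`
(first order) and `a2` (second order) of the oscillating parts -/
structure Circ (V p q a b c : ℝ → ℂ) (V0 p0 a0 : ℂ) (a1 a2 : ℝ) : Prop where
  cV : Continuous V
  cp : Continuous p
  cq : Continuous q
  ca : Continuous a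
  cb : Continuous b
  cc : Continuous c
  mV : av V = V0
  mp : av p = p0
  mq : av q = 0
  ma : av a = a0
  mb : av b = 0
  mc : av c = 0
  re : 0 < V0.re
  p1 : ‖p0‖ ^ 2 ≤ ‖V0‖
  pos : 0 < a1
  sm : a1 ≤ 1 / 100
  bV : ∀ θ, ‖V θ - V0‖ ≤ a1 * ‖V0‖
  bp : ∀ θ, ‖p θ - p0‖ ≤ a1 * √‖V0‖
  bq : ∀ θ, ‖q θ‖ ≤ a1 * ‖V0‖
  ba : ∀ θ, ‖a θ - a0‖ ≤ a2
  bb : ∀ θ, ‖b θ‖ ≤ a2 * √‖V0‖
  bc : ∀ θ, ‖c θ‖ ≤ a2 * ‖V0‖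

/-- Q.JET (1): the mean of the equation -/
def JE : Prop := ∃ C : ℝ, ∀ (z : ℝ) V p q a b c V0 p0 a0 a1 a2, Circ V p q a b c V0 p0 a0 a1 a2 →
  (∀ θ, a θ - z * p θ / 2 + V θ - 2 + c θ / V θ - (V θ * p θ ^ 2 * (a θ + 2) +
    q θ ^ 2 * (c θ / V θ + 4) + 2 * p θ * q θ * b θ) /
      (4 * V θ ^ 2 + V θ * p θ ^ 2 + q θ ^ 2) = 0) →
  ‖a0 - M0.G z V0 p0‖ ≤ C * (a1 ^ 2 * (1 + ‖a0‖) + a1 * a2)

/-- Q.JET (2): the boundary condition and the envelope; `p` is `V_z` on the boundary circle -/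
def JB : Prop := ∀ K : ℝ, ∃ K' : ℝ, ∀ J0 J : ℕ, 100 ≤ J0 → J0 ≤ J → ∀ᶠ Z : ℝ in atTop,
  ∀ c ∈ dsc (7 / 5 * nu J) Z, ∀ (t a1 : ℝ) (p : ℝ → ℂ), t ∈ Icc (0 : ℝ) 1 → Continuous p →
  ‖av p‖ ^ 2 ≤ ‖vb Z c‖ → (∀ θ, ‖p θ - av p‖ ≤ a1 * √‖vb Z c‖) →
  a1 ^ 2 ≤ K * √‖vb Z c‖ / (Z * √Z) →
  Complex.sqrt (vb Z c) * av (fun θ => p θ / Complex.sqrt (vb Z c) /
      Complex.sqrt (1 + (p θ / Complex.sqrt (vb Z c)) ^ 2 / 4)) +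
    4 * ((1 - t) * HJ.gm J0 Z (vb Z c) + t * HJ.gm J Z (vb Z c)) / Z = 0 →
  ‖av p - 2 * Z * c‖ ≤ 7200 / (Z ^ 3 * ‖vb Z c‖) + K' / (Z * √Z) ∧ (t = 1 →
    DF J K' Z c (2 * Real.pi * (HJ.wt Z (vb Z c) * Complex.sqrt (vb Z c) *
      av (fun θ => 1 / Complex.sqrt (1 + (p θ / Complex.sqrt (vb Z c)) ^ 2 / 4)) +
      deriv (fun z => HJ.Tb J z (vb Z c)) Z)))

/-- the integrand of the observable -/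
def oi (m s : ℝ) (V p q : ℂ) : ℂ := lg (s ^ 2 + V - m ^ 2) * Complex.exp (-(s ^ 2 + V) / 4) *
  Complex.sqrt (V + p ^ 2 / 4 + q ^ 2 / (4 * V))

/-- Q.JET (3): the observable; a crude bound, and the mean on one circle -/
def JO : Prop := ∃ C : ℝ, (∀ (m s : ℝ) (V p q : ℂ), ‖V‖ ≤ 8 → ‖p‖ ≤ 8 → ‖q‖ ≤ ‖V‖ →
    ‖oi m s V p q‖ ≤ C * Real.exp (-m ^ 2 / 4) * Real.exp (-|s ^ 2 - m ^ 2| / 4)) ∧
  ∀ (m s : ℝ) V p q a b c V0 p0 a0 a1 a2, Circ V p q a b c V0 p0 a0 a1 a2 → ‖V0‖ ≤ 7 →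
    ‖av (fun θ => oi m s (V θ) (p θ) (q θ)) - oi m s V0 p0 0‖ ≤
      C * a1 ^ 2 * Real.exp (-m ^ 2 / 4) * Real.exp (-|s ^ 2 - m ^ 2| / 4)

/-- the rows, with their dependencies -/
structure Rows (α ι : Type) [Fintype α] [Fintype ι] : Prop where
  inn : IN
  obs : OBS
  tm : TM
  path : IN → OBS → ∀ F : FD α ι, PATH F
  tel : ∀ F : FD α ι, PATH F → TEL F
  fin : IN → TM → ∀ F : FD α ι, PATH F → TEL F → ∃ Ψ Θ r, F.Out Ψ Θ r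

theorem Rows.nf (R : Rows α ι) : NF α ι := fun F =>
  R.fin R.inn R.tm F (R.path R.inn R.obs F) (R.tel F (R.path R.inn R.obs F))

end

end Vale.Agent.P218Q
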