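import Vale.Agent.P218Q.Down

/-!
# P218, block NF: row FIN
-/

set_option linter.all false

open Set Filter Topology Metric

namespace Vale.Agent.P218Q

open Vale.Agent.P218S Vale.Agent.P218G Vale.Agent.P218T

noncomputable section

theorem DF.mono {J : ℕ} {K K' Z : ℝ} {c D : ℂ} (h : DF J K Z c D) (hK : K ≤ K') (hZ : 0 ≤ Z) :
    DF J K' Z c D := le_trans h (by gcongr)

variable {α ι : Type} [Fintype α] [Fintype ι]

theorem dom_eq (ν r : ℝ) (W : ι → ℝ) : Dom (cpr α ι) (fun _ => kap) ν r W = ball 0 r ∩ ⋂ l,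
    (fun x => x (.inr l) * ((tipv kap (W l) + 3 * ν / 2 : ℝ) : ℂ)) ⁻¹' ball (1 / 4) (5 / 4) := by
  ext x
  simp only [Dom, mem_setOf, mem_inter_iff, sub_zero, mem_iInter, mem_preimage,
    mem_ball_iff_norm]
  rfl

theorem convex_Dom (ν r : ℝ) (W : ι → ℝ) : Convex ℝ (Dom (cpr α ι) (fun _ => kap) ν r W) :=
  dom_eq (α := α) ν r W ▸ (convex_ball _ _).inter (convex_iInter fun l =>
    (convex_ball _ _).is_linear_preimage ⟨fun _ _ => add_mul _ _ _, fun a x => smul_mul_assoc a (x _) _⟩)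

theorem open_Dom (ν r : ℝ) (W : ι → ℝ) : IsOpen (Dom (cpr α ι) (fun _ => kap) ν r W) :=
  dom_eq (α := α) ν r W ▸ isOpen_ball.inter (isOpen_iInter_of_finite fun l =>
    isOpen_ball.preimage (by fun_prop))

theorem cut_mem {Zs Z t : ℝ} {W : ι → ℝ} (hW : W ∈ Cut Z) (h : Zs ≤ Z) (h1 : 1 ≤ Z)
    (ht : t ∈ Icc (0 : ℝ) 1) : (W, t) ∈ Ad Zs :=
  ⟨fun l => h.trans (hW l).1, fun l l' => by linarith [(hW l).2, (hW l').1], ht⟩

theorem dg_cut (Z : ℝ) : (fun _ : ι => Z) ∈ Cut Z := fun _ => ⟨le_rfl, by linarith⟩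

namespace FD

variable {F : FD α ι} {J : ℕ} {Ψ Θ : (α ⊕ ι → ℂ) → α ⊕ ι → ℂ} {r : ℝ}

theorem dm_sub (hJ : F.J0 ≤ J) (p q : (ι → ℝ) × ℝ) (h : p.1 = q.1) : F.dm J p ⊆ F.dm F.J0 q :=
  fun y hy => ⟨hy.1, fun l => h ▸ dsc_anti (by
    have : (F.J0 : ℝ) ≤ J := by exact_mod_cast hJ
    simp only [nu]
    linarith) _ (hy.2 l)⟩

theorem nearJ (hP : PATH F) (hN : F.NFm Ψ Θ r) (hJ : F.J0 ≤ J) : ∃ K, 0 ≤ K ∧ ∀ᶠ Z : ℝ in atTop,
    ∀ W ∈ Cut Z, ‖F.X J (W, 1) 0 - Θ 0‖ ≤ K * ee Z ∧ ∀ y ∈ F.dm J (W, 1),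
      (∀ l, gam (W l) (y (.inr l)) ∈ Dm (29 / 20 * nu J) (W l)) → ∀ l,
      ‖Ψ (F.X J (W, 1) y) (.inr l) - gam (W l) (y (.inr l))‖ ≤
        10 ^ 18 / (W l ^ 6 * ‖vb (W l) (y (.inr l))‖) + K * ee (W l) := by
  obtain ⟨C, Z1, z1, hC⟩ := hN.near
  obtain ⟨C1, c1, H1⟩ := down hP hJ
  obtain ⟨C2, c2, H2⟩ := cen hP hJ
  have hν := nuJ hJ
  obtain ⟨Z0, hZ⟩ := eventually_atTop.1 (H1.and (H2.and ((eventually_ge_atTop (F.Zs J)).and
    (eventually_ge_atTop (6 * nu J)))))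
  refine ⟨(|C| + C1 + C2) * 10 ^ 5, by positivity, ?_⟩
  filter_upwards [eventually_ge_atTop (8 * Z0), eventually_ge_atTop (4 * Z1)] with Z h1 h2 W hW
  obtain ⟨n, n1, n2⟩ := exists_nat_pow_near ((one_le_div (by linarith)).2 h2) one_lt_two
  rw [le_div_iff₀ (by linarith)] at n1
  rw [div_lt_iff₀ (by linarith), pow_succ] at n2
  obtain ⟨a1, a2⟩ := hC n _ rfl
  generalize hz : Z1 * 2 ^ n = z at a1 a2
  have m1 : 4 * z ≤ Z := by linarith
  have m2 : Z ≤ 8 * z := by linarith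
  obtain ⟨b1, b2, b3, b4⟩ := hZ z (by linarith)
  have z0 : 0 < z := by linarith
  have hp := cut_mem hW (show F.Zs J ≤ Z by linarith) (by linarith) ⟨one_pos.le, le_rfl⟩
  have hq : ((fun _ => z, 0) : (ι → ℝ) × ℝ) ∈ Ad (F.Zs J) := dg_mem b3 z0.le ⟨le_rfl, one_pos.le⟩
  have hw : ∀ l, z ≤ z ∧ z ≤ W l ∧ W l ≤ 10 * z := fun l =>
    ⟨le_rfl, by linarith [(hW l).1], by linarith [(hW l).2]⟩
  have e : ∀ V, 0 < V → V ≤ 10 * z → ∀ a, a ≤ (|C| + C1 + C2) * ee z →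
      a ≤ (|C| + C1 + C2) * 10 ^ 5 * ee V := fun V h0 h a ha => ha.trans (by
    rw [mul_assoc]
    exact mul_le_mul_of_nonneg_left (ee_le h0 (by norm_num) h) (by positivity))
  have e0 := (ee_pos z0).le
  have e1 := mul_le_mul_of_nonneg_right (le_abs_self C) e0
  rw [ee_eq] at a1 a2
  refine ⟨e Z (by linarith) (by linarith) _ ?_, fun y hy hD l => ?_⟩
  · have a := b2 _ hp _ hq hw 0 (by simpa using F.r0)
    have b := pa_dm (p := (fun _ => z, 0)) (x := 0) (by simpa using F.r0)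
      (fun _ => ⟨by linarith, b4⟩) hJ
    rw [map_zero] at a b
    rw [(F.ind J hJ _ hq _ b).1] at a
    linarith [norm_sub_le_norm_sub_add_norm_sub (F.X J (W, 1) 0) (F.X F.J0 (dg z) 0) (Θ 0),
      mul_nonneg c1 e0, show ‖_ - F.X F.J0 (dg z) 0‖ ≤ _ from a]
  · obtain ⟨y', d1, d2, -, d3⟩ := b1 _ hp _ hq hw y hy hD
    have d4 := fun l => d3 l (3 / 16) (by norm_num) (by
      have := Dm_norm (hD l) (by linarith) (by linarith [(hw l).2.1])
      have := mul_le_mul_of_nonneg_left (pow_le_pow_left₀ (by linarith) (m1.trans (hW l).1) 2)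
        (norm_nonneg (gam (W l) (y (.inr l))))
      simp only
      linarith)
    have d5 := a2 y' (dm_sub hJ _ _ rfl d1) (fun l => by
      rw [le_div_iff₀ (by positivity)]
      linarith [(d4 l).1]) l
    rw [← d2, (F.ind J hJ _ hq _ d1).1, ← sub_le_iff_le_add']
    refine e _ (by linarith [(hw l).2.1]) (hw l).2.2 _ ?_
    linarith [norm_sub_le_norm_sub_add_norm_sub (Ψ (F.X F.J0 (fun _ => z, 1) y') (.inr l))
      (gam z (y' (.inr l))) (gam (W l) (y (.inr l))), (d4 l).2, mul_nonneg c2 e0,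
      norm_sub_rev (gam z (y' (.inr l))) (gam (W l) (y (.inr l))),
      show ‖Ψ (F.X F.J0 (fun _ => z, 1) y') (.inr l) - _‖ ≤ _ from d5]

theorem NFm.th_inl (hN : F.NFm Ψ Θ r) {x : α ⊕ ι → ℂ} (hx : ‖x‖ < r) (i : α) :
    Θ x (.inl i) = x (.inl i) := by
  rw [← hN.inl (Θ x), hN.right x (mem_ball_zero_iff.2 hx)]

theorem core (hi : IN) (hP : PATH F) (hN : F.NFm Ψ Θ r) (hJ : F.J0 ≤ J) : ∃ K,
    ∀ᶠ Z : ℝ in atTop, ∀ W ∈ Cut Z, ∀ x ∈ Dom (cpr α ι) (fun _ => kap) (nu J) (r / 2) W,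
      F.inv J (W, 1) (Θ x) ∈ F.dm J (W, 1) ∧ F.X J (W, 1) (F.inv J (W, 1) (Θ x)) = Θ x ∧
      (∀ l, gam (W l) (F.inv J (W, 1) (Θ x) (.inr l)) ∈ Dm (29 / 20 * nu J) (W l)) ∧
      ∀ l, End J K (W l) (F.inv J (W, 1) (Θ x) (.inr l)) (x (.inr l))
        (F.D J (W, 1) (F.inv J (W, 1) (Θ x)) l) := by
  obtain ⟨K, K0, hK⟩ := nearJ hP hN hJ
  have hν := nuJ hJ
  have r0 := hN.r0
  obtain ⟨Z0, hZ⟩ := eventually_atTop.1 ((hi (3 * nu J / 2) (nu J / 100) (by linarith)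
    (by linarith)).and (ev_ee K one_pos))
  refine ⟨max K (F.K J), ?_⟩
  filter_upwards [hK, eventually_ge_atTop Z0, eventually_ge_atTop (F.Zs J),
    eventually_ge_atTop (15 * nu J)] with Z h1 h2 h3 h4 W hW
  obtain ⟨h5, h6⟩ := h1 W hW
  have hp := cut_mem hW h3 (by linarith) ⟨one_pos.le, le_rfl⟩
  have w1 : ∀ l, 15 * nu J ≤ W l := fun l => h4.trans (hW l).1
  have w2 : ∀ l, 15 * nu J ≤ W l ^ 2 := fun l => by nlinarith [w1 l]
  have w0 : ∀ l, 1000 ≤ W l := fun l => by linarith [w1 l]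
  set S := Dom (cpr α ι) (fun _ => kap) (nu J) (r / 2) W
  set U := {y ∈ F.dm J (W, 1) | ∀ l, gam (W l) (y (.inr l)) ∈ Dm (29 / 20 * nu J) (W l)}
  have sb : S ⊆ ball 0 r := fun x hx => mem_ball_zero_iff.2 (by linarith [hx.1])
  have cg : ∀ y ∈ F.dm J (W, 1), ∀ l, ContinuousAt (fun y : α ⊕ ι → ℂ => gam (W l) (y (.inr l))) y :=
    fun y hy l => ContinuousAt.comp (g := gam (W l)) (diff_gam (hy.2 l) (by linarith)
      (w0 l)).continuousAt (continuous_apply _).continuousAt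
  have oU : IsOpen U := isOpen_iff_mem_nhds.2 fun y hy => inter_mem ((open_dom _ _ _).mem_nhds hy.1)
    (eventually_all.2 fun l => (cg y hy.1 l).eventually_mem ((open_Dm _ _).mem_nhds (hy.2 l)))
  have cT := hN.hol.continuousOn.mono sb
  have N : ∀ x ∈ S, ∀ y ∈ U, F.X J (W, 1) y = Θ x → ∀ l, ‖x (.inr l) - gam (W l) (y (.inr l))‖ ≤
      10 ^ 18 / (W l ^ 6 * ‖vb (W l) (y (.inr l))‖) + K * ee (W l) := fun x hx y hy e l => by
    simpa only [e, hN.right x (sb hx)] using h6 y hy.1 hy.2 l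
  have N' : ∀ x ∈ S, ∀ y ∈ U, F.X J (W, 1) y = Θ x → ∀ l,
      ‖x (.inr l) - gam (W l) (y (.inr l))‖ ≤ nu J / 100 / W l ^ 4 := fun x hx y hy e l => by
    have := w0 l
    refine (N x hx y hy e l).trans ((add_le_add (crude hν (by linarith) le_rfl (hy.1.2 l))
      (hZ _ (h2.trans (hW l).1)).2).trans ?_)
    rw [← add_div]
    gcongr
    linarith
  have all : S ⊆ S ∩ Θ ⁻¹' (F.X J (W, 1) '' U) :=
    (convex_Dom _ _ _).isPreconnected.subset_of_closure_inter_subset (cT.isOpen_inter_preimage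
      (open_Dom _ _ _) (open_im hJ hp oU fun y hy => hy.1)) (by
      have s0 : 0 ∈ S := ⟨by simpa using r0, fun l => by norm_num⟩
      have z0 : 0 < Z := by linarith
      have a : ∀ l, 1 / (2 * Z) ^ 2 * W l ^ 2 ≤ 1 := fun l => by
        rw [one_div_mul_eq_div, div_le_one (by positivity)]
        exact pow_le_pow_left₀ (by linarith [w0 l]) (by linarith [(hW l).2]) 2
      obtain ⟨y, y1, y2, y3⟩ := surj hJ hp (e := 1 / (2 * Z) ^ 2) (x := Θ 0) (by positivity)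
        (fun l => ⟨by linarith [w0 l], by linarith [w2 l], a l⟩)
        (fun i => by simpa [hN.th_inl (x := 0) (by simpa using r0)] using F.r0) (by
          rw [show pa α ι (Θ 0) = 0 from funext fun s => by
            rcases s with i | l <;> simp [hN.th_inl (show ‖(0 : α ⊕ ι → ℂ)‖ < r by simpa)]]
          refine h5.trans ((hZ _ h2).2.trans ?_)
          rw [mul_one_div, div_le_div_iff₀ (by positivity) (by positivity)]
          nlinarith [mul_le_mul_of_nonneg_left (show 10 ≤ Z ^ 2 by nlinarith) (sq_nonneg Z)])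
      refine ⟨0, s0, s0, y, ⟨y1, fun l => mem_Dm ?_ (by linarith) (by linarith [w2 l])
        (by linarith [w0 l])⟩, y3⟩
      linarith [a l, mul_le_mul_of_nonneg_right ((gam_le (y1.2 l) (by linarith) (w0 l)).trans
        (mul_le_mul_of_nonneg_left (y2 l) (by norm_num))) (sq_nonneg (W l))]) (by
      rintro x ⟨hc, hx⟩
      obtain ⟨u, u1, u2⟩ := mem_closure_iff_seq_limit.1 hc
      choose y y1 y2 using fun n => (u1 n).2
      obtain ⟨w, -, φ, hφ, hw⟩ := tendsto_subseq_of_bounded (isBounded_closedBall (x := 0)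
        (r := max F.r 1)) (x := y) fun n => mem_closedBall_zero_iff.2
          ((pi_norm_le_iff_of_nonneg (by positivity)).2 fun k => by
            rcases k with i | l
            · exact ((y1 n).1.1 i).le.trans (le_max_left _ _)
            · have := w0 l
              have := dsc_norm ((y1 n).1.2 l) (by linarith) (by linarith)
              refine le_trans (le_of_mul_le_mul_right (this.trans ?_) (by nlinarith))
                (le_max_right _ _)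
              nlinarith)
      have u3 := u2.comp hφ.tendsto_atTop
      have hm : w ∈ F.dm J (W, 1) := ⟨fun i => by
        rw [tendsto_nhds_unique (tendsto_pi_nhds.1 hw (.inl i)) ((tendsto_pi_nhds.1 u3
          (.inl i)).congr fun n => by
            rw [Function.comp_apply, Function.comp_apply, ← F.inl J (W, 1) (y _), y2,
              hN.th_inl (mem_ball_zero_iff.1 (sb (u1 _).1))])]
        linarith [norm_le_pi_norm x (.inl i), hx.1, hN.le], fun l => by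
        refine (le_of_tendsto' (((diff_vb (W l)).continuous.tendsto _ |>.comp
          (tendsto_pi_nhds.1 hw (.inr l))).sub_const 3).norm fun n => le_of_lt
            ((hZ _ (h2.trans (hW l).1)).1 _ (dsc_anti (by linarith) _ ((y1 (φ n)).1.2 l)) _
              ((u1 _).1.2 l) (N' _ (u1 _).1 _ (y1 _) (y2 _) l))).trans_lt ?_
        have := w0 l
        exact sub_lt_sub_left (div_lt_div_of_pos_right (by linarith) (by positivity)) 3⟩
      refine ⟨hx, w, ⟨hm, fun l => ?_⟩, tendsto_nhds_unique ((((F.holX J hJ _ hp).differentiableAt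
        ((open_dom _ _ _).mem_nhds hm)).continuousAt.tendsto.comp hw).congr fun n => y2 _)
        ((cT.continuousAt ((open_Dom _ _ _).mem_nhds hx)).tendsto.comp u3)⟩
      have := w0 l
      have a := le_of_tendsto' ((tendsto_pi_nhds.1 u3 (.inr l)).sub ((cg w hm l).tendsto.comp
        hw)).norm fun n => N' _ (u1 _).1 _ (y1 _) (y2 _) l
      rw [le_div_iff₀ (by positivity), norm_sub_rev] at a
      exact Dm_thick (c := x (.inr l)) (hx.2 l) (by linarith) (by linarith) (by linarith [w2 l]) (by linarith)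
        (by linarith))
  intro x hx
  obtain ⟨-, y, hy, e⟩ := all hx
  rw [← e, inv_X hJ hp hy.1]
  refine ⟨hy.1, rfl, hy.2, fun l => ⟨hy.1.2 l, (F.df J hJ W hp y hy.1 l).mono (le_max_right _ _)
    (by linarith [w0 l]), (N x hx y hy e l).trans ?_⟩⟩
  have := ee_pos (show 0 < W l by linarith [w0 l])
  rw [ee_eq]
  gcongr
  exact le_max_left _ _

theorem famJ (hi : IN) (ht : TM) (hP : PATH F) (hN : F.NFm Ψ Θ r) (hJ : F.J0 ≤ J) {δ : ℝ}
    (hδ : 10 ^ 18 / nu J ≤ δ) :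
    ∃ G : Fam (cpr α ι) (fun _ => kap) (nu J) δ, G.f = F.fN Θ J := by
  obtain ⟨K, hK⟩ := core hi hP hN hJ
  obtain ⟨t1, ⟨C, t2⟩, t3⟩ := ht J (F.big.trans hJ) K
  have B0 : 0 < 4 * Real.pi * HJ.b (J + 1) := by
    have := HJ.b_pos J
    positivity
  refine ⟨⟨r / 2, 1, C, fun _ => 4 * Real.pi * HJ.b (J + 1), F.fN Θ J,
    fun j W x => F.D J (W, 1) (F.inv J (W, 1) (Θ x)) j, half_pos hN.r0, fun _ => B0, ?_,
    fun ε hε => ?_, fun R => ⟨1, one_pos, ?_⟩⟩, rfl⟩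
  · filter_upwards [hK, t1, eventually_gt_atTop (F.Zs J), eventually_ge_atTop 1,
      eventually_ge_atTop (F.K J)] with Z h1 h2 h3 h4 h5 W hW
    have hp := cut_mem hW h3.le h4 ⟨one_pos.le, le_rfl⟩
    refine ⟨fun x hx => ?_, fun x hx => ?_⟩ <;> obtain ⟨a1, a2, -, a3⟩ := h1 W hW x hx
    · have := diff_inv hJ hp a1
      rw [a2] at this
      exact (((F.holf J hJ _ hp).differentiableAt ((open_dom _ _ _).mem_nhds a1)).comp x
        (this.comp x (hN.hol.differentiableAt (isOpen_ball.mem_nhds (mem_ball_zero_iff.2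
          (by linarith [hx.1, hN.r0])))))).differentiableWithinAt
    refine ⟨(F.bd J hJ _ hp _ a1).trans (by linarith [Real.add_one_le_exp Z]), ?_,
      fun j => h2 _ (hW j) _ _ _ (a3 j)⟩
    obtain ⟨τ, -, b⟩ := (loc' hJ hp a1 a2 (fun l => (hW l).1) h3.le (by linarith)).2.2.1
    have := (HasFDerivWithinAt.comp (f := fun V => (V, (1 : ℝ))) W b (hasFDerivAt_prodMk_left W
      (1 : ℝ)).hasFDerivWithinAt (mapsTo_preimage _ _)).hasFDerivAt (by
        have c := fun l => (continuous_apply l).tendsto W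
        filter_upwards [eventually_all.2 fun l => (c l).eventually_const_lt (h3.trans_le (hW l).1),
          eventually_all.2 fun l => eventually_all.2 fun l' => (c l).eventually_lt
            ((c l').const_mul 10) (by linarith [(hW l).2, (hW l').1])] with V v1 v2
        exact ⟨fun l => (v1 l).le, fun l l' => (v2 l l').le, one_pos.le, le_rfl⟩)
    rwa [dP, ContinuousLinearMap.coprod_comp_inl] at this
  · filter_upwards [hK, t2 ε hε] with Z h1 h2 W hW x hx j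
    exact h2 _ (hW j) _ _ _ ((h1 W hW x hx).2.2.2 j)
  · obtain ⟨Z0, h0⟩ := eventually_atTop.1 (t3 R)
    filter_upwards [hK, eventually_ge_atTop Z0] with Z h1 h2 W hW x hx _ j hR
    obtain ⟨a1, a2, a3⟩ := h0 _ (h2.trans (hW j).1) _ _ _ ((h1 W hW x hx).2.2.2 j) hR
    exact ⟨_, a1, a2.trans hδ, a3.trans (by gcongr)⟩

theorem small (hi : IN) (hP : PATH F) (hN : F.NFm Ψ Θ r) (hJ : F.J0 ≤ J) :
    ∀ᶠ Z : ℝ in atTop, (dg (ι := ι) Z ∈ Ad (F.Zs J) ∧ 1 ≤ Z) ∧ ∀ x : α ⊕ ι → ℂ, ‖x‖ < r / 2 →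
      (∀ l, ‖x (.inr l)‖ < 1 / Z ^ 2) → F.inv J (dg Z) (Θ x) ∈ F.dm J (dg Z) ∧
      F.X J (dg Z) (F.inv J (dg Z) (Θ x)) = Θ x ∧
      (∀ l, gam Z (F.inv J (dg Z) (Θ x) (.inr l)) ∈ Dm (29 / 20 * nu J) Z) ∧
      ∀ l, ‖F.inv J (dg Z) (Θ x) (.inr l)‖ ≤ 2 * ‖x (.inr l)‖ + 1 / Z ^ 4 := by
  obtain ⟨K, hK⟩ := core hi hP hN hJ
  have hν := nuJ hJ
  filter_upwards [hK, eventually_ge_atTop (F.Zs J), eventually_ge_atTop (15 * nu J),
    eventually_ge_atTop (10 ^ 19), ev_ee K one_pos, ev_ee (K + 1) one_half_pos]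
    with Z h1 h2 h3 h4 h5 h6
  have z0 : 0 < Z := by linarith
  refine ⟨⟨dg_mem h2 z0.le ⟨one_pos.le, le_rfl⟩, by linarith⟩, fun x hx h => ?_⟩
  have a := fun l => (lt_div_iff₀ (by positivity)).1 (h l)
  obtain ⟨a1, a2, a3, a4⟩ := h1 _ (dg_cut Z) x ⟨hx, fun l => mem_Dm (c := x (.inr l))
    (by linarith [a l]) (by linarith) (by nlinarith) (by linarith)⟩
  refine ⟨a1, a2, a3, fun l => ?_⟩
  obtain ⟨b1, -, b2⟩ := a4 l
  rw [dg]
  generalize F.inv J (fun _ => Z, 1) (Θ x) (.inr l) = c at b1 b2 ⊢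
  rw [ee_eq] at b2
  have b3 := (le_gam b1 (by linarith) (by linarith)).trans (mul_le_mul_of_nonneg_left
    (norm_le_norm_add_norm_sub (x (.inr l)) _) (by norm_num))
  have b4 := mul_le_mul_of_nonneg_right (b2.trans (add_le_add (crude hν z0 le_rfl b1) h5))
    (sq_nonneg Z)
  have b5 : (10 ^ 5 / Z ^ 4 + 1 / Z ^ 4) * Z ^ 2 ≤ 1 / 10 := by
    field_simp
    nlinarith
  have b6 := fine h4 le_rfl (c := c) (by
    linarith [mul_le_mul_of_nonneg_right b3 (sq_nonneg Z), a l])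
  rw [div_right_comm] at h6
  linarith [norm_nonneg (x (.inr l)), show 0 < 1 / Z ^ 4 by positivity]

end FD

open FD in
theorem fin (hi : IN) (ht : TM) (F : FD α ι) (hP : PATH F) (h : TEL F) :
    ∃ Ψ Θ r, F.Out Ψ Θ r := by
  obtain ⟨Ψ, Θ, r, hN⟩ := h
  have r0 := half_pos hN.r0
  have S := small hi hP hN le_rfl
  have st : ∀ {Z x}, dg (ι := ι) Z ∈ Ad (F.Zs F.J0) → ‖x‖ < r / 2 →
      F.inv F.J0 (dg Z) (Θ x) ∈ F.dm F.J0 (dg Z) → F.X F.J0 (dg Z) (F.inv F.J0 (dg Z) (Θ x)) = Θ x →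
      F.inv F.J0 (dg Z) (Θ (star x)) = star (F.inv F.J0 (dg Z) (Θ x)) := fun hp hx a1 a2 => by
    rw [← inv_X le_rfl hp (star_dom a1), (F.conj _ hp _ a1).1, a2,
      hN.conj _ (mem_ball_zero_iff.2 (by linarith))]
  refine ⟨Ψ, Θ, r, hN, ?_, ⟨_, famJ hi ht hP hN le_rfl le_rfl⟩, ⟨_, r0, ?_⟩, fun δ hδ ν => ?_, ?_⟩
  · obtain ⟨K, -, hK⟩ := nearJ hP hN le_rfl
    refine tendsto_iff_norm_sub_tendsto_zero.2 (squeeze_zero' (.of_forall fun _ => norm_nonneg _)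
      ?_ (tendsto_const_nhds.div_atTop (a := 1) (tendsto_pow_atTop four_ne_zero)))
    filter_upwards [hK, ev_ee K one_pos] with Z h1 h2 using (h1 _ (dg_cut Z)).1.trans h2
  · filter_upwards [S] with Z ⟨h1, h2⟩ x hx h
    have a : ‖rp x‖ < r / 2 := (pi_norm_lt_iff r0).2 fun s => by
      simpa [rp] using (norm_le_pi_norm x s).trans_lt hx
    obtain ⟨a1, a2, -⟩ := h2 _ a fun l => by simpa [rp] using h l
    have b := st h1.1 a a1 a2
    rw [show star (rp x) = rp x from funext fun s => by simp [rp]] at b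
    have c := (F.conj _ h1.1 _ a1).2
    rw [← b] at c
    exact Complex.conj_eq_iff_im.1 c.symm
  · obtain ⟨n, hn⟩ := exists_nat_ge (max ν (10 ^ 18 / δ))
    have hJ : F.J0 ≤ max n F.J0 := le_max_right _ _
    have a : (n : ℝ) ≤ nu (max n F.J0) := by
      have : (n : ℝ) ≤ (max n F.J0 : ℕ) := by exact_mod_cast le_max_left _ _
      rw [nu]
      linarith
    generalize max n F.J0 = J at hJ a
    obtain ⟨G, hG⟩ := famJ hi ht hP hN hJ (δ := δ) (by
      rw [div_le_comm₀ (by linarith [nuJ hJ]) hδ]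
      exact ((le_max_right _ _).trans hn).trans a)
    refine ⟨_, ((le_max_left _ _).trans hn).trans a, G, _, r0, fun N => ?_⟩
    obtain ⟨C, -, hC⟩ := down hP hJ
    filter_upwards [small hi hP hN hJ, hC, ev_exp 1 N (show (0 : ℝ) < 1 / 8 by norm_num)]
      with Z ⟨⟨h1, h0⟩, h2⟩ h3 h4 x hx h
    obtain ⟨a1, a2, a3, -⟩ := h2 x hx (by simpa using h)
    have hq : ((fun _ => Z, 0) : (ι → ℝ) × ℝ) ∈ Ad (F.Zs J) := ⟨h1.1, h1.2.1, le_rfl, one_pos.le⟩
    obtain ⟨y, b1, b2, b3, -⟩ := h3 _ h1 _ hq (fun l => ⟨le_rfl, le_rfl, h1.2.1 l l⟩) _ a1 a3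
    obtain ⟨c1, c2⟩ := F.ind J hJ _ hq y b1
    have hp : ((fun _ => Z, 1) : (ι → ℝ) × ℝ) ∈ Ad (F.Zs F.J0) :=
      ⟨fun l => (F.zs J hJ).trans (h1.1 l), h1.2⟩
    rw [hG, fN, ← a2, ← b2, c1, inv_X le_rfl hp (dm_sub hJ _ _ rfl b1), ← c2]
    refine (b3 rfl).trans ?_
    rw [inv_pow, le_inv_comm₀ (Real.exp_pos _) (by positivity), ← Real.exp_neg]
    exact (one_mul _).symm.trans_le (h4.trans_eq (by ring_nf))
  obtain ⟨Z1, hZ⟩ := eventually_atTop.1 (S.and ((eventually_ge_atTop (F.Zs F.J0)).and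
    (eventually_ge_atTop 10)))
  refine ⟨_, Z1, r0, fun Z h x hx hl => ?_, ?_⟩
  · obtain ⟨a1, a2, -, a3⟩ := (hZ Z h).1.2 x hx hl
    exact ⟨a1, a2, st (hZ Z h).1.1.1 hx a1 a2, a3⟩
  rintro ⟨Z, x⟩ ⟨h, hx, hl⟩
  obtain ⟨⟨⟨h1, -⟩, h2⟩, h3, h4⟩ := hZ Z h
  obtain ⟨a1, a2, -⟩ := h2 x hx hl
  set T := {q : ℝ × (α ⊕ ι → ℂ) | Z1 ≤ q.1 ∧ ‖q.2‖ < r / 2 ∧ ∀ l, ‖q.2 (.inr l)‖ < 1 / q.1 ^ 2}
  have c1 : Tendsto (fun q : ℝ × (α ⊕ ι → ℂ) => F.inv F.J0 (dg q.1) (Θ x)) (𝓝[T] (Z, x))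
      (𝓝 (F.inv F.J0 (dg Z) (Θ x))) :=
    (loc' le_rfl h1 a1 a2 (Z := Z) (fun _ => le_rfl) h3 (by linarith)).1.tendsto.comp
      ((show Continuous fun q : ℝ × (α ⊕ ι → ℂ) => (dg q.1 : (ι → ℝ) × ℝ) by
        unfold dg; fun_prop).continuousWithinAt.tendsto_nhdsWithin fun q hq => (hZ _ hq.1).1.1.1)
  obtain ⟨ρ, ρ0, hρ⟩ := Metric.eventually_nhds_iff_ball.1 (show ∀ᶠ q : ℝ × (α ⊕ ι → ℂ) in 𝓝 (Z, x),
      ‖q.2‖ < r / 2 ∧ ∀ l, ‖q.2 (.inr l)‖ < 1 / q.1 ^ 2 from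
    (continuous_snd.norm.continuousAt.eventually_lt_const hx).and (eventually_all.2 fun l =>
      ContinuousAt.eventually_lt (by fun_prop) (continuousAt_const.div (by fun_prop)
        (by simp; linarith)) (hl l)))
  have c2 : Tendsto (fun q : ℝ × (α ⊕ ι → ℂ) => 2 * max F.r 1 / ρ * dist q.2 x) (𝓝[T] (Z, x))
      (𝓝 0) := by
    simpa using ((show Continuous fun q : ℝ × (α ⊕ ι → ℂ) => 2 * max F.r 1 / ρ * dist q.2 x by
      fun_prop).tendsto (Z, x)).mono_left nhdsWithin_le_nhds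
  refine c1.congr_dist (squeeze_zero' (.of_forall fun _ => dist_nonneg) ?_ c2)
  filter_upwards [self_mem_nhdsWithin, mem_nhdsWithin_of_mem_nhds (ball_mem_nhds _ ρ0)]
    with q q1 q2
  rw [← ball_prod_same] at q2
  obtain ⟨⟨⟨b1, -⟩, b2⟩, -, b3⟩ := hZ _ q1.1
  have m : ∀ w ∈ ball x ρ, ‖w‖ < r / 2 ∧ ∀ l, ‖w (.inr l)‖ < 1 / q.1 ^ 2 := fun w hw =>
    hρ (q.1, w) (ball_prod_same Z x ρ ▸ ⟨q2.1, hw⟩)
  have m' := fun w hw => b2 w (m w hw).1 (m w hw).2
  have bd : ∀ w ∈ ball x ρ, ‖F.inv F.J0 (dg q.1) (Θ w)‖ ≤ max F.r 1 := fun w hw =>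
    (pi_norm_le_iff_of_nonneg (by positivity)).2 fun k => by
      rcases k with i | l
      · exact ((m' w hw).1.1 i).le.trans (le_max_left _ _)
      · have := dsc_norm (Z := q.1) ((m' w hw).1.2 l) (by linarith [nuJ (F := F) le_rfl]) b3
        refine le_trans (le_of_mul_le_mul_right (this.trans ?_) (by positivity : 0 < q.1 ^ 2))
          (le_max_right _ _)
        nlinarith [b3]
  rw [dist_comm]
  refine Complex.dist_le_div_mul_dist_of_mapsTo_ball (f := fun w => F.inv F.J0 (dg q.1) (Θ w))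
    (fun w hw => ?_) (fun w hw => mem_closedBall_iff_norm.2 ((norm_sub_le _ _).trans
      (by linarith [bd w hw, bd x (mem_ball_self ρ0)]))) q2.2
  have := diff_inv le_rfl b1 (m' w hw).1
  rw [(m' w hw).2.1] at this
  exact (this.comp w (hN.hol.differentiableAt (isOpen_ball.mem_nhds (mem_ball_zero_iff.2
    (by linarith [(m w hw).1]))))).differentiableWithinAt

end

end Vale.Agent.P218Q
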