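import Vale.Agent.P218Q.ObsA

/-!
# P218, block NF: the observable determines the normal coordinate
-/

set_option linter.all false

open Set Filter Topology Metric

namespace Vale.Agent.P218Q

open Vale.Agent.P218T

noncomputable section

namespace Ob

variable {w w' c : ℂ} {m s Z K : ℝ}

/-- the remainder in the integrand -/
def dd (m s : ℝ) (w : ℂ) : ℂ :=
  kk (s ^ 2 + vb s w - m ^ 2) * (Complex.sqrt (qb s w) - Complex.sqrt (qb m w) * (s / m))

/-- the primitive -/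
def pr (m s : ℝ) (w : ℂ) : ℂ := pp (s ^ 2 + vb s w - m ^ 2)

/-- the boundary terms -/
def bb (m : ℝ) (w : ℂ) : ℂ :=
  Complex.sqrt (qb m w) / m * (2 / (1 + w) * (pr m (m + 1) w - pr m (m - 1) w) - 2)

theorem mem_m (m : ℝ) : m ∈ Icc (m - 1) (m + 1) := ⟨by linarith, by linarith⟩

theorem w_le (hm : 1000 ≤ m) (hw : ‖w‖ * m ^ 2 ≤ 3 / 2) : ‖w‖ * m ≤ 1 / 500 := by
  nlinarith [mul_le_mul_of_nonneg_left hm (mul_nonneg (norm_nonneg w) (show 0 ≤ m by linarith))]

theorem one_w (hm : 1000 ≤ m) (hw : ‖w‖ * m ^ 2 ≤ 3 / 2) : 1 / 2 ≤ ‖1 + w‖ := by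
  have := norm_sub_le (1 + w) w
  rw [add_sub_cancel_right, norm_one] at this
  nlinarith [w_le hm hw, norm_nonneg w]

theorem ks_int (hm : 1000 ≤ m) (hw : ‖w‖ * m ^ 2 ≤ 3 / 2) : IntervalIntegrable
    (fun s : ℝ => kk (s ^ 2 + vb s w - m ^ 2) * s) MeasureTheory.volume (m - 1) (m + 1) :=
  ContinuousOn.intervalIntegrable_of_Icc (by linarith) ((kk_cont (c_vb w).continuousOn
    fun s hs => by linarith [(vb_le hm hs hw (by norm_num)).1]).mul (by fun_prop))

theorem dd_eq (m : ℝ) (w : ℂ) : (fun s => dd m s w) = fun s : ℝ => ph m s (vb s w) (qb s w) -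
    Complex.sqrt (qb m w) / m * (kk (s ^ 2 + vb s w - m ^ 2) * s) := funext fun s => by
  rw [dd, ph]
  ring

theorem dd_int (hm : 1000 ≤ m) (hw : ‖w‖ * m ^ 2 ≤ 3 / 2) :
    IntervalIntegrable (fun s => dd m s w) MeasureTheory.volume (m - 1) (m + 1) :=
  dd_eq m w ▸ (om_int hm hw).sub ((ks_int hm hw).const_mul _)

theorem Om_eq (hm : 1000 ≤ m) (hw : ‖w‖ * m ^ 2 ≤ 3 / 2) : Om m w =
    (∫ s in (m - 1)..(m + 1), dd m s w) + bb m w + 2 * Complex.sqrt (qb m w) / m := by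
  have h1 : 1 + w ≠ 0 := norm_pos_iff.1 (by linarith [one_w hm hw])
  rw [dd_eq, intervalIntegral.integral_sub (om_int hm hw) ((ks_int hm hw).const_mul _),
    intervalIntegral.integral_const_mul, intervalIntegral.integral_eq_sub_of_hasDerivAt
      (f := fun s => 2 / (1 + w) * pr m s w) (fun s hs => ?_) (ks_int hm hw), bb, Om]
  · ring
  rw [uIcc_of_le (by linarith)] at hs
  have h2 : HasDerivAt (fun z : ℂ => z ^ 2 + (2 + w * (z ^ 2 - 2)) - m ^ 2) (2 * s * (1 + w)) s :=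
    ((((hasDerivAt_pow 2 _).fun_add ((((hasDerivAt_pow 2 _).sub_const 2).const_mul w).const_add
      2))).sub_const _).congr_deriv (by simp; ring)
  have h3 := d_pp (t_im (V := vb s w) (by linarith [(vb_le hm hs hw (by norm_num)).1]) m s)
  exact (((HasDerivAt.comp (s : ℂ) h3 h2).const_mul (2 / (1 + w))).comp_ofReal).congr_deriv
    (by field_simp; ring)

theorem dd_le (hm : 1000 ≤ m) (hs : s ∈ Icc (m - 1) (m + 1)) (hw : ‖w‖ * m ^ 2 < 3 / 2) :
    DifferentiableAt ℂ (dd m s) w ∧ ‖dd m s w‖ ≤ 6 * rh m s * (100 / m) := by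
  obtain ⟨a1, -, a2⟩ := vb_le hm hs hw.le (by norm_num)
  obtain ⟨-, -, a3⟩ := vb_le hm (mem_m m) hw.le (by norm_num)
  have h0 : 0 < m := by linarith
  refine ⟨(d_kt (diff_vb s w) (by linarith) m s).mul
    (((d_sqrt (by linarith)).comp w (d_qb s w)).sub
      (((d_sqrt (by linarith)).comp w (d_qb m w)).mul_const _)), ?_⟩
  rw [dd, norm_mul]
  refine mul_le_mul (kk_rh (by linarith) h0.le (by linarith [hs.1])) ?_ (norm_nonneg _)
    (by linarith [rh_pos m s])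
  have h1 : ‖qb s w - qb m w‖ ≤ 7 / m := by
    rw [show qb s w - qb m w = w * (1 + w) * (s ^ 2 - m ^ 2 : ℝ) by
      simp only [qb, vb]; push_cast; ring, norm_mul, norm_mul, Complex.norm_real, le_div_iff₀ h0]
    have b1 : ‖1 + w‖ ≤ 3 / 2 := by
      nlinarith [norm_add_le 1 w, norm_one (α := ℂ), w_le hm hw.le, norm_nonneg w]
    have b2 : ‖s ^ 2 - m ^ 2‖ ≤ 3 * m := abs_le.2 ⟨by nlinarith [hs.1, hs.2], by nlinarith [hs.1, hs.2]⟩
    nlinarith [mul_le_mul_of_nonneg_left (mul_le_mul b1 b2 (norm_nonneg _) (by norm_num))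
      (mul_nonneg (norm_nonneg w) h0.le)]
  have h2 : ‖(1 - s / m : ℂ)‖ ≤ 1 / m := by
    rw [show (1 - s / m : ℂ) = ((m - s) / m : ℝ) by
      have : (m : ℂ) ≠ 0 := by exact_mod_cast h0.ne'
      push_cast; field_simp, Complex.norm_real, norm_div, Real.norm_of_nonneg h0.le]
    exact div_le_div_of_nonneg_right (abs_le.2 ⟨by linarith [hs.2], by linarith [hs.1]⟩) h0.le
  rw [show Complex.sqrt (qb s w) - Complex.sqrt (qb m w) * (s / m) =
    (Complex.sqrt (qb s w) - Complex.sqrt (qb m w)) + Complex.sqrt (qb m w) * (1 - s / m) by ring]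
  refine (norm_add_le _ _).trans ?_
  have h3 := sqrt_lip (Q := qb s w) (Q' := qb m w) (by linarith) (by linarith)
  have h4 := mul_le_mul (sqrt_le (Q := qb m w) (by linarith)) h2 (norm_nonneg _) zero_le_two
  rw [norm_mul, show 100 / m = 14 * (7 / m) + 2 * (1 / m) by ring]
  linarith

theorem exp_le {x : ℝ} (hm : 0 < m) (h : x ≤ -(m / 4)) : Real.exp x ≤ 4 / m := by
  refine (Real.exp_le_exp.2 h).trans ?_
  rw [Real.exp_neg, ← inv_div m 4]
  exact inv_anti₀ (by positivity) (by linarith [Real.add_one_le_exp (m / 4)])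

theorem bb_le (hm : 1000 ≤ m) (hw : ‖w‖ * m ^ 2 < 3 / 2) :
    DifferentiableAt ℂ (bb m) w ∧ ‖bb m w‖ ≤ 2 / m * (36 / m) := by
  have h0 : 0 < m := by linarith
  have a1 : ‖vb (m + 1) w - 2‖ < 2 := by
    linarith [(vb_le hm (right_mem_Icc.2 (by linarith)) hw.le (by norm_num)).1]
  have a2 : ‖vb (m - 1) w - 2‖ < 2 := by
    linarith [(vb_le hm (left_mem_Icc.2 (by linarith)) hw.le (by norm_num)).1]
  have a3 : ‖qb m w - 2‖ < 2 := by linarith [(vb_le hm (mem_m m) hw.le (by norm_num)).2.2]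
  have a4 := one_w hm hw.le
  have a5 : 1 + w ≠ 0 := norm_pos_iff.1 (by linarith)
  have d : ∀ s, ‖vb s w - 2‖ < 2 → DifferentiableAt ℂ (pr m s) w := fun s h =>
    DifferentiableAt.comp (f := fun z => (s : ℂ) ^ 2 + vb s z - m ^ 2) w
      (d_pp (t_im h m s)).differentiableAt (((diff_vb s w).const_add _).sub_const _)
  refine ⟨(((d_sqrt a3).comp w (d_qb m w)).div_const _).mul
    ((((differentiableAt_const _).div (differentiableAt_id.const_add 1) a5).mul
      ((d _ a1).sub (d _ a2))).sub_const _), ?_⟩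
  have h1 : ‖pr m (m + 1) w - 1‖ ≤ 4 / m := by
    have b1 := t_im a1 m (m + 1)
    rw [pr, pp, div_sub_one (ex_ne b1), sub_add_cancel_left, norm_div, norm_neg]
    refine (div_le_self (norm_nonneg _) (one_le_ex b1)).trans ?_
    rw [norm_ex, t_re]
    exact exp_le h0 (by nlinarith [(ball_re a1).1])
  have h2 : ‖pr m (m - 1) w‖ ≤ 4 / m := by
    have b1 := t_im a2 m (m - 1)
    have b2 := le_ex b1
    rw [norm_ex, t_re] at b2
    rw [pr, pp, norm_div, norm_one]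
    refine (one_div_le_one_div_of_le (Real.exp_pos _) b2).trans ?_
    rw [one_div, ← Real.exp_neg]
    exact exp_le h0 (by nlinarith [(ball_re a2).2.1])
  rw [bb, norm_mul, norm_div, Complex.norm_real, Real.norm_of_nonneg h0.le]
  refine mul_le_mul (div_le_div_of_nonneg_right (sqrt_le a3) h0.le) ?_ (norm_nonneg _)
    (by positivity)
  have h3 : ‖w‖ ≤ 1 / m := by
    rw [le_div_iff₀ h0]
    linarith [w_le hm hw.le]
  rw [show 2 / (1 + w) * (pr m (m + 1) w - pr m (m - 1) w) - 2 =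
    2 * (pr m (m + 1) w - 1 + -pr m (m - 1) w + -w) / (1 + w) by field_simp; ring, norm_div,
    norm_mul, Complex.norm_ofNat, div_le_iff₀ (by linarith)]
  have h4 := norm_add₃_le (a := pr m (m + 1) w - 1) (b := -pr m (m - 1) w) (c := -w)
  rw [norm_neg, norm_neg] at h4
  have h5 := mul_le_mul_of_nonneg_left a4 (show 0 ≤ 36 / m by positivity)
  rw [show 36 / m * (1 / 2) = 2 * (4 / m + 4 / m + 1 / m) by ring] at h5
  linarith

/-- the model observable is injective -/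
theorem om_inj (hm : 10 ^ 6 ≤ m) (hw : ‖w‖ * m ^ 2 ≤ 11 / 10) (hw' : ‖w'‖ * m ^ 2 ≤ 11 / 10) :
    ‖w - w'‖ * m ≤ 4 * ‖Om m w - Om m w'‖ := by
  have h0 : 0 < m := by linarith
  have hm' : 1000 ≤ m := by linarith
  have h1 := int_le (f := fun s => dd m s w - dd m s w') (C := 3000 * m * ‖w - w'‖) h0
    (by positivity) fun s hs => (lipW h0 (fun z hz => dd_le hm' hs hz) hw hw').trans_eq
      (by field_simp; ring)
  have h2 := lipW h0 (fun z hz => bb_le hm' hz) hw hw'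
  rw [intervalIntegral.integral_sub (dd_int hm' (by linarith)) (dd_int hm' (by linarith)),
    show 16 * (3000 * m * ‖w - w'‖) / m = 48000 * ‖w - w'‖ by field_simp; ring] at h1
  rw [show 5 * (2 / m * (36 / m)) * m ^ 2 = 360 by field_simp; ring] at h2
  have a1 := sqrt_le (Q := qb m w) (by linarith [(vb_le hm' (mem_m m) hw (by norm_num)).2.2])
  have a2 := sqrt_le (Q := qb m w') (by linarith [(vb_le hm' (mem_m m) hw' (by norm_num)).2.2])
  have h3 : (Complex.sqrt (qb m w) - Complex.sqrt (qb m w')) *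
      (Complex.sqrt (qb m w) + Complex.sqrt (qb m w')) =
      (w - w') * ((m ^ 2 - 2 : ℝ) + (w + w') * (m ^ 2 : ℝ)) := by
    rw [mul_comm, ← sq_sub_sq, HJ.sqrt_sq, HJ.sqrt_sq]
    simp only [qb, vb]
    push_cast
    ring
  have h4 : m ^ 2 - 5 ≤ ‖((m ^ 2 - 2 : ℝ) : ℂ) + (w + w') * (m ^ 2 : ℝ)‖ := by
    have b1 := norm_sub_le (((m ^ 2 - 2 : ℝ) : ℂ) + (w + w') * (m ^ 2 : ℝ)) ((w + w') * (m ^ 2 : ℝ))
    rw [add_sub_cancel_right, norm_mul, Complex.norm_real, Complex.norm_real,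
      Real.norm_of_nonneg (by nlinarith), Real.norm_of_nonneg (sq_nonneg m)] at b1
    nlinarith [mul_le_mul_of_nonneg_right (norm_add_le w w') (sq_nonneg m)]
  have h5 := congrArg norm h3
  rw [norm_mul, norm_mul] at h5
  have h6 := mul_le_mul_of_nonneg_left h4 (norm_nonneg (w - w'))
  have h7 := mul_le_mul_of_nonneg_left ((norm_add_le _ _).trans (add_le_add a1 a2))
    (norm_nonneg (Complex.sqrt (qb m w) - Complex.sqrt (qb m w')))
  have h8 : 2 * (Complex.sqrt (qb m w) - Complex.sqrt (qb m w')) = m * ((Om m w - Om m w') +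
      -((∫ s in (m - 1)..(m + 1), dd m s w) - ∫ s in (m - 1)..(m + 1), dd m s w') +
      -(bb m w - bb m w')) := by
    have : (m : ℂ) ≠ 0 := by exact_mod_cast h0.ne'
    rw [Om_eq hm' (w := w) (by linarith), Om_eq hm' (w := w') (by linarith)]
    field_simp
    ring
  have h9 := congrArg norm h8
  rw [norm_mul, norm_mul, Complex.norm_ofNat, Complex.norm_real, Real.norm_of_nonneg h0.le] at h9
  have h10 := mul_le_mul_of_nonneg_left (norm_add₃_le.trans (add_le_add_three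
    (le_refl ‖Om m w - Om m w'‖) ((norm_neg _).trans_le h1) ((norm_neg _).trans_le h2))) h0.le
  refine le_of_mul_le_mul_left ?_ h0
  linarith [mul_le_mul_of_nonneg_left (show 10 + 200000 * m ≤ m ^ 2 by nlinarith)
    (norm_nonneg (w - w')), mul_nonneg h0.le (norm_nonneg (w - w'))]

theorem mem_dsc' (hm : 1000 ≤ m) (hw : ‖w‖ * m ^ 2 ≤ 3 / 2) : w ∈ dsc 1 m := by
  have h1 := norm_sub_le (vb m w - 2) 1
  have h2 : 4 * 1 / m ^ 2 ≤ 1 / 10 := by
    rw [div_le_iff₀ (by positivity)]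
    nlinarith
  rw [show vb m w - 2 - 1 = vb m w - 3 by ring, norm_one] at h1
  show ‖vb m w - 3‖ < _
  linarith [(vb_le hm (mem_m m) hw (by norm_num)).1]

theorem gam_lip (hm : 1000 ≤ m) (hw : ‖w‖ * m ^ 2 ≤ 11 / 10) (hw' : ‖w'‖ * m ^ 2 ≤ 11 / 10) :
    ‖gam m w - gam m w'‖ ≤ 10 * ‖w - w'‖ := by
  have h0 : 0 < m := by linarith
  refine (lipW (B := 2 / m ^ 2) h0 (fun z hz => ⟨diff_gam (mem_dsc' hm hz.le) le_rfl hm,
    (gam_le (mem_dsc' hm hz.le) le_rfl hm).trans ?_⟩) hw hw').trans_eq (by field_simp; ring)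
  rw [le_div_iff₀ (by positivity)]
  linarith

theorem bt_le {V V1 V2 : ℝ → ℂ} {A ε : ℝ} (hA : 0 ≤ A) (hm : 1000 ≤ m) (hZ : 2 * m ≤ Z)
    (hs : s ∈ Icc (m - 1) (m + 1))
    (H : M0.Hyp V V1 V2 Z A 120 (120 / Z ^ 2) ε (10 ^ 10 * A / (Z ^ 4 * √Z)) s) :
    ‖M0.q V V1 s‖ ≤ (10 ^ 7 + 10 ^ 13 * A) / m ^ 5 := by
  have h0 : 0 < m := by linarith
  have z0 : 0 < Z := by linarith
  have s0 := H.pos
  refine (H.q_le s (left_mem_Icc.2 H.le)).trans ?_
  have h1 : 1 / 2 ≤ M0.sg V Z s := by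
    refine le_of_mul_le_mul_left (le_trans ?_ H.s2) z0
    linarith [hs.2]
  have h2 : M0.ly Z s ≤ 16 / Z ^ 2 := by
    rw [M0.ly, ← inv_div (Z ^ 2) 16, show (s ^ 2 - Z ^ 2) / 8 = -((Z ^ 2 - s ^ 2) / 8) by ring, Real.exp_neg]
    refine inv_anti₀ (by positivity) ?_
    nlinarith [Real.add_one_le_exp ((Z ^ 2 - s ^ 2) / 8), pow_le_pow_left₀ s0.le
      (show s ≤ 3 / 5 * Z by linarith [hs.2]) 2]
  have h3 : 1 ≤ √Z := Real.one_le_sqrt.2 (by linarith)
  rw [M0.bt, add_div]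
  refine add_le_add ?_ ?_
  · calc _ ≤ 1000 * (120 / (2 * m) ^ 2) ^ 2 / (m / 2 * (1 / 2)) := by
          gcongr
          linarith [hs.1]
      _ = 3600000 / m ^ 5 := by field_simp; ring
      _ ≤ _ := by gcongr; norm_num
  · calc _ ≤ 10 * (10 ^ 10 * A / (Z ^ 4 * 1)) * Z * (16 / Z ^ 2) := by
          gcongr
          · exact (M0.Hyp.l0 s).le
          · exact H.le
      _ = 16 * 10 ^ 11 * A / Z ^ 5 := by field_simp
      _ ≤ _ := by gcongr <;> linarith

theorem tr (K : ℝ) : ∃ C : ℝ, 0 ≤ C ∧ ∀ᶠ m : ℝ in atTop, ∀ Z c O V V1 V2,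
    m ∈ Icc (Z / 20) (Z / 2) → c ∈ dsc (10 ^ 13) Z → Prof K Z c O V V1 V2 → ∃ w : ℂ,
      ‖w‖ * m ^ 2 ≤ 11 / 10 ∧
      ‖gam Z c - gam m w‖ ≤ 10 ^ 18 / (Z ^ 6 * ‖vb Z c‖) + C / (m ^ 4 * √m) ∧
      ‖O m - 2 * Real.pi * Real.exp (-m ^ 2 / 4) * Om m w‖ ≤
        C / m ^ 4 * Real.exp (-m ^ 2 / 4) := by
  obtain ⟨A, hA⟩ : ∃ A, A = |K| := ⟨_, rfl⟩
  have a0 : 0 ≤ A := hA ▸ abs_nonneg K
  have a1 : K ≤ A := hA ▸ le_abs_self K
  obtain ⟨Zs, hZs⟩ := M0.ex_hyp (M := 120) (by norm_num) a0 a0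
  obtain ⟨B, hB⟩ : ∃ B, B = 10 ^ 7 + 10 ^ 13 * A := ⟨_, rfl⟩
  have b0 : 0 ≤ B := by rw [hB]; positivity
  refine ⟨10 ^ 26 * (1 + A), by positivity, ?_⟩
  filter_upwards [eventually_ge_atTop 1000, eventually_ge_atTop Zs, eventually_ge_atTop (30 * B)]
    with m hm h1 h2 Z c O V V1 V2 hZ hc P
  have h0 : 0 < m := by linarith
  have z1 : 2 * m ≤ Z := by linarith [hZ.2]
  have z0 : 0 < Z := by linarith
  have r0 : 0 < √Z := Real.sqrt_pos.2 z0
  have hW : M0.W V Z = c := by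
    have : (Z : ℂ) ^ 2 - 2 ≠ 0 := norm_pos_iff.1 (by rw [nph (by linarith)]; nlinarith)
    rw [M0.W, P.top, vb, add_sub_cancel_left, mul_div_cancel_right₀ _ this]
  have c1 := dsc_norm hc (by norm_num) (by linarith)
  have c2 := dsc_low hc z0.ne'
  have v0 : 0 < ‖vb Z c‖ := pos_of_mul_pos_right (show 0 < Z ^ 2 * _ by linarith) (sq_nonneg Z)
  have H := hZs Z (Z / 300) (by linarith) le_rfl (by linarith) V V1 V2 P.cV P.cV1 P.dV P.dV1
    (fun s hs => (P.eq s hs).trans (by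
      have := M0.Hyp.l0 (Z := Z) s
      have : 0 < s := by linarith [hs.1]
      gcongr))
    (P.top ▸ (dsc_re0 hc (by norm_num)).le) (by linarith [P.top ▸ dsc_six hc (by norm_num)])
    (by rw [P.top]; linarith) (by rw [hW, le_div_iff₀ (by positivity)]; linarith)
    (by
      rw [hW, P.top]
      refine P.rob.trans (add_le_add (le_of_eq ?_) (by gcongr))
      field_simp
      norm_num)
  rw [P.top] at H
  have hI : Icc (m - 1) (m + 1) ⊆ Icc (Z / 300) Z :=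
    Icc_subset_Icc (by linarith [hZ.1]) (by linarith)
  have Hm := H.mono (hI (mem_m m))
  have w1 : ‖M0.W V m‖ * m ^ 2 ≤ 11 / 10 := by
    have e1 := Hm.w1 Hm.hb
    have e2 := H.he
    rw [hW, ← mul_div_assoc, ← mul_div_assoc, le_div_iff₀ (by positivity)] at e1
    have e3 := mul_le_mul_of_nonneg_right (norm_sub_norm_le (M0.W V m) c) (sq_nonneg Z)
    nlinarith [mul_le_mul_of_nonneg_left (pow_le_pow_left₀ (by positivity) z1 2)
      (norm_nonneg (M0.W V m))]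
  have hv : vb m (M0.W V m) = V m := Hm.V_eq.symm
  refine ⟨M0.W V m, w1, ?_, ?_⟩
  · have d1 := den_ge hc (by norm_num) (by linarith)
    have d2 := den_ge (mem_dsc' hm (w := M0.W V m) (by linarith)) le_rfl hm
    have e1 := Hm.transport
    rw [hW, M0.Lam, M0.Lam, P.top, ← hv] at e1
    rw [gam, gam, div_sub_div _ _ (norm_pos_iff.1 (by linarith)) (norm_pos_iff.1 (by linarith)),
      norm_div, norm_mul, ← norm_neg]
    refine (div_le_div₀ ((norm_nonneg _).trans e1) ((le_of_eq (by congr 1; ring)).trans e1)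
      (show 0 < 1 / 2 by norm_num) (le_trans (by norm_num)
        (mul_le_mul d1 d2 (by norm_num) (norm_nonneg _)))).trans ?_
    have m1 : √m ≤ m := Real.sqrt_le_iff.2 ⟨h0.le, by nlinarith⟩
    have m0 : 0 < √m := Real.sqrt_pos.2 h0
    have f1 : 1 / Z ^ 6 ≤ 1 / (m ^ 4 * √m) := by
      refine one_div_le_one_div_of_le (by positivity) ?_
      calc _ ≤ Z ^ 4 * Z ^ 2 := by gcongr <;> nlinarith
        _ = _ := by ring
    have f2 : A / (Z ^ 4 * √Z) ≤ A / (m ^ 4 * √m) := by gcongr <;> linarith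
    have f3 : A / m ^ 5 ≤ A / (m ^ 4 * √m) := by rw [pow_succ m 4]; gcongr
    have f4 : 0 ≤ 1 / (Z ^ 6 * ‖vb Z c‖) := by positivity
    have f5 : 0 ≤ 1 / (m ^ 4 * √m) := by positivity
    have f6 : 0 ≤ A / (m ^ 4 * √m) := by positivity
    calc _ = 6 * 10 ^ 6 * 120 ^ 5 * (1 / (Z ^ 6 * ‖vb Z c‖)) + 6 * 10 ^ 11 * 120 ^ 5 * (1 / Z ^ 6) +
          6 * 10 ^ 16 * 120 ^ 4 * (A / (Z ^ 4 * √Z)) + 12 * (A / m ^ 5) := by field_simp; ring
      _ ≤ 10 ^ 18 * (1 / (Z ^ 6 * ‖vb Z c‖)) + (10 ^ 26 * (1 / (m ^ 4 * √m)) +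
          10 ^ 26 * (A / (m ^ 4 * √m))) := by linarith
      _ = _ := by ring
  have hq : ∀ s ∈ Icc (m - 1) (m + 1), ‖M0.q V V1 s‖ ≤ B / m ^ 5 := fun s hs =>
    hB ▸ bt_le a0 hm z1 hs (H.mono (hI hs))
  have hw : ∀ s ∈ Icc (m - 1) (m + 1), ‖M0.W V s - M0.W V m‖ ≤ B / m ^ 5 := fun s hs => by
    refine ((convex_Icc _ _).norm_image_sub_le_of_norm_hasDerivWithin_le (fun x hx => (H.dW
      ⟨by linarith [hx.1, hZ.1], by linarith [hx.2]⟩).hasDerivWithinAt) hq (mem_m m) hs).trans ?_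
    exact mul_le_of_le_one_right (by positivity) (abs_le.2 ⟨by linarith [hs.1], by linarith [hs.2]⟩)
  have e1 := om_near (δ := 3 * B / m ^ 3) hm w1 (by
      rw [div_le_iff₀ (by positivity)]
      nlinarith [mul_le_mul_of_nonneg_left (show 1 ≤ m ^ 2 by nlinarith) h0.le])
    (P.cV.mono hI) (P.cV1.mono hI) fun s hs => by
      have K := H.mono (hI hs)
      have s1 : s ^ 2 - 2 ≤ 2 * m ^ 2 := by nlinarith [hs.1, hs.2]
      have s2 : ‖(2 * s : ℂ)‖ ≤ m ^ 2 := by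
        rw [norm_mul, Complex.norm_ofNat, Complex.norm_real, Real.norm_of_nonneg K.pos.le]
        nlinarith [hs.2]
      have s3 : 0 ≤ s ^ 2 - 2 := by linarith [K.big]
      have s4 : 3 * B / m ^ 3 = 3 * (B / m ^ 5 * m ^ 2) := by field_simp
      have s5 : 0 ≤ B / m ^ 5 := by positivity
      have s6 := mul_le_mul (hw s hs) s1 s3 s5
      have s7 := mul_le_mul (hq s hs) s1 s3 s5
      have s8 := mul_le_mul (hw s hs) s2 (norm_nonneg _) s5
      constructor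
      · rw [K.V_eq, vb, add_sub_add_left_eq_sub, ← sub_mul, norm_mul, K.nph]
        linarith [mul_nonneg s5 (sq_nonneg m)]
      · rw [K.V1_eq, add_sub_assoc, ← mul_sub, mul_comm (2 * s : ℂ)]
        refine (norm_add_le _ _).trans ?_
        rw [norm_mul, norm_mul, K.nph]
        linarith
  refine (norm_sub_le_norm_sub_add_norm_sub _ _ _).trans ((add_le_add (P.obs m hZ) e1).trans ?_)
  rw [mul_div_right_comm, ← add_mul]
  refine mul_le_mul_of_nonneg_right ?_ (Real.exp_nonneg _)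
  calc _ ≤ A / m ^ 4 + 40000 * (3 * B / m ^ 3) / m := by gcongr; linarith
    _ = (A + 120000 * B) / m ^ 4 := by field_simp; ring
    _ ≤ _ := by gcongr; linarith

end Ob

open Ob in
theorem obs : OBS := by
  intro K
  obtain ⟨C, hC, h⟩ := tr K
  refine ⟨2 * C + 40 * (2 * C + 1), ?_⟩
  filter_upwards [h, eventually_ge_atTop (10 ^ 6)] with m h hm Z Z' c c' O O' V V1 V2 U U1 U2 hZ hZ'
    hc hc' P P' hO
  obtain ⟨w, w1, w2, w3⟩ := h Z c O V V1 V2 hZ hc P
  obtain ⟨w', w1', w2', w3'⟩ := h Z' c' O' U U1 U2 hZ' hc' P'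
  have h0 : 0 < m := by linarith
  have e0 := Real.exp_pos (-m ^ 2 / 4)
  have h1 : ‖Om m w - Om m w'‖ ≤ (2 * C + 1) / m ^ 4 := by
    have a1 := norm_sub_le_norm_sub_add_norm_sub
      (2 * Real.pi * Real.exp (-m ^ 2 / 4) * Om m w) (O m)
      (2 * Real.pi * Real.exp (-m ^ 2 / 4) * Om m w')
    have a2 := norm_sub_le_norm_sub_add_norm_sub (O m) (O' m)
      (2 * Real.pi * Real.exp (-m ^ 2 / 4) * Om m w')
    rw [← mul_sub, norm_sub_rev _ (O m), norm_mul, norm_mul, norm_mul, Complex.norm_ofNat,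
      Complex.norm_real, Complex.norm_real, Real.norm_of_nonneg Real.pi_pos.le,
      Real.norm_of_nonneg e0.le] at a1
    refine le_of_mul_le_mul_left ?_ e0
    rw [show Real.exp (-m ^ 2 / 4) * ((2 * C + 1) / m ^ 4) =
      2 * (C / m ^ 4 * Real.exp (-m ^ 2 / 4)) + Real.exp (-m ^ 2 / 4) / m ^ 4 by ring]
    linarith [mul_le_mul_of_nonneg_right (show 1 ≤ 2 * Real.pi by linarith [Real.pi_gt_three])
      (mul_nonneg e0.le (norm_nonneg (Om m w - Om m w')))]
  have h2 : ‖w - w'‖ ≤ 4 * ((2 * C + 1) / (m ^ 4 * √m)) := by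
    have m0 : 0 < √m := Real.sqrt_pos.2 h0
    rw [← div_div, ← mul_div_assoc, le_div_iff₀ m0]
    linarith [om_inj hm w1 w1', mul_le_mul_of_nonneg_left
      (show √m ≤ m from Real.sqrt_le_iff.2 ⟨h0.le, by nlinarith⟩) (norm_nonneg (w - w'))]
  have h3 := gam_lip (by linarith) w1 w1'
  have h4 := norm_sub_le_norm_sub_add_norm_sub (gam Z c) (gam m w) (gam Z' c')
  have h5 := norm_sub_le_norm_sub_add_norm_sub (gam m w) (gam m w') (gam Z' c')
  rw [norm_sub_rev (gam m w')] at h5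
  rw [add_div, mul_div_assoc, mul_div_assoc]
  linarith

end

end Vale.Agent.P218Q
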