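import Vale.Agent.P218Q.In

/-!
# P218, block NF: row TM (helper80)
-/

set_option linter.all false

open Set Filter Topology Metric

namespace Vale.Agent.P218Q.In

open Vale.Agent.P218S Vale.Agent.P218G Vale.Agent.P218T

noncomputable section

variable {y W ρ K : ℝ} {c c' D : ℂ} {J : ℕ}

/-- distance to the tip -/
abbrev st (W : ℝ) (c' : ℂ) : ℂ := -c'⁻¹ - (tipv kap W : ℂ)

/-- the leading term -/
abbrev ee (J : ℕ) (W : ℝ) (c : ℂ) : ℂ := Complex.exp (-(nu J : ℂ) * Complex.log (yb W c))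

namespace Pt

theorem gam_bd (h : Pt y W c) (hW : 100 ≤ W) (hA : 6 * Real.log W + 7 ≤ W / 100) :
    ‖gam W c‖ * (999 / 1000) ≤ ‖c‖ ∧ ‖c‖ ≤ ‖gam W c‖ * (1001 / 1000) := by
  have e := congrArg norm (h.gam_mul hW hA)
  rw [norm_mul] at e
  rw [← e]
  exact ⟨mul_le_mul_of_nonneg_left (h.den hW hA).1 (norm_nonneg _),
    mul_le_mul_of_nonneg_left (h.den hW hA).2 (norm_nonneg _)⟩

theorem small (h : Pt y W c) (hW : 1000 ≤ W) (hA : 6 * Real.log W + 7 ≤ W / 100)
    (hr : ‖c' - gam W c‖ * W ^ 4 ≤ ρ) (hρ : ρ ≤ 20000) (hV : ‖vb W c‖ ≤ 1 / 4) :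
    ‖yb W c - Complex.log (yb W c) - st W c'‖ ≤
      ‖vb W c‖ * (1 + ‖yb W c‖) * (4 / 7) + ρ / 2 := by
  have W2 : 10 ^ 6 ≤ W ^ 2 := by nlinarith only [hW]
  have v2 : 7 / 4 ≤ ‖vb W c - 2‖ := by
    have := norm_sub_norm_le 2 (vb W c)
    rw [norm_sub_rev, Complex.norm_ofNat] at this
    linarith
  have c1 : 7 / 4 ≤ ‖c‖ * W ^ 2 := by nlinarith only [h.ch, v2, norm_nonneg c]
  have g1 : 17 / 10 ≤ ‖gam W c‖ * W ^ 2 := by
    nlinarith only [c1, mul_le_mul_of_nonneg_right (h.gam_bd (by linarith) hA).2 (sq_nonneg W)]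
  have r1 : ‖c' - gam W c‖ * W ^ 2 ≤ 1 / 10 := by
    nlinarith only [hr, hρ, mul_le_mul_of_nonneg_left W2
      (mul_nonneg (norm_nonneg (c' - gam W c)) (sq_nonneg W))]
  have c2 : 8 / 5 ≤ ‖c'‖ * W ^ 2 := by
    have := norm_sub_norm_le (gam W c) c'
    rw [norm_sub_rev] at this
    nlinarith only [g1, r1, mul_le_mul_of_nonneg_right this (sq_nonneg W)]
  have n0 : ∀ {x : ℂ} {a : ℝ}, 0 < a → a ≤ ‖x‖ * W ^ 2 → x ≠ 0 := fun a0 ha k => by
    rw [k, norm_zero, zero_mul] at ha; linarith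
  have c0 := n0 (by norm_num) c1
  have g0 := n0 (by norm_num) g1
  have c0' := n0 (by norm_num) c2
  have v0 : vb W c - 2 ≠ 0 := norm_pos_iff.1 (by linarith)
  have gi : (gam W c)⁻¹ = c⁻¹ - lm W c := by
    rw [gam, inv_div, lm]; field_simp
  have hc : c⁻¹ * (vb W c - 2) = W ^ 2 - 2 := by rw [vb]; field_simp; ring
  have e : vb W c * (yb W c - 1) / (vb W c - 2) = yb W c + c⁻¹ + (W ^ 2 - 2) / 2 := by
    rw [div_eq_iff v0, yb]; linear_combination -hc
  have id : yb W c - Complex.log (yb W c) - st W c' =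
      vb W c * (yb W c - 1) / (vb W c - 2) + (gam W c - c') / (c' * gam W c) := by
    rw [← inv_sub_inv c0' g0, e, gi, h.ly, st, tip_eq, lm]
    push_cast
    ring
  rw [id]
  refine (norm_add_le _ _).trans (add_le_add ?_ ?_)
  · have := norm_sub_le (yb W c) 1
    rw [norm_one] at this
    rw [norm_div, norm_mul, div_le_iff₀ (by linarith)]
    nlinarith only [mul_le_mul_of_nonneg_left this (norm_nonneg (vb W c)),
      mul_le_mul_of_nonneg_left v2 (mul_nonneg (norm_nonneg (vb W c))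
        (add_nonneg zero_le_one (norm_nonneg (yb W c))))]
  · have ρ0 : 0 ≤ ρ := le_trans (by positivity) hr
    rw [norm_div, norm_mul, norm_sub_rev, div_le_iff₀ (by positivity)]
    refine le_of_mul_le_mul_right ?_ (show 0 < W ^ 4 by positivity)
    nlinarith only [hr, mul_le_mul_of_nonneg_left
      (mul_le_mul c2 g1 (by norm_num) (by positivity)) ρ0, ρ0]

theorem two (h : Pt y W c) (hy : 10 ^ 6 ≤ y) (hW : 1000 ≤ W) (hA : 6 * Real.log W + 7 ≤ W / 100)
    (hr : ‖c' - gam W c‖ * W ^ 4 ≤ ρ) (hρ : ρ ≤ 20000) (hV : ‖vb W c‖ ≤ 1 / 4) :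
    ‖yb W c‖ / 2 ≤ ‖st W c'‖ ∧ ‖st W c'‖ ≤ 2 * ‖yb W c‖ := by
  have a := h.small hW hA hr hρ hV
  have y1 : 10 ^ 6 ≤ ‖yb W c‖ := by linarith [h.yr, Complex.re_le_norm (yb W c)]
  have l : Real.log ‖yb W c‖ ≤ ‖yb W c‖ / 1000 + 1000 := by
    have := Real.log_le_sub_one_of_pos (show 0 < ‖yb W c‖ / 1000 by linarith)
    rw [Real.log_div (by linarith) (by norm_num)] at this
    linarith [Real.log_le_sub_one_of_pos (show (0 : ℝ) < 1000 by norm_num)]
  have b := norm_add_le (yb W c - Complex.log (yb W c) - st W c') (Complex.log (yb W c))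
  rw [show yb W c - Complex.log (yb W c) - st W c' + Complex.log (yb W c) = yb W c - st W c' by
    ring] at b
  have d := mul_le_mul_of_nonneg_right hV (add_nonneg zero_le_one (norm_nonneg (yb W c)))
  have := abs_le.1 (abs_norm_sub_norm_le (yb W c) (st W c'))
  exact ⟨by linarith [h.l1], by linarith [h.l1]⟩

theorem low (h : Pt y W c) (hy : 10 ^ 6 ≤ y) (hW : 1000 ≤ W) (hA : 6 * Real.log W + 7 ≤ W / 100)
    (hr : ‖c' - gam W c‖ * W ^ 4 ≤ ρ) (hρ : ρ ≤ 20000) :
    W ^ 2 * ‖vb W c‖ / 100 ≤ ‖st W c'‖ := by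
  have W2 : 10 ^ 6 ≤ W ^ 2 := by nlinarith only [hW]
  rcases le_total ‖vb W c‖ (1 / 4) with hV | hV
  · linarith [(h.two hy hW hA hr hρ hV).1, h.yn, norm_nonneg (yb W c)]
  obtain ⟨t1, t2⟩ := tip_bd (by linarith) hA
  have t0 : ‖(tipv kap W : ℂ)‖ = tipv kap W := by
    rw [Complex.norm_real, Real.norm_of_nonneg (by linarith)]
  rcases eq_or_ne c' 0 with c0 | c0
  · rw [st, c0, inv_zero, neg_zero, zero_sub, norm_neg, t0]
    nlinarith only [t1, h.v6, W2]
  have r1 : ‖c' - gam W c‖ * W ^ 2 ≤ 1 / 50 := by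
    nlinarith only [hr, hρ, mul_le_mul_of_nonneg_left W2
      (mul_nonneg (norm_nonneg (c' - gam W c)) (sq_nonneg W))]
  have c2 : ‖c'‖ * W ^ 2 ≤ 5 := by
    have := norm_sub_norm_le c' (gam W c)
    nlinarith only [h.cz, r1, mul_le_mul_of_nonneg_right this (sq_nonneg W),
      mul_le_mul_of_nonneg_right (h.gam_bd (by linarith) hA).1 (sq_nonneg W)]
  have k := congrArg norm (h.key (by linarith) hA 0)
  rw [add_zero, Complex.ofReal_zero, mul_zero, zero_add, norm_mul] at k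
  have k1 := norm_sub_norm_le (vb W c) (-(c * (2 * Complex.log (yb W c))))
  rw [sub_neg_eq_add, ← k, norm_neg, mul_left_comm, norm_mul, Complex.norm_ofNat] at k1
  have k2 : ‖c * Complex.log (yb W c)‖ ≤ 1 / 20000 := by
    nlinarith only [(h.cl (by linarith) hA).2, hW, norm_nonneg (c * Complex.log (yb W c))]
  have k3 := mul_le_mul_of_nonneg_left (h.den (by linarith) hA).2
    (norm_nonneg (2 + 2 * gam W c * tipv kap W))
  have k4 := norm_add_le (2 * (c' * st W c')) (2 * ((c' - gam W c) * tipv kap W))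
  rw [show 2 * (c' * st W c') + 2 * ((c' - gam W c) * tipv kap W) =
    -(2 + 2 * gam W c * tipv kap W) by rw [st]; field_simp; ring, norm_neg, norm_mul, norm_mul,
    norm_mul, norm_mul, Complex.norm_ofNat, t0] at k4
  have k5 := mul_le_mul_of_nonneg_left t2 (norm_nonneg (c' - gam W c))
  have k6 : ‖vb W c‖ * (9 / 20) ≤ ‖c'‖ * ‖st W c'‖ := by linarith
  nlinarith only [mul_le_mul_of_nonneg_right k6 (sq_nonneg W),
    mul_le_mul_of_nonneg_right c2 (norm_nonneg (st W c')), norm_nonneg (st W c')]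

theorem ee_eq (h : Pt y W c) (hy : 0 ≤ y) (hW : 0 < W) (J : ℕ) :
    W * Complex.sqrt (vb W c) * (yb W c)⁻¹ ^ (J + 1) = 2 * ee J W c := by
  have y0 : yb W c ≠ 0 := fun k => by have := h.yr; rw [k, Complex.zero_re] at this; linarith
  have a : (W : ℂ) = Complex.exp (Real.log W) := by rw [← Complex.ofReal_exp, Real.exp_log hW]
  have b : (2 : ℂ) = Complex.exp (Real.log 4 / 2) := by
    rw [show (4 : ℝ) = 2 ^ 2 by norm_num, Real.log_pow]
    push_cast
    rw [mul_div_cancel_left₀ _ two_ne_zero, ← Complex.ofReal_exp, Real.exp_log two_pos]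
    rfl
  have d : (yb W c)⁻¹ = Complex.exp (-Complex.log (yb W c)) := by
    rw [Complex.exp_neg, Complex.exp_log y0]
  rw [sqrt_eq_exp h.v0, d, ← Complex.exp_nat_mul, mul_assoc, ← Complex.exp_add]
  conv_lhs => enter [1]; rw [a]
  conv_rhs => enter [1]; rw [b]
  rw [← Complex.exp_add, ← Complex.exp_add, nu]
  congr 1
  push_cast
  have := h.ly
  push_cast at this
  linear_combination (-1 / 2) * this

theorem ee_norm (J : ℕ) (W : ℝ) (c : ℂ) :
    ‖ee J W c‖ = Real.exp (-nu J * Real.log ‖yb W c‖) := by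
  rw [Complex.norm_exp, ← Complex.ofReal_neg, Complex.re_ofReal_mul, Complex.log_re]

theorem ex1 (h : Pt y W c) : ‖Complex.exp (-vb W c / 4)‖ ≤ 1 := by
  rw [Complex.norm_exp, Real.exp_le_one_iff, Complex.div_ofNat_re, Complex.neg_re]
  nlinarith only [h.sq, sq_nonneg ‖vb W c‖]

theorem bnd (h : Pt y W c) (hy : 0 ≤ y) (hW : 0 < W) (hD : DF J K W c D) :
    ‖D * (Real.exp (W ^ 2 / 4) * W : ℝ) + (4 * Real.pi * HJ.b (J + 1) : ℝ) *
      (Complex.exp (-vb W c / 4) * ee J W c)‖ ≤ 600 * HJ.b (J + 1) * ‖ee J W c‖ * ‖yb W c‖⁻¹ +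
        |K| * √‖vb W c‖ / W + |K| * ‖vb W c‖ / √W := by
  have e := h.ee_eq hy hW J
  have w : HJ.wt W (vb W c) * Real.exp (W ^ 2 / 4) = Complex.exp (-vb W c / 4) := by
    rw [HJ.wt]; push_cast; rw [← Complex.exp_add]; congr 1; ring
  have q : ‖Complex.sqrt (vb W c)‖ = √‖vb W c‖ := by
    conv_rhs => rw [← HJ.sqrt_sq (vb W c), norm_pow, Real.sqrt_sq (norm_nonneg _)]
  have w1 : ‖HJ.wt W (vb W c)‖ * Real.exp (W ^ 2 / 4) ≤ 1 := by
    have := congrArg norm w
    rw [norm_mul, Complex.norm_real, Real.norm_of_nonneg (Real.exp_nonneg _)] at this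
    exact this ▸ h.ex1
  have e' := congrArg norm e
  rw [norm_mul, norm_mul, norm_mul, norm_pow, norm_inv, q, Complex.norm_real,
    Real.norm_of_nonneg hW.le, Complex.norm_ofNat] at e'
  rw [show D * (Real.exp (W ^ 2 / 4) * W : ℝ) + (4 * Real.pi * HJ.b (J + 1) : ℝ) *
      (Complex.exp (-vb W c / 4) * ee J W c) = (D + 2 * Real.pi * HJ.b (J + 1) *
      (HJ.wt W (vb W c) * Complex.sqrt (vb W c)) * (yb W c)⁻¹ ^ (J + 1)) *
      (Real.exp (W ^ 2 / 4) * W : ℝ) by
    rw [← w, Complex.ofReal_mul (Real.exp _)]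
    generalize (Real.exp (W ^ 2 / 4) : ℂ) = x
    push_cast
    linear_combination (-2 * Real.pi * HJ.b (J + 1) * HJ.wt W (vb W c) * x) * e,
    norm_mul, Complex.norm_real, Real.norm_of_nonneg (by positivity)]
  have b0 := HJ.b_pos J
  have s0 := Real.sqrt_pos.2 hW
  refine (mul_le_mul_of_nonneg_right (hD.trans (mul_le_mul_of_nonneg_left
    (c := 300 * HJ.b (J + 1) * ‖yb W c‖⁻¹ ^ (J + 2) + |K| / W ^ 2 + |K| * √‖vb W c‖ / (W * √W))
    (by gcongr <;> exact le_abs_self K) (norm_nonneg _))) (by positivity)).trans ?_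
  rw [norm_mul, q, mul_mul_mul_comm, mul_comm ‖_‖, mul_assoc √_, mul_comm √_, mul_assoc]
  refine (mul_le_of_le_one_left (by positivity) w1).trans (le_of_eq ?_)
  have a : |K| / W ^ 2 * W = |K| / W := by field_simp
  have a2 : |K| * √‖vb W c‖ / (W * √W) * W = |K| * √‖vb W c‖ / √W := by field_simp
  rw [pow_succ _ (J + 1)]
  linear_combination (300 * HJ.b (J + 1) * ‖yb W c‖⁻¹) * e' + √‖vb W c‖ * a + √‖vb W c‖ * a2 +
    |K| / √W * Real.mul_self_sqrt (norm_nonneg (vb W c))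

theorem tot (h : Pt y W c) (hy : 1 ≤ y) (hW : 0 < W) (hD : DF J K W c D) (hJ : 2 ≤ nu J) :
    ‖D‖ * Real.exp (W ^ 2 / 4) * W ≤ 616 * HJ.b (J + 1) / ‖yb W c‖ ^ 2 +
        |K| * √‖vb W c‖ / W + |K| * ‖vb W c‖ / √W := by
  have a := h.bnd (by linarith) hW hD
  have b0 := HJ.b_pos J
  have y1 : 1 ≤ ‖yb W c‖ := by linarith [h.yr, Complex.re_le_norm (yb W c)]
  have e1 : ‖ee J W c‖ ≤ 1 / ‖yb W c‖ ^ 2 := by
    rw [ee_norm, one_div, ← Real.exp_log (show 0 < ‖yb W c‖ ^ 2 by positivity), ← Real.exp_neg,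
      Real.log_pow, Real.exp_le_exp]
    push_cast
    nlinarith only [hJ, Real.log_nonneg y1]
  have b := norm_sub_norm_le (D * (Real.exp (W ^ 2 / 4) * W : ℝ))
    (-((4 * Real.pi * HJ.b (J + 1) : ℝ) * (Complex.exp (-vb W c / 4) * ee J W c)))
  rw [sub_neg_eq_add, norm_neg, norm_mul, norm_mul, norm_mul, Complex.norm_real, Complex.norm_real,
    Real.norm_of_nonneg (by positivity), Real.norm_of_nonneg (by positivity)] at b
  have d : 4 * Real.pi * HJ.b (J + 1) * (‖Complex.exp (-vb W c / 4)‖ * ‖ee J W c‖) ≤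
      4 * 4 * HJ.b (J + 1) * (1 * (1 / ‖yb W c‖ ^ 2)) := by
    gcongr
    · exact Real.pi_le_four
    · exact h.ex1
  have d2 : 600 * HJ.b (J + 1) * ‖ee J W c‖ * ‖yb W c‖⁻¹ ≤
      600 * HJ.b (J + 1) * (1 / ‖yb W c‖ ^ 2) * 1 := by
    gcongr
    exact inv_le_one_of_one_le₀ y1
  rw [div_eq_mul_one_div (616 * _)]
  linarith

theorem near (h : Pt (7 / 5 * nu J) W c) (hW : 0 < W) (hJ : 0 < nu J) (hE : End J K W c c' D) :
    ‖c' - gam W c‖ * W ^ 4 ≤ 10 ^ 18 / nu J * (5 / 28) + |K| / √W := by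
  have s0 := Real.sqrt_pos.2 hW
  have v0 := norm_pos_iff.2 h.v0
  refine (mul_le_mul_of_nonneg_right hE.near (by positivity)).trans ?_
  rw [add_mul, show K / (W ^ 4 * √W) * W ^ 4 = K / √W by field_simp,
    show 10 ^ 18 / (W ^ 6 * ‖vb W c‖) * W ^ 4 = 10 ^ 18 / (W ^ 2 * ‖vb W c‖) by field_simp,
    show 10 ^ 18 / nu J * (5 / 28) = 10 ^ 18 / (4 * (7 / 5 * nu J)) by field_simp; norm_num]
  have := h.re.le.trans (mul_le_mul_of_nonneg_left (Complex.re_le_norm _) (sq_nonneg W))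
  gcongr
  exact le_abs_self K

end Pt

theorem ev_sqrt (a : ℝ) {ε : ℝ} (ε0 : 0 < ε) : ∀ᶠ W : ℝ in atTop, a / √W ≤ ε :=
  ((tendsto_const_nhds (x := a)).div_atTop Real.tendsto_sqrt_atTop).eventually_le_const ε0

theorem ev_sq (a : ℝ) {ε : ℝ} (ε0 : 0 < ε) : ∀ᶠ W : ℝ in atTop, a / W ^ 2 ≤ ε :=
  ((tendsto_const_nhds (x := a)).div_atTop (tendsto_pow_atTop two_ne_zero)).eventually_le_const ε0

theorem tm : TM := by
  intro J hJ K
  have ν1 : 10 ^ 13 ≤ nu J := by
    have : ((10 ^ 13 : ℕ) : ℝ) ≤ J := by exact_mod_cast hJ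
    rw [nu]
    push_cast at this
    linarith
  have ν0 : 0 < nu J := by linarith
  have x0 : 0 < 10 ^ 18 / nu J := by positivity
  have x1 : 10 ^ 18 / nu J ≤ 10 ^ 5 := by rw [div_le_iff₀ ν0]; linarith
  have b0 := HJ.b_pos J
  have K0 := abs_nonneg K
  have ev : ∀ᶠ W : ℝ in atTop, 1000 ≤ W ∧ 6 * Real.log W + 7 ≤ W / 100 ∧ |K| / √W ≤ 1 := by
    filter_upwards [eventually_ge_atTop 1000, ev_log (ε := 1 / 100) (by norm_num) 7,
      ev_sqrt |K| one_pos] with W h1 h2 h3 using ⟨h1, by linarith, h3⟩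
  refine ⟨?_, ⟨4 * (616 * HJ.b (J + 1)), fun ε ε0 => ?_⟩, fun R => ?_⟩
  · filter_upwards [eventually_forall_ge_atTop.2 ev,
      eventually_ge_atTop (616 * HJ.b (J + 1) + 3 * |K| + 6)] with Z hZ hZ' W hW c c' D hE
    obtain ⟨W1, hA, hK⟩ := hZ W hW.1
    have p := pt (by linarith) (by linarith) hE.mem
    have a := p.tot (by linarith) (by linarith) hE.df (by linarith)
    have y1 : 1 ≤ ‖yb W c‖ := by linarith [p.yr, Complex.re_le_norm (yb W c)]
    have a1 : 616 * HJ.b (J + 1) / ‖yb W c‖ ^ 2 ≤ 616 * HJ.b (J + 1) :=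
      div_le_self (by positivity) (one_le_pow₀ y1)
    have q : √‖vb W c‖ ≤ 3 := Real.sqrt_le_iff.2 ⟨by norm_num, by linarith [p.v6]⟩
    have a2 : |K| * √‖vb W c‖ / W ≤ |K| * 3 :=
      (div_le_self (by positivity) (by linarith)).trans (mul_le_mul_of_nonneg_left q K0)
    have a3 : |K| * ‖vb W c‖ / √W ≤ 1 * 6 := by
      rw [mul_div_right_comm]
      exact mul_le_mul hK p.v6 (norm_nonneg _) zero_le_one
    have a4 : ‖D‖ * Real.exp (W ^ 2 / 4) * 1 ≤ ‖D‖ * Real.exp (W ^ 2 / 4) * W :=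
      mul_le_mul_of_nonneg_left (by linarith) (by positivity)
    rw [pow_one, neg_div, Real.exp_neg, ← div_eq_mul_inv, le_div_iff₀ (Real.exp_pos _)]
    linarith
  · filter_upwards [eventually_forall_ge_atTop.2 (ev.and ((ev_sqrt |K| (ε := ε / 300)
      (by positivity)).and (ev_sq (256 * (616 * HJ.b (J + 1))) (ε := ε / 3) (by positivity)))),
      eventually_ge_atTop (300 * |K| ^ 2 / ε ^ 2), eventually_ge_atTop 1]
      with Z hZ hZ' Z1 W hW c c' D hE
    obtain ⟨⟨W1, hA, hK⟩, hK2, hb⟩ := hZ W hW.1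
    have Z0 : 0 < Z := by linarith
    have W0 : 0 < W := by linarith
    have p := pt (by linarith) (by linarith) hE.mem
    have a := p.tot (by linarith) W0 hE.df (by linarith)
    have hr := p.near W0 ν0 hE
    have lo := p.low (by linarith) W1 hA hr (by linarith)
    have y1 : 1 ≤ ‖yb W c‖ := by linarith [p.yr, Complex.re_le_norm (yb W c)]
    change _ ≤ _ / ‖st W c'‖ ^ 2 + ε / Z * (1 + ‖st W c'‖ / Z) ^ 1
    have a1 : 616 * HJ.b (J + 1) / ‖yb W c‖ ^ 2 ≤
        4 * (616 * HJ.b (J + 1)) / ‖st W c'‖ ^ 2 + ε / 3 / Z := by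
      rcases le_total ‖vb W c‖ (1 / 4) with hV | hV
      · obtain ⟨t1, t2⟩ := p.two (by linarith) W1 hA hr (by linarith) hV
        refine le_add_of_le_of_nonneg ?_ (by positivity)
        have s0 : 0 < ‖st W c'‖ := by linarith
        rw [div_le_div_iff₀ (by positivity) (by positivity)]
        nlinarith only [mul_le_mul_of_nonneg_left (pow_le_pow_left₀ s0.le t2 2) b0.le]
      · refine le_add_of_nonneg_of_le (by positivity) ?_
        have y2 : W ^ 2 / 16 ≤ ‖yb W c‖ := by nlinarith only [p.yn, hV, sq_nonneg W]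
        calc _ ≤ 616 * HJ.b (J + 1) / (W ^ 2 / 16) ^ 2 := by gcongr
          _ = 256 * (616 * HJ.b (J + 1)) / W ^ 2 / W ^ 2 := by field_simp; norm_num
          _ ≤ _ := by
            gcongr
            nlinarith only [hW.1, W1]
    have a2 : |K| * √‖vb W c‖ / W ≤ ε / 3 / Z + ε / 300 * ‖vb W c‖ := by
      refine (div_le_div_of_nonneg_left (by positivity) Z0 hW.1).trans ?_
      rw [div_add' _ _ _ Z0.ne', div_le_div_iff_of_pos_right Z0]
      rw [div_le_iff₀ (by positivity)] at hZ'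
      refine le_of_mul_le_mul_right ?_ ε0
      have q2 : (|K| * √‖vb W c‖) ^ 2 = |K| ^ 2 * ‖vb W c‖ := by
        rw [mul_pow, Real.sq_sqrt (norm_nonneg _)]
      nlinarith only [q2, sq_nonneg (ε / 2 - |K| * √‖vb W c‖),
        mul_le_mul_of_nonneg_right hZ' (norm_nonneg (vb W c)), sq_nonneg ε]
    have a3 : |K| * ‖vb W c‖ / √W ≤ ε / 300 * ‖vb W c‖ := by
      rw [mul_div_right_comm]
      exact mul_le_mul_of_nonneg_right hK2 (norm_nonneg _)
    have a4 : ε * (‖vb W c‖ / 100) ≤ ε * (‖st W c'‖ / Z / Z) := by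
      refine mul_le_mul_of_nonneg_left ?_ ε0.le
      rw [le_div_iff₀ Z0, le_div_iff₀ Z0]
      nlinarith only [lo, mul_le_mul_of_nonneg_left (pow_le_pow_left₀ Z0.le hW.1 2)
        (norm_nonneg (vb W c))]
    have a5 : ε / Z * (1 + ‖st W c'‖ / Z) ^ 1 = 3 * (ε / 3 / Z) + ε * (‖st W c'‖ / Z / Z) := by
      ring
    have a6 : 0 ≤ ε / 3 / Z := by positivity
    nlinarith only [a, a1, a2, a3, a4, a5, a6, mul_nonneg ε0.le (norm_nonneg (vb W c))]
  · set x := 10 ^ 18 / nu J with hx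
    set e0 := Real.exp (-nu J * Real.log (25 * R)) with he0
    have e1 : 0 < e0 := Real.exp_pos _
    have π3 := Real.pi_gt_three
    filter_upwards [ev, ev_sqrt |K| (ε := x / 3) (by positivity),
      ev_sqrt |K| (ε := x * HJ.b (J + 1) * e0) (by positivity),
      ev_sq (100 * R) (ε := 1 / 4) (by norm_num), ev_sq (100 * R) (ε := x / 3) (by positivity),
      ev_sq (100 * R * (1 + 25 * R)) (ε := x / 3) (by positivity)]
      with W ⟨W1, hA, hK⟩ hK2 hK3 hR1 hR2 hR3 c c' D hE hs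
    have W0 : 0 < W := by linarith
    have p := pt (by linarith) (by linarith) hE.mem
    have hr := p.near W0 ν0 hE
    have lo := (p.low (by linarith) W1 hA hr (by linarith)).trans hs
    have y1 : nu J ≤ ‖yb W c‖ := by linarith [p.yr, Complex.re_le_norm (yb W c)]
    have y2 : ‖yb W c‖ ≤ 25 * R := by linarith [p.yn]
    have v1 : ‖vb W c‖ ≤ 100 * R / W ^ 2 := by rw [le_div_iff₀ (by positivity)]; linarith
    refine ⟨by linarith [p.yr], (p.small W1 hA hr (by linarith) (v1.trans hR1)).trans ?_, ?_⟩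
    · have := mul_le_mul v1 (add_le_add_right y2 1) (by positivity) ((norm_nonneg _).trans v1)
      rw [div_mul_eq_mul_div] at this
      linarith
    have a := p.bnd (by linarith) W0 hE.df
    have e2 : e0 ≤ ‖ee J W c‖ := by
      rw [Pt.ee_norm, he0, Real.exp_le_exp]
      nlinarith only [Real.log_le_log (by linarith) y2, ν0]
    have b : ‖1 - Complex.exp (-vb W c / 4)‖ ≤ x / 3 := by
      have n : ‖-vb W c / 4‖ = ‖vb W c‖ / 4 := by rw [norm_div, norm_neg, Complex.norm_ofNat]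
      have := Complex.norm_exp_sub_one_le (x := -vb W c / 4) (by linarith)
      rw [norm_sub_rev]
      linarith [norm_nonneg (vb W c)]
    have d := norm_add_le (D * (Real.exp (W ^ 2 / 4) * W : ℝ) +
      (4 * Real.pi * HJ.b (J + 1) : ℝ) * (Complex.exp (-vb W c / 4) * ee J W c))
      ((4 * Real.pi * HJ.b (J + 1) : ℝ) * ((1 - Complex.exp (-vb W c / 4)) * ee J W c))
    rw [add_assoc, ← mul_add, ← add_mul, add_sub_cancel, one_mul, norm_mul, norm_mul,
      Complex.norm_real, Real.norm_of_nonneg (by positivity)] at d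
    have bE : 0 < HJ.b (J + 1) * ‖ee J W c‖ := mul_pos b0 (e1.trans_le e2)
    have a1 : ‖yb W c‖⁻¹ ≤ x / 1000 := by
      rw [hx, div_right_comm, div_eq_mul_inv _ (nu J)]
      have := inv_anti₀ ν0 y1
      linarith [inv_pos.2 ν0]
    have s1 : 1 ≤ √W := Real.one_le_sqrt.2 (by linarith)
    have a2 : |K| * √‖vb W c‖ / W ≤ |K| / √W := by
      have q : √‖vb W c‖ ≤ 1 := Real.sqrt_le_one.2 (by linarith)
      have : √W ≤ W := by nlinarith only [Real.mul_self_sqrt W0.le, s1]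
      calc _ ≤ |K| * 1 / √W := by gcongr
        _ = _ := by rw [mul_one]
    have a3 : |K| * ‖vb W c‖ / √W ≤ |K| / √W := by
      calc _ ≤ |K| * 1 / √W := by gcongr; linarith
        _ = _ := by rw [mul_one]
    have a4 := mul_le_mul_of_nonneg_left e2 (mul_pos x0 b0).le
    have a5 := mul_le_mul_of_nonneg_left a1 bE.le
    have a6 := mul_le_mul_of_nonneg_left b (mul_pos Real.pi_pos bE).le
    have a7 := mul_le_mul_of_nonneg_left π3.le (mul_pos x0 bE).le
    refine d.trans ?_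
    change _ ≤ _ * ‖ee J W c‖
    nlinarith only [a, a2, a3, a4, a5, a6, a7, hK3, mul_pos x0 bE]

end

end Vale.Agent.P218Q.In
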