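import Vale.Agent.P218Q.Tel
import Vale.Agent.P218Q.Fin
import Vale.Agent.P218Q.Tm
import Vale.Agent.P218Q.Obs

/-!
# P218, block NF: the normal form theorem
-/

namespace Vale.Agent.P218Q

theorem nf (α ι : Type) [Fintype α] [Fintype ι] : NF α ι :=
  Rows.nf ⟨In.inn, obs, In.tm, path, tel, fin⟩

end Vale.Agent.P218Q
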