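import Vale.Agent.P218Q.Spec
import Vale.Agent.P281.MF.Hol

/-!
# P218, block NF: basic facts
-/

set_option linter.all false

open Set Filter Topology Metric

namespace Vale.Agent.P218Q

open Vale.Agent.P218S Vale.Agent.P218G Vale.Agent.P218T

noncomputable section

variable {Y Y' Z Z' y y' : ℝ} {c c' : ℂ}

theorem dsc_anti (h : Y ≤ Y') (Z : ℝ) : dsc Y' Z ⊆ dsc Y Z := fun c hc => by
  have := div_le_div_of_nonneg_right (show 4 * Y ≤ 4 * Y' by linarith) (sq_nonneg Z)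
  have h2 : ‖vb Z c - 3‖ < 3 - 4 * Y' / Z ^ 2 := hc
  show ‖vb Z c - 3‖ < _
  linarith

theorem dsc_re (h : c ∈ dsc Y Z) : 4 * Y / Z ^ 2 < (vb Z c).re := by
  have h1 := (abs_le.1 ((Complex.abs_re_le_norm (vb Z c - 3)))).1
  have h2 : ‖vb Z c - 3‖ < 3 - 4 * Y / Z ^ 2 := h
  simp only [Complex.sub_re, Complex.re_ofNat] at h1
  linarith

theorem dsc_three (h : c ∈ dsc Y Z) (hY : 0 ≤ Y) : ‖vb Z c - 3‖ < 3 := by
  have : 0 ≤ 4 * Y / Z ^ 2 := by positivity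
  have h2 : ‖vb Z c - 3‖ < 3 - 4 * Y / Z ^ 2 := h
  linarith

theorem dsc_re0 (h : c ∈ dsc Y Z) (hY : 0 ≤ Y) : 0 < (vb Z c).re :=
  lt_of_le_of_lt (by positivity) (dsc_re h)

theorem dsc_slit (h : c ∈ dsc Y Z) (hY : 0 ≤ Y) : vb Z c ∈ Complex.slitPlane :=
  Or.inl (dsc_re0 h hY)

theorem dsc_six (h : c ∈ dsc Y Z) (hY : 0 ≤ Y) : ‖vb Z c‖ ≤ 6 := by
  have := norm_sub_norm_le (vb Z c) 3
  rw [Complex.norm_ofNat] at this
  linarith [dsc_three h hY]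

theorem dsc_low (h : c ∈ dsc Y Z) (hZ : Z ≠ 0) : 4 * Y < Z ^ 2 * ‖vb Z c‖ := by
  have := (dsc_re h).trans_le (Complex.re_le_norm _)
  rwa [div_lt_iff₀' (by positivity)] at this

theorem yb_re (h : c ∈ dsc Y Z) (hZ : Z ≠ 0) : Y < (yb Z c).re := by
  have := dsc_re h
  rw [div_lt_iff₀' (by positivity)] at this
  rw [yb, show (Z : ℂ) ^ 2 * vb Z c / 4 = (Z ^ 2 / 4 : ℝ) * vb Z c by push_cast; ring,
    Complex.re_ofReal_mul]
  linarith

theorem yb_norm (Z : ℝ) (c : ℂ) : ‖yb Z c‖ = Z ^ 2 * ‖vb Z c‖ / 4 := by simp [yb]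

theorem nph (hZ : 2 ≤ Z) : ‖(Z : ℂ) ^ 2 - 2‖ = Z ^ 2 - 2 := by
  rw [show (Z : ℂ) ^ 2 - 2 = (Z ^ 2 - 2 : ℝ) by push_cast; rfl, Complex.norm_real,
    Real.norm_of_nonneg (by nlinarith)]

theorem vb_two (hZ : 2 ≤ Z) (c : ℂ) : ‖vb Z c - 2‖ = ‖c‖ * (Z ^ 2 - 2) := by
  rw [vb, add_sub_cancel_left, norm_mul, nph hZ]

theorem dsc_norm (h : c ∈ dsc Y Z) (hY : 0 ≤ Y) (hZ : 10 ≤ Z) : ‖c‖ * Z ^ 2 ≤ 41 / 10 := by
  have h1 := norm_add_le (vb Z c - 3) 1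
  rw [show vb Z c - 3 + 1 = vb Z c - 2 by ring, vb_two (by linarith), norm_one] at h1
  have h2 := mul_le_mul_of_nonneg_left (show 100 ≤ Z ^ 2 by nlinarith) (norm_nonneg c)
  linarith [dsc_three h hY]

theorem vb_one (hZ : 2 ≤ Z) (h : ‖c‖ * Z ^ 2 ≤ 1) : ‖vb Z c - 2‖ ≤ 1 := by
  rw [vb_two hZ]
  nlinarith [norm_nonneg c]

theorem mem_dsc (hZ : 2 ≤ Z) (hY : 4 * Y < Z ^ 2) (h : ‖c‖ * Z ^ 2 ≤ 1) : c ∈ dsc Y Z := by
  have h1 := norm_sub_le (vb Z c - 2) 1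
  have h2 : 4 * Y / Z ^ 2 < 1 := (div_lt_one (by positivity)).2 hY
  rw [show vb Z c - 2 - 1 = vb Z c - 3 by ring, norm_one] at h1
  show ‖vb Z c - 3‖ < _
  linarith [vb_one hZ h]

theorem one_le_vb (hZ : 2 ≤ Z) (h : ‖c‖ * Z ^ 2 ≤ 1) : 1 ≤ ‖vb Z c‖ := by
  have := norm_sub_norm_le 2 (vb Z c)
  rw [norm_sub_rev, Complex.norm_ofNat] at this
  linarith [vb_one hZ h]

theorem cont_vb : Continuous fun q : ℝ × ℂ => vb q.1 q.2 := by
  unfold vb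
  fun_prop

theorem diff_vb (Z : ℝ) : Differentiable ℂ (vb Z) := by
  unfold vb
  fun_prop

theorem open_dsc (Y Z : ℝ) : IsOpen (dsc Y Z) :=
  isOpen_lt (by have := (diff_vb Z).continuous; fun_prop) continuous_const

theorem star_vb (Z : ℝ) (c : ℂ) : vb Z (star c) = star (vb Z c) := by simp [vb]

theorem star_dsc (h : c ∈ dsc Y Z) : star c ∈ dsc Y Z := by
  show ‖vb Z (star c) - 3‖ < _
  rw [star_vb, show star (vb Z c) - 3 = star (vb Z c - 3) by simp, norm_star]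
  exact h

theorem lam_le (h : c ∈ dsc Y Z) (hY : 1 ≤ Y) (hZ : 10 ≤ Z) :
    ‖2 * Real.log Z - Complex.log (vb Z c)‖ ≤ 4 * Real.log Z + 4 := by
  have h0 : 0 < Z := by linarith
  have h1 := dsc_low h h0.ne'
  have h2 := dsc_six h (by linarith)
  have h3 : 0 < ‖vb Z c‖ := pos_of_mul_pos_right (show 0 < Z ^ 2 * _ by linarith) (sq_nonneg Z)
  have h4 := Real.log_nonneg (show 1 ≤ Z by linarith)
  have h5 := Real.log_le_log h3 (show ‖vb Z c‖ ≤ Z ^ 2 by nlinarith)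
  have h6 := Real.log_nonneg (show 1 ≤ Z ^ 2 * ‖vb Z c‖ by linarith)
  rw [Real.log_mul (by positivity) h3.ne'] at h6
  rw [Real.log_pow] at h5 h6
  have h7 := Complex.norm_le_abs_re_add_abs_im (Complex.log (vb Z c))
  rw [Complex.log_re, Complex.log_im] at h7
  have h8 : |Real.log ‖vb Z c‖| ≤ 2 * Real.log Z := abs_le.2 ⟨by push_cast at h6; linarith, h5⟩
  refine (norm_sub_le _ _).trans ?_
  rw [norm_mul, Complex.norm_real, Real.norm_of_nonneg h4, Complex.norm_ofNat]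
  linarith [Complex.abs_arg_le_pi (vb Z c), Real.pi_le_four]

theorem clam_le (h : c ∈ dsc Y Z) (hY : 1 ≤ Y) (hZ : 1000 ≤ Z) :
    ‖c * (2 * Real.log Z - Complex.log (vb Z c))‖ ≤ 1 / 50 := by
  have h1 := dsc_norm h (by linarith) (by linarith)
  have h2 := (lam_le h hY (by linarith)).trans (show _ ≤ 4 * Z by
    linarith [Real.log_le_sub_one_of_pos (show 0 < Z by linarith)])
  have h3 := mul_le_mul_of_nonneg_left h2 (norm_nonneg c)
  rw [norm_mul]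
  nlinarith [mul_le_mul_of_nonneg_left hZ (mul_nonneg (norm_nonneg c) (show 0 ≤ Z by linarith))]

theorem den_ge (h : c ∈ dsc Y Z) (hY : 1 ≤ Y) (hZ : 1000 ≤ Z) :
    49 / 50 ≤ ‖1 - c * (2 * Real.log Z - Complex.log (vb Z c))‖ := by
  linarith [norm_sub_norm_le 1 (c * (2 * Real.log Z - Complex.log (vb Z c))), clam_le h hY hZ,
    norm_one (α := ℂ)]

theorem gam_le (h : c ∈ dsc Y Z) (hY : 1 ≤ Y) (hZ : 1000 ≤ Z) : ‖gam Z c‖ ≤ 21 / 20 * ‖c‖ := by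
  have := den_ge h hY hZ
  rw [gam, norm_div, div_le_iff₀ (by linarith)]
  nlinarith [norm_nonneg c]

theorem le_gam (h : c ∈ dsc Y Z) (hY : 1 ≤ Y) (hZ : 1000 ≤ Z) : ‖c‖ ≤ 21 / 20 * ‖gam Z c‖ := by
  have h1 := den_ge h hY hZ
  have h2 := norm_sub_le 1 (c * (2 * Real.log Z - Complex.log (vb Z c)))
  rw [norm_one] at h2
  rw [gam, norm_div, ← mul_div_assoc, le_div_iff₀ (by linarith)]
  nlinarith [norm_nonneg c, clam_le h hY hZ]

theorem diff_gam (h : c ∈ dsc Y Z) (hY : 1 ≤ Y) (hZ : 1000 ≤ Z) :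
    DifferentiableAt ℂ (gam Z) c :=
  differentiableAt_id.div ((differentiableAt_id.mul (((diff_vb Z c).clog
    (dsc_slit h (by linarith))).const_sub _)).const_sub 1)
    (norm_pos_iff.1 (by linarith [den_ge h hY hZ]))

theorem star_gam (h : c ∈ dsc Y Z) (hY : 0 ≤ Y) : gam Z (star c) = star (gam Z c) := by
  have := Complex.log_conj (vb Z c) (Complex.slitPlane_arg_ne_pi (dsc_slit h hY))
  rw [gam, gam, star_vb, Complex.star_def, this]
  simp [map_ofNat]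

theorem gam_zero (Z : ℝ) : gam Z 0 = 0 := by simp [gam]

theorem tip_ge (hZ : 10 ≤ Z) : Z ^ 2 / 2 ≤ tipv kap Z := by
  have h1 := Real.log_le_log (by norm_num) (show 4 ≤ Z ^ 2 by nlinarith)
  have h2 : 1 ≤ Real.log (Z ^ 2) := by
    rw [Real.le_log_iff_exp_le (by positivity)]
    nlinarith [Real.exp_one_lt_d9]
  rw [tipv, kap]
  linarith

theorem tip_le (hZ : 20 ≤ Z) : tipv kap Z ≤ 3 / 4 * Z ^ 2 := by
  have h1 := Real.log_nonneg (show (1 : ℝ) ≤ 4 by norm_num)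
  have h2 := Real.log_le_sub_one_of_pos (show 0 < Z by linarith)
  rw [tipv, kap, Real.log_pow]
  push_cast
  nlinarith

theorem tip_mono (h0 : 0 < Z') (h : Z' ≤ Z) : tipv kap Z' ≤ tipv kap Z := by
  have h1 := pow_le_pow_left₀ h0.le h 2
  have h2 := Real.log_le_log (by positivity) h1
  rw [tipv, tipv]
  linarith

theorem open_Dm (y Z : ℝ) : IsOpen (Dm y Z) := isOpen_lt (by fun_prop) continuous_const

theorem Dm_norm (h : c ∈ Dm y Z) (hy : 0 ≤ y) (hZ : 10 ≤ Z) : ‖c‖ * Z ^ 2 ≤ 3 := by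
  have h1 := norm_sub_norm_le (c * ((tipv kap Z + y : ℝ) : ℂ)) (1 / 4)
  have h2 : ‖c * ((tipv kap Z + y : ℝ) : ℂ) - 1 / 4‖ < 5 / 4 := h
  have h3 := tip_ge hZ
  rw [norm_mul, Complex.norm_real, Real.norm_of_nonneg (by nlinarith),
    show ‖(1 / 4 : ℂ)‖ = 1 / 4 by simp] at h1
  nlinarith [mul_le_mul_of_nonneg_left (show Z ^ 2 / 2 ≤ tipv kap Z + y by linarith)
    (norm_nonneg c)]

theorem mem_Dm (h : ‖c‖ * Z ^ 2 ≤ 11 / 10) (hy : 0 ≤ y) (hy' : 10 * y ≤ Z ^ 2) (hZ : 20 ≤ Z) :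
    c ∈ Dm y Z := by
  have h1 := norm_sub_le (c * ((tipv kap Z + y : ℝ) : ℂ)) (1 / 4)
  have h3 := tip_ge (show 10 ≤ Z by linarith)
  rw [norm_mul, Complex.norm_real, Real.norm_of_nonneg (by nlinarith)] at h1
  show ‖c * ((tipv kap Z + y : ℝ) : ℂ) - 1 / 4‖ < 5 / 4
  norm_num at h1 ⊢
  nlinarith [mul_le_mul_of_nonneg_left (show tipv kap Z + y ≤ 17 / 20 * Z ^ 2 by
    linarith [tip_le hZ]) (norm_nonneg c)]

theorem Dm_aux {T T' : ℝ} (h : ‖c * T - 1 / 4‖ < 5 / 4) (h0 : 0 < T') (hT : T' ≤ T)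
    (he : ‖c' - c‖ * (T * T') ≤ T - T') : ‖c' * T' - 1 / 4‖ < 5 / 4 := by
  have h1 : 0 < T := h0.trans_le hT
  have h2 : (T : ℂ) ≠ 0 := by exact_mod_cast h1.ne'
  rw [show c' * T' - 1 / 4 = (T' / T : ℝ) * (c * T - 1 / 4) + -((T - T') / T / 4 : ℝ) +
    (c' - c) * T' by push_cast; field_simp; ring]
  refine norm_add₃_le.trans_lt ?_
  have h3 : 0 ≤ (T - T') / T := div_nonneg (by linarith) h1.le
  have h4 : ‖c' - c‖ * T' ≤ (T - T') / T := by rw [le_div_iff₀ h1]; linarith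
  have h5 : T' / T = 1 - (T - T') / T := by field_simp; ring
  have h6 := mul_lt_mul_of_pos_left h (div_pos h0 h1)
  rw [norm_neg, norm_mul, norm_mul, Complex.norm_real, Complex.norm_real, Complex.norm_real,
    Real.norm_of_nonneg (by positivity), Real.norm_of_nonneg (by positivity),
    Real.norm_of_nonneg h0.le]
  linarith

theorem Dm_mono (h : c ∈ Dm y Z) (hy : 0 ≤ y) (h0 : 10 ≤ Z') (hZ : Z' ≤ Z) : c ∈ Dm y Z' :=
  have := tip_mono (by linarith) hZ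
  Dm_aux h (by nlinarith [tip_ge h0]) (by linarith) (by simp; linarith)

theorem Dm_thick (h : c ∈ Dm y Z) (hy : 0 ≤ y') (hy' : y' ≤ y) (h4 : 4 * y ≤ Z ^ 2) (hZ : 20 ≤ Z)
    (he : ‖c' - c‖ * Z ^ 4 ≤ y - y') : c' ∈ Dm y' Z := by
  have h1 := tip_ge (show 10 ≤ Z by linarith)
  have h2 := tip_le hZ
  refine Dm_aux h (by nlinarith) (by linarith) ?_
  have := mul_le_mul (show tipv kap Z + y ≤ Z ^ 2 by linarith)
    (show tipv kap Z + y' ≤ Z ^ 2 by linarith) (by nlinarith) (sq_nonneg Z)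
  nlinarith [mul_le_mul_of_nonneg_left this (norm_nonneg (c' - c))]

theorem nu_ge {J : ℕ} (h : 10 ^ 13 ≤ J) : 10 ^ 13 ≤ nu J := by
  have : ((10 ^ 13 : ℕ) : ℝ) ≤ J := by exact_mod_cast h
  rw [nu]
  push_cast at this
  linarith

variable {α ι : Type} [Fintype α] [Fintype ι]

/-- projection to the first group of variables -/
def pa (α ι : Type) : (α ⊕ ι → ℂ) →L[ℂ] α ⊕ ι → ℂ :=
  ContinuousLinearMap.pi fun s => s.elim (fun i => ContinuousLinearMap.proj (Sum.inl i)) fun _ => 0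

/-- projection to the second group of variables -/
def pc (α ι : Type) : (α ⊕ ι → ℂ) →L[ℂ] α ⊕ ι → ℂ :=
  ContinuousLinearMap.pi fun s => s.elim (fun _ => 0) fun j => ContinuousLinearMap.proj (Sum.inr j)

@[simp] theorem pa_inl (x : α ⊕ ι → ℂ) (i : α) : pa α ι x (.inl i) = x (.inl i) := rfl
@[simp] theorem pa_inr (x : α ⊕ ι → ℂ) (j : ι) : pa α ι x (.inr j) = 0 := rfl
@[simp] theorem pc_inl (x : α ⊕ ι → ℂ) (i : α) : pc α ι x (.inl i) = 0 := rfl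
@[simp] theorem pc_inr (x : α ⊕ ι → ℂ) (j : ι) : pc α ι x (.inr j) = x (.inr j) := rfl

theorem pa_pc (x : α ⊕ ι → ℂ) : pa α ι x + pc α ι x = x := by
  funext s
  rcases s with i | j <;> simp

theorem norm_le_of {x : α ⊕ ι → ℂ} {e : ℝ} (he : 0 ≤ e) (h1 : ∀ i, x (.inl i) = 0)
    (h2 : ∀ j, ‖x (.inr j)‖ ≤ e) : ‖x‖ ≤ e :=
  (pi_norm_le_iff_of_nonneg he).2 fun s => by rcases s with i | j <;> simp [h1, h2, he]

theorem norm_pc_le (x : α ⊕ ι → ℂ) : ‖pc α ι x‖ ≤ ‖x‖ :=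
  norm_le_of (norm_nonneg x) (fun _ => rfl) fun _ => norm_le_pi_norm x _

theorem open_dom (r Y : ℝ) (W : ι → ℝ) : IsOpen (dom r Y W : Set (α ⊕ ι → ℂ)) := by
  simp only [dom, setOf_and, setOf_forall]
  exact (isOpen_iInter_of_finite fun i => isOpen_lt (by fun_prop) continuous_const).inter
    (isOpen_iInter_of_finite fun l => (open_dsc _ _).preimage (continuous_apply _))

theorem star_dom {r Y : ℝ} {W : ι → ℝ} {x : α ⊕ ι → ℂ} (h : x ∈ dom r Y W) :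
    star x ∈ dom r Y W :=
  ⟨fun i => by simpa using h.1 i, fun l => star_dsc (h.2 l)⟩

theorem convex_Ad (Zs : ℝ) : Convex ℝ (Ad Zs : Set ((ι → ℝ) × ℝ)) := by
  intro p hp q hq a b ha hb hab
  refine ⟨fun l => ?_, fun l l' => ?_, convex_Icc (0 : ℝ) 1 hp.2.2 hq.2.2 ha hb hab⟩
  · have := add_le_add (mul_le_mul_of_nonneg_left (hp.1 l) ha)
      (mul_le_mul_of_nonneg_left (hq.1 l) hb)
    rwa [← add_mul, hab, one_mul] at this
  · have := add_le_add (mul_le_mul_of_nonneg_left (hp.2.1 l l') ha)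
      (mul_le_mul_of_nonneg_left (hq.2.1 l l') hb)
    simp only [Prod.fst_add, Prod.smul_fst, Pi.add_apply, Pi.smul_apply, smul_eq_mul]
    linarith

theorem ev_dom {β : Type} {l : Filter β} {W : β → ι → ℝ} {g : β → α ⊕ ι → ℂ} {W0 : ι → ℝ}
    {x : α ⊕ ι → ℂ} {r Y : ℝ} (hW : Tendsto W l (𝓝 W0)) (hg : Tendsto g l (𝓝 x))
    (h0 : ∀ j, W0 j ≠ 0) (h : x ∈ dom r Y W0) : ∀ᶠ b in l, g b ∈ dom r Y (W b) := by
  have h1 := tendsto_pi_nhds.1 hW
  have h2 := tendsto_pi_nhds.1 hg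
  exact (eventually_all.2 fun i => (h2 _).norm.eventually_lt_const (h.1 i)).and
    (eventually_all.2 fun j => (((cont_vb.tendsto _).comp ((h1 j).prodMk_nhds (h2 _))).sub_const
      3).norm.eventually_lt ((tendsto_const_nhds.div ((h1 j).pow 2) (pow_ne_zero 2 (h0 j))).const_sub
        3) (h.2 j))

theorem equiv_of_inj {A : (α ⊕ ι → ℂ) →L[ℂ] α ⊕ ι → ℂ} (h : ∀ v, A v = 0 → v = 0) :
    ∃ e : (α ⊕ ι → ℂ) ≃L[ℂ] α ⊕ ι → ℂ, (e : (α ⊕ ι → ℂ) →L[ℂ] α ⊕ ι → ℂ) = A := by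
  have h1 : A.ker = ⊥ := LinearMap.ker_eq_bot'.2 h
  exact ⟨.ofBijective A h1 (LinearMap.ker_eq_bot_iff_range_eq_top.1 h1), rfl⟩

namespace FD

variable {F : FD α ι} {J : ℕ} {p : (ι → ℝ) × ℝ} {x x' : α ⊕ ι → ℂ}

theorem nuJ (hJ : F.J0 ≤ J) : 10 ^ 13 ≤ nu J := nu_ge (F.big.trans hJ)

theorem lip_le (hJ : F.J0 ≤ J) (hp : p ∈ Ad (F.Zs J)) (hx : x ∈ F.dm J p) (hx' : x' ∈ F.dm J p)
    (h : ∀ i, x (.inl i) = x' (.inl i)) : ‖F.X J p x - F.X J p x'‖ ≤ 11 / 10 * ‖x - x'‖ := by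
  linarith [F.der J hJ p hp x hx x' hx' h, norm_sub_norm_le (F.X J p x - F.X J p x') (x - x')]

theorem lip_ge (hJ : F.J0 ≤ J) (hp : p ∈ Ad (F.Zs J)) (hx : x ∈ F.dm J p) (hx' : x' ∈ F.dm J p)
    (h : ∀ i, x (.inl i) = x' (.inl i)) : ‖x - x'‖ ≤ 10 / 9 * ‖F.X J p x - F.X J p x'‖ := by
  have := norm_sub_norm_le (x - x') (F.X J p x - F.X J p x')
  rw [norm_sub_rev (x - x')] at this
  linarith [F.der J hJ p hp x hx x' hx' h]

theorem inj (hJ : F.J0 ≤ J) (hp : p ∈ Ad (F.Zs J)) (hx : x ∈ F.dm J p) (hx' : x' ∈ F.dm J p)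
    (h : F.X J p x = F.X J p x') : x = x' := by
  have := lip_ge hJ hp hx hx' fun i => by rw [← F.inl J p x, h, F.inl]
  rwa [h, sub_self, norm_zero, mul_zero, norm_le_zero_iff, sub_eq_zero] at this

theorem inv_X (hJ : F.J0 ≤ J) (hp : p ∈ Ad (F.Zs J)) (hx : x ∈ F.dm J p) :
    F.inv J p (F.X J p x) = x := by
  have h : ∃ y ∈ F.dm J p, F.X J p y = F.X J p x := ⟨x, hx, rfl⟩
  rw [inv, dif_pos h]
  exact inj hJ hp h.choose_spec.1 hx h.choose_spec.2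

theorem strict (hJ : F.J0 ≤ J) (hp : p ∈ Ad (F.Zs J)) (hx : x ∈ F.dm J p) :
    ∃ e : (α ⊕ ι → ℂ) ≃L[ℂ] α ⊕ ι → ℂ,
      HasStrictFDerivAt (F.X J p) (e : (α ⊕ ι → ℂ) →L[ℂ] α ⊕ ι → ℂ) x := by
  have h := (P281.MF.analyticAt_of_differentiableOn (open_dom _ _ _) (F.holX J hJ p hp)
    hx).hasStrictFDerivAt
  obtain ⟨e, he⟩ := equiv_of_inj (A := fderiv ℂ (F.X J p) x) fun v hv => by
    have l : HasDerivAt (fun t : ℂ => x + t • v) v 0 := by
      simpa using ((hasDerivAt_id (0 : ℂ)).smul_const v).const_add x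
    have d := h.hasFDerivAt.comp_hasDerivAt_of_eq 0 l (by simp)
    rw [hv] at d
    have hi : ∀ i, v (.inl i) = 0 := fun i => by
      have a1 := hasDerivAt_pi.1 d (.inl i)
      simp only [Function.comp_apply, F.inl] at a1
      exact (hasDerivAt_pi.1 l (.inl i)).unique a1
    have a2 : ∀ᶠ t : ℂ in 𝓝 0, x + t • v ∈ F.dm J p :=
      l.continuousAt.eventually_mem ((open_dom _ _ _).mem_nhds (by simpa using hx))
    have a3 := (d.sub l).le_of_lip' (C := ‖v‖ / 10) (by positivity) (a2.mono fun t ht => by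
      have := F.der J hJ p hp _ ht x hx fun i => by simp [hi]
      simp only [Pi.sub_apply, Function.comp_apply, zero_smul, add_zero, sub_zero]
      rw [add_sub_cancel_left, norm_smul t v] at this
      convert this using 1
      · congr 1
        abel
      · ring)
    rw [zero_sub, norm_neg] at a3
    exact norm_le_zero_iff.1 (by linarith)
  exact ⟨e, he ▸ h⟩

theorem diff_inv (hJ : F.J0 ≤ J) (hp : p ∈ Ad (F.Zs J)) (hx : x ∈ F.dm J p) :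
    DifferentiableAt ℂ (F.inv J p) (F.X J p x) := by
  obtain ⟨e, h⟩ := strict hJ hp hx
  exact (h.to_local_left_inverse (Eventually.mono ((open_dom _ _ _).mem_nhds hx) fun _ hy =>
    inv_X hJ hp hy)).hasFDerivAt.differentiableAt

theorem open_im (hJ : F.J0 ≤ J) (hp : p ∈ Ad (F.Zs J)) {U : Set (α ⊕ ι → ℂ)} (hU : IsOpen U)
    (h : U ⊆ F.dm J p) : IsOpen (F.X J p '' U) := by
  rw [isOpen_iff_mem_nhds]
  rintro _ ⟨y, hy, rfl⟩
  obtain ⟨e, he⟩ := strict hJ hp (h hy)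
  rw [← he.map_nhds_eq_of_equiv]
  exact image_mem_map (hU.mem_nhds hy)

theorem surj (hJ : F.J0 ≤ J) (hp : p ∈ Ad (F.Zs J)) {e : ℝ} (he : 0 ≤ e)
    (h1 : ∀ l, 2 ≤ p.1 l ∧ 4 * (7 / 5 * nu J) < p.1 l ^ 2 ∧ e * p.1 l ^ 2 ≤ 1)
    (ha : ∀ i, ‖x (.inl i)‖ < F.r) (h : ‖F.X J p (pa α ι x) - x‖ ≤ 9 / 10 * e) :
    ∃ y ∈ F.dm J p, (∀ l, ‖y (.inr l)‖ ≤ e) ∧ F.X J p y = x := by
  have m : ∀ w ∈ closedBall (0 : α ⊕ ι → ℂ) e, pa α ι x + pc α ι w ∈ F.dm J p ∧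
      ∀ l, ‖(pa α ι x + pc α ι w) (.inr l)‖ ≤ e := fun w hw => by
    have a : ∀ l, ‖(pa α ι x + pc α ι w) (.inr l)‖ ≤ e := fun l => by
      simpa using (norm_le_pi_norm w _).trans (mem_closedBall_zero_iff.1 hw)
    exact ⟨⟨by simpa using ha, fun l => mem_dsc (h1 l).1 (h1 l).2.1
      ((mul_le_mul_of_nonneg_right (a l) (sq_nonneg _)).trans (h1 l).2.2)⟩, a⟩
  have A : ApproximatesLinearOn (fun w => F.X J p (pa α ι x + pc α ι w) + pa α ι w)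
      (ContinuousLinearMap.id ℂ _) (closedBall 0 e) (1 / 10) := fun w hw w' hw' => by
    have := F.der J hJ p hp _ (m w hw).1 _ (m w' hw').1 (by simp)
    rw [add_sub_add_left_eq_sub, ← map_sub] at this
    have h2 := norm_pc_le (w - w')
    push_cast
    refine le_trans (le_of_eq ?_) (this.trans (by linarith))
    congr 1
    conv_lhs => rw [id, ← pa_pc (w - w'), map_sub (pa α ι)]
    abel
  obtain ⟨w, hw, e1⟩ := A.surjOn_closedBall_of_nonlinearRightInverse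
    ⟨id, 1, by simp, fun _ => rfl⟩ he subset_rfl (a := x) (by
      rw [mem_closedBall, dist_eq_norm, norm_sub_rev]
      simpa [show (1 : ℝ) - 10⁻¹ = 9 / 10 by norm_num] using h)
  refine ⟨_, (m w hw).1, (m w hw).2, ?_⟩
  have : pa α ι w = 0 := by
    funext s
    rcases s with i | j
    · simpa [F.inl] using congrFun e1 (.inl i)
    · rfl
  simpa [this] using e1

end FD

end

end Vale.Agent.P218Q
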