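import Vale.Agent.P218Q.JetA

/-!
# P218, block NF, row JET: the boundary condition and the envelope (helper21)
-/

set_option linter.all false

open Set Filter Topology Metric

namespace Vale.Agent.P218Q

open Vale.Agent.P218T

noncomputable section

namespace Jet

lemma rt_bd {x : ℂ} (h : ‖x‖ ≤ 11 / 10) : 1 + x ^ 2 / 4 ∈ Complex.slitPlane ∧
    1 / 2 ≤ ‖Complex.sqrt (1 + x ^ 2 / 4)‖ := by
  have a : ‖x ^ 2 / 4‖ ≤ 1 / 2 := by
    rw [norm_div, norm_pow, Complex.norm_ofNat]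
    nlinarith [norm_nonneg x]
  refine ⟨Complex.mem_slitPlane_of_norm_lt_one (by linarith), ?_⟩
  rw [norm_sqrt]
  refine Real.le_sqrt_of_sq_le ?_
  have := (nrm (y := 1 + x ^ 2 / 4) (x := 1) (by simpa using a)).1
  rw [norm_one] at this
  linarith

lemma mean2 {x : ℝ → ℂ} {x0 : ℂ} {a : ℝ} (hc : Continuous x) (hm : av x = x0) (h0 : ‖x0‖ ≤ 1)
    (a0 : 0 < a) (a1 : a < 1 / 10) (hx : ∀ θ, ‖x θ - x0‖ ≤ a) (k : ℕ) (hk : k ≤ 1) :
    ‖av (fun θ => x θ ^ k / Complex.sqrt (1 + x θ ^ 2 / 4)) -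
      x0 ^ k / Complex.sqrt (1 + x0 ^ 2 / 4)‖ ≤ 1200 * a ^ 2 := by
  refine (tool (ι := Unit) (R := fun y => y () ^ k / Complex.sqrt (1 + y () ^ 2 / 4))
    (x0 := fun _ => x0) (x := fun θ _ => x θ) (w := fun _ => 1) (B := 3) (fun _ => hc)
    (fun _ => hm) a0 a1 (fun θ _ => by simpa using hx θ) fun y hy => ?_).2.trans_eq (by ring)
  have b : ‖y ()‖ ≤ 11 / 10 := by linarith [(nrm (hy ())).2]
  obtain ⟨e1, e2⟩ := rt_bd b
  have e3 : 0 < ‖Complex.sqrt (1 + y () ^ 2 / 4)‖ := by linarith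
  have e4 : DifferentiableAt ℂ (fun x : Unit → ℂ => Complex.sqrt (1 + x () ^ 2 / 4)) y :=
    (HJ.hasDerivAt_sqrt e1).differentiableAt.comp y
      (f := fun x : Unit → ℂ => 1 + x () ^ 2 / 4) (by fun_prop)
  have e5 := norm_pos_iff.1 e3
  refine ⟨by fun_prop (disch := assumption), ?_⟩
  rw [norm_div, div_le_iff₀ e3]
  interval_cases k <;> simp <;> linarith

open HJ in
lemma core {J0 J : ℕ} (hJ0 : 100 ≤ J0) (hJ : J0 ≤ J) {k Z w t r A : ℝ} {V Y R S F H p0 : ℂ}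
    (k1 : 1 ≤ k) (hZ : 10 ≤ Z) (hw : 10 ^ 4 * k ≤ w) (ht : t ∈ Icc (0 : ℝ) 1) (v6 : ‖V‖ ≤ 6)
    (hY : Y = Z ^ 2 * V / 4) (y1 : 7 / 5 * ((J : ℝ) + 1 / 2) ≤ ‖Y‖) (R2 : R ^ 2 = V)
    (nR : ‖R‖ = r) (r0 : 0 < r) (hA : A = k * r / (Z * w)) (S2 : S ^ 2 = 1 + (p0 / R) ^ 2 / 4)
    (S3 : 0 ≤ S.re) (S0 : S ≠ 0) (M0 : ‖H - 1 / S‖ ≤ 1200 * A) (M1 : ‖F - p0 / R / S‖ ≤ 1200 * A)
    (h4 : R * F + 4 * ((1 - t) * (dta J0 Y - V * eta J0 Y / 2) +
      t * (dta J Y - V * eta J Y / 2)) / Z = 0) :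
    ‖p0 - 2 * Z * ((V - 2) / (Z ^ 2 - 2))‖ ≤ 7200 / (Z ^ 3 * ‖V‖) + 10 ^ 5 * k / (Z * w) ∧ (t = 1 →
      ‖2 * Real.pi * (wt Z V * R * H + wt Z V * R * (-eta J Y + 2 / Z ^ 2 *
        (dta J Y - 2 * eta J Y))) + 2 * Real.pi * b (J + 1) * (wt Z V * R) * Y⁻¹ ^ (J + 1)‖ ≤
      ‖wt Z V * R‖ * (300 * b (J + 1) * ‖Y‖⁻¹ ^ (J + 2) + 10 ^ 5 * k / Z ^ 2 +
        10 ^ 5 * k * r / (Z * w))) := by
  have j0 : (100 : ℝ) ≤ J0 := by exact_mod_cast hJ0
  have j1 : (J0 : ℝ) ≤ J := by exact_mod_cast hJ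
  have z0 : 0 < Z := by linarith
  have z1 : (Z : ℂ) ≠ 0 := by exact_mod_cast z0.ne'
  have w0 : 0 < w := by linarith
  have nY : ‖Y‖ = Z ^ 2 * ‖V‖ / 4 := by simp [hY]
  have y2 : ‖Y‖⁻¹ ≤ 1 / 140 := by rw [one_div]; exact inv_anti₀ (by norm_num) (by linarith)
  have r2 : r ^ 2 = ‖V‖ := by rw [← R2, norm_pow, nR]
  have v0 : 0 < ‖V‖ := by rw [← r2]; positivity
  have R0 : R ≠ 0 := norm_pos_iff.1 (nR ▸ r0)
  have A0 : 0 < A := by rw [hA]; positivity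
  have hJ' : 4 * ((J : ℝ) + 3) ≤ 3 * ‖Y‖ := by linarith
  have g1 := gm_le hJ' (V := V) (by linarith)
  have g0 := gm_le (I := J0) (Y := Y) (V := V) (by linarith) (by linarith)
  set d := Z * R * (F - p0 / R / S) / 4 + (1 - t) *
    (dta J0 Y - V * eta J0 Y / 2 - (dta J Y - V * eta J Y / 2)) with hd
  have d1 : ‖d‖ ≤ 300 * (Z * r * A) + (1 - t) * (35 * ‖Y‖⁻¹) := by
    refine (norm_add_le _ _).trans (add_le_add ?_ ?_)
    · rw [norm_div, norm_mul, norm_mul, nR, Complex.norm_real, Real.norm_of_nonneg z0.le,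
        Complex.norm_ofNat]
      linarith [mul_le_mul_of_nonneg_left M1 (mul_pos z0 r0).le]
    · rw [norm_mul, ← Complex.ofReal_one, ← Complex.ofReal_sub, Complex.norm_real,
        Real.norm_of_nonneg (sub_nonneg.2 ht.2), ← sub_sub_sub_cancel_right _ _ (1 - V / 2)]
      exact mul_le_mul_of_nonneg_left ((norm_sub_le _ _).trans (by linarith)) (sub_nonneg.2 ht.2)
  have d2 : Z * r * A = k * ‖V‖ / w := by rw [hA, ← r2]; field_simp
  have d3 : Z * r * A ≤ 6 * k / w := by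
    rw [d2, mul_comm 6]
    gcongr
  have d4 : 6 * k / w ≤ 6 / 10 ^ 4 := by
    rw [div_le_iff₀ w0]
    linarith
  have yi : 0 ≤ ‖Y‖⁻¹ := by positivity
  have d5 : (1 - t) * (35 * ‖Y‖⁻¹) ≤ 35 * ‖Y‖⁻¹ :=
    mul_le_of_le_one_left (by positivity) (by linarith [ht.1])
  have hp : p0 * (1 / S) = -(4 / Z) * (dta J Y - V * eta J Y / 2 + d) := by
    rw [hd]
    linear_combination (exp := 1) h4 + (R * F - p0 / R * R / S) * (mul_inv_cancel₀ z1) -
      p0 / S * mul_inv_cancel₀ R0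
  have hs : (1 / S) ^ 2 = 1 - (dta J Y - V * eta J Y / 2 + d) ^ 2 / Y := by
    rw [show dta J Y - V * eta J Y / 2 + d = -(Z / 4) * (p0 * (1 / S)) by rw [hp]; field_simp,
      hY, ← R2]
    field_simp at S2 ⊢
    linear_combination -S2
  obtain ⟨e1, e2⟩ := ham' (by omega) hJ' (by linarith) (by linarith) (by linarith) hs
    (by rw [one_div, Complex.inv_re]; exact div_nonneg S3 (Complex.normSq_nonneg _))
  have yv : ‖Y‖⁻¹ = 4 / (Z ^ 2 * ‖V‖) := by rw [nY]; field_simp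
  refine ⟨?_, fun t1 => ?_⟩
  · refine (robin hZ hY hJ' (by linarith) (by linarith) e1 hp).trans ?_
    have a : 6 * ‖d‖ / Z ≤ 6 * (300 * (6 * k / w) + 35 * ‖Y‖⁻¹) / Z := by gcongr; linarith
    rw [yv, show 6 * (300 * (6 * k / w) + 35 * (4 / (Z ^ 2 * ‖V‖))) / Z =
      10800 * (k / (Z * w)) + 840 * (1 / (Z ^ 3 * ‖V‖)) by field_simp; ring] at a
    rw [div_eq_mul_one_div 5000, div_eq_mul_one_div 7200, mul_div_assoc _ k]
    linarith [show 0 ≤ k / (Z * w) by positivity, show 0 ≤ 1 / (Z ^ 3 * ‖V‖) by positivity]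
  rw [show ∀ a b : ℂ, 2 * Real.pi * (wt Z V * R * H + wt Z V * R *
      (-eta J Y + 2 / Z ^ 2 * (dta J Y - 2 * eta J Y))) + 2 * Real.pi * a * (wt Z V * R) * b =
      wt Z V * R * ((2 * Real.pi : ℝ) * (1 / S - eta J Y + a * b + (H - 1 / S) +
        (2 / Z ^ 2 : ℝ) * (dta J Y - 1 - 2 * (eta J Y - 1) - 1))) from fun a b => by
      push_cast; ring, norm_mul]
  refine mul_le_mul_of_nonneg_left ?_ (norm_nonneg _)
  have b1 : ‖dta J Y - 1 - 2 * (eta J Y - 1) - 1‖ ≤ 2 := by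
    refine (norm_sub_le _ _).trans ((add_le_add_left (norm_sub_le _ _) _).trans ?_)
    rw [norm_mul, Complex.norm_ofNat, norm_one]
    linarith [eta_le hJ', dta_le hJ']
  have b2 : (2 * ‖V‖ + 11 * ‖d‖) * ‖Y‖⁻¹ ≤ 13208 * (k / Z ^ 2) := by
    rw [t1, sub_self, zero_mul, add_zero, d2] at d1
    have : k * ‖V‖ / w ≤ k * ‖V‖ := div_le_self (by positivity) (by linarith)
    refine (mul_le_mul_of_nonneg_right (show _ ≤ 3302 * (k * ‖V‖) by
      linarith [le_mul_of_one_le_left v0.le k1]) yi).trans_eq ?_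
    rw [yv]
    field_simp
    norm_num
  have b3 : 2 / Z ^ 2 * 2 ≤ 4 * (k / Z ^ 2) := by
    rw [div_mul_eq_mul_div, ← mul_div_assoc]
    exact div_le_div_of_nonneg_right (by linarith) (by positivity)
  have b4 : 0 ≤ b (J + 1) * ‖Y‖⁻¹ ^ (J + 2) := by have := b_nonneg (J + 1); positivity
  rw [norm_mul, Complex.norm_real, Real.norm_of_nonneg Real.two_pi_pos.le]
  refine (mul_le_mul (show 2 * Real.pi ≤ 63 / 10 by linarith [Real.pi_lt_d2])
    (norm_add₃_le.trans (add_le_add (add_le_add e2 M0) (show _ ≤ 2 / Z ^ 2 * 2 by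
      rw [norm_mul, Complex.norm_real, Real.norm_of_nonneg (by positivity)]
      gcongr))) (norm_nonneg _) (by norm_num)).trans ?_
  rw [mul_div_assoc, mul_assoc _ k r, mul_div_assoc, ← hA]
  linarith [show 0 ≤ k / Z ^ 2 by positivity]

end Jet

open Jet HJ in
theorem jb : JB := by
  intro K
  refine ⟨10 ^ 5 * (|K| + 1), fun J0 J hJ0 hJ => ?_⟩
  set k := |K| + 1 with hk
  have k1 : 1 ≤ k := by linarith [abs_nonneg K]
  filter_upwards [eventually_ge_atTop 10, Real.tendsto_sqrt_atTop.eventually_ge_atTop (10 ^ 4 * k)]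
    with Z hZ hw c hc t a1 p ht cp h1 h2 h3 h4
  have j0 : (100 : ℝ) ≤ J0 := by exact_mod_cast hJ0
  have j1 : (J0 : ℝ) ≤ J := by exact_mod_cast hJ
  have z0 : 0 < Z := by linarith
  have z1 : (Z : ℂ) ≠ 0 := by exact_mod_cast z0.ne'
  have z3 : (Z : ℂ) ^ 2 - 2 ≠ 0 := by exact_mod_cast (show Z ^ 2 - 2 ≠ 0 by nlinarith)
  have hc' : c = (vb Z c - 2) / (Z ^ 2 - 2) := by rw [vb, add_sub_cancel_left, mul_div_cancel_right₀ _ z3]
  replace hc : ‖vb Z c - 3‖ < 3 - 4 * (7 / 5 * ((J : ℝ) + 1 / 2)) / Z ^ 2 := hc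
  simp only [DF, yb, gm] at *
  generalize vb Z c = V at *
  set Y : ℂ := Z ^ 2 * V / 4 with hY
  set w := √Z
  have w0 : 0 < w := by linarith
  have q0 : 0 ≤ 4 * (7 / 5 * ((J : ℝ) + 1 / 2)) / Z ^ 2 := by positivity
  obtain ⟨n1, n2⟩ := nrm hc.le
  rw [Complex.norm_ofNat] at n1 n2
  have nY : ‖Y‖ = Z ^ 2 * ‖V‖ / 4 := by simp [hY]
  have y1 : 7 / 5 * ((J : ℝ) + 1 / 2) ≤ ‖Y‖ := by
    rw [sub_sub_cancel, div_le_iff₀ (by positivity)] at n1
    linarith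
  have v0 : 0 < ‖V‖ := lt_of_lt_of_le (by positivity) ((sub_sub_cancel _ _).symm.le.trans n1)
  have v1 := norm_pos_iff.1 v0
  have nR := norm_sqrt V
  have R2 := sqrt_sq V
  set R := Complex.sqrt V
  set r := √‖V‖
  have r0 : 0 < r := Real.sqrt_pos.2 v0
  have r2 : r ^ 2 = ‖V‖ := Real.sq_sqrt v0.le
  have r3 : r ≤ 3 := by nlinarith
  set A := k * r / (Z * w) with hA
  have A0 : 0 < A := by positivity
  have A1 : A ≤ 1 / 1000 := by
    rw [hA, div_le_iff₀ (by positivity)]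
    nlinarith
  have a2 : √A ^ 2 = A := Real.sq_sqrt A0.le
  have M := mean2 (x := fun θ => p θ / R) (x0 := av p / R) (a := √A) (by fun_prop)
    (by simp only [div_eq_mul_inv, av_mul])
    (by rw [norm_div, nR, div_le_one r0]; exact Real.le_sqrt_of_sq_le h1) (Real.sqrt_pos.2 A0)
    (Real.sqrt_lt' (by norm_num) |>.2 (by linarith)) fun θ => by
      rw [← sub_div, norm_div, nR, div_le_iff₀ r0]
      refine (h2 θ).trans (mul_le_mul_of_nonneg_right (Real.le_sqrt_of_sq_le (h3.trans ?_)) r0.le)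
      rw [hA]
      gcongr
      linarith [le_abs_self K]
  have M0 := M 0 (by norm_num)
  have M1 := M 1 le_rfl
  simp only [pow_zero, pow_one, a2] at M0 M1
  have S1 := (rt_bd (x := av p / R) (by
    rw [norm_div, nR, div_le_iff₀ r0]; linarith [Real.le_sqrt_of_sq_le h1])).2
  have S2 := sqrt_sq (1 + (av p / R) ^ 2 / 4)
  have S3 := sqrt_re (1 + (av p / R) ^ 2 / 4)
  generalize Complex.sqrt (1 + (av p / R) ^ 2 / 4) = S at *
  have S0 : S ≠ 0 := norm_pos_iff.1 (by linarith)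
  rw [(Tb_Z J z1 v1).deriv, hc']
  exact core hJ0 hJ k1 hZ hw ht (by linarith) hY y1 R2 nR r0 hA S2 S3 S0 M0 M1 h4

end

end Vale.Agent.P218Q
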