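import Vale.Agent.P218G.JDefs
import Vale.Agent.P218T.M0
import Vale.Agent.P218T.Rob

/-!
# P218, block NF: what the family delivers, and what the normal form delivers
-/

set_option linter.all false

open Set Filter Topology Metric

namespace Vale.Agent.P218Q

open Vale.Agent.P218S Vale.Agent.P218G Vale.Agent.P218T

noncomputable section

/-- the boundary value `V_b` of the member with slope `c` and cut `Z` -/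
def vb (Z : ℝ) (c : ℂ) : ℂ := 2 + c * (Z ^ 2 - 2)

/-- the variable `Y = Z ^ 2 V_b / 4` -/
def yb (Z : ℝ) (c : ℂ) : ℂ := Z ^ 2 * vb Z c / 4

/-- the normal coordinate read off at the cut -/
def gam (Z : ℝ) (c : ℂ) : ℂ := c / (1 - c * (2 * Real.log Z - Complex.log (vb Z c)))

/-- the slopes with `V_b` in the disc of centre `3` and radius `3 - 4 Y / Z ^ 2` -/
def dsc (Y Z : ℝ) : Set ℂ := {c | ‖vb Z c - 3‖ < 3 - 4 * Y / Z ^ 2}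

/-- the constant in the position of the tip -/
def kap : ℝ := -1 - Real.log 4

/-- the discs in the normal coordinate -/
def Dm (y Z : ℝ) : Set ℂ := {c | ‖c * ((tipv kap Z + y : ℝ) : ℂ) - 1 / 4‖ < 5 / 4}

/-- the order of the pole -/
def nu (J : ℕ) : ℝ := J + 1 / 2

/-- the cutoff of the observable -/
def lg (t : ℂ) : ℂ := 1 / (1 + Complex.exp (-t / 4)) ^ 2

/-- the observable of a rotationally symmetric profile -/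
def om (V V1 : ℝ → ℂ) (m : ℝ) : ℂ := ∫ s in (m - 1)..(m + 1), 2 * Real.pi *
  (lg (s ^ 2 + V s - m ^ 2) * Complex.exp (-(s ^ 2 + V s) / 4) * Complex.sqrt (V s + V1 s ^ 2 / 4))

/-- the mean profile `V` of an end with cut `Z` and slope `c`, and its observable `O` -/
structure Prof (K Z : ℝ) (c : ℂ) (O : ℝ → ℂ) (V V1 V2 : ℝ → ℂ) : Prop where
  cV : ContinuousOn V (Icc (Z / 300) Z)
  cV1 : ContinuousOn V1 (Icc (Z / 300) Z)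
  dV : ∀ s ∈ Ioo (Z / 300) Z, HasDerivAt V (V1 s) s
  dV1 : ∀ s ∈ Ioo (Z / 300) Z, HasDerivAt V1 (V2 s) s
  eq : ∀ s ∈ Ioo (Z / 300) Z, ‖V2 s - M0.G s (V s) (V1 s)‖ ≤ K / s ^ 3 + K / √Z * M0.ly Z s
  top : V Z = vb Z c
  rob : ‖V1 Z - 2 * Z * c‖ ≤ 7200 / (Z ^ 3 * ‖vb Z c‖) + K / (Z * √Z)
  obs : ∀ m ∈ Icc (Z / 20) (Z / 2), ‖O m - om V V1 m‖ ≤ K * Real.exp (-m ^ 2 / 4) / Z ^ 4

/-- the asymptotics of the derivative of the reduced functional in the cut height -/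
def DF (J : ℕ) (K Z : ℝ) (c D : ℂ) : Prop :=
  ‖D + 2 * Real.pi * HJ.b (J + 1) * (HJ.wt Z (vb Z c) * Complex.sqrt (vb Z c)) *
      (yb Z c)⁻¹ ^ (J + 1)‖ ≤ ‖HJ.wt Z (vb Z c) * Complex.sqrt (vb Z c)‖ *
    (300 * HJ.b (J + 1) * ‖yb Z c‖⁻¹ ^ (J + 2) + K / Z ^ 2 + K * √‖vb Z c‖ / (Z * √Z))

variable {α ι : Type} [Fintype α] [Fintype ι]

/-- admissible cuts and interpolation parameters -/
def Ad (Zs : ℝ) : Set ((ι → ℝ) × ℝ) :=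
  {p | (∀ l, Zs ≤ p.1 l) ∧ (∀ l l', p.1 l ≤ 10 * p.1 l') ∧ p.2 ∈ Icc 0 1}

/-- the parameters `(a, c)` of the members with cuts `W` -/
def dom (r Y : ℝ) (W : ι → ℝ) : Set (α ⊕ ι → ℂ) :=
  {y | (∀ i, ‖y (.inl i)‖ < r) ∧ ∀ l, y (.inr l) ∈ dsc Y (W l)}

/-- the differential of the reduced functional in the parameters -/
def dP (D : ι → ℂ) (τ : ℂ) : ((ι → ℝ) × ℝ) →L[ℝ] ℂ :=
  (∑ j, (ContinuousLinearMap.proj j : (ι → ℝ) →L[ℝ] ℝ).smulRight (D j)).coprod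
    ((ContinuousLinearMap.id ℝ ℝ).smulRight τ)

/-- The family. The member with boundary term `(1 - p.2) Tb J0 + p.2 Tb J`, cuts `p.1` and parameters
`y = (a, c)` has constraint values `X J p y`, reduced functional `f`, envelope `D`, observables
`O` (index: end, height of the cutoff). -/
structure FD (α ι : Type) [Fintype α] [Fintype ι] where
  r : ℝ
  J0 : ℕ
  Zs : ℕ → ℝ
  K : ℕ → ℝ
  X : ℕ → (ι → ℝ) × ℝ → (α ⊕ ι → ℂ) → α ⊕ ι → ℂ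
  f : ℕ → (ι → ℝ) × ℝ → (α ⊕ ι → ℂ) → ℂ
  D : ℕ → (ι → ℝ) × ℝ → (α ⊕ ι → ℂ) → ι → ℂ
  O : ℕ → (ι → ℝ) × ℝ → (α ⊕ ι → ℂ) → ι → ℝ → ℂ
  r0 : 0 < r
  big : 10 ^ 13 ≤ J0
  zs : ∀ J, J0 ≤ J → Zs J0 ≤ Zs J
  inl : ∀ J p y i, X J p y (.inl i) = y (.inl i)
  holX : ∀ J, J0 ≤ J → ∀ p ∈ Ad (Zs J), DifferentiableOn ℂ (X J p) (dom r (7 / 5 * nu J) p.1)
  holf : ∀ J, J0 ≤ J → ∀ p ∈ Ad (Zs J), DifferentiableOn ℂ (f J p) (dom r (7 / 5 * nu J) p.1)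
  bd : ∀ J, J0 ≤ J → ∀ p ∈ Ad (Zs J), ∀ y ∈ dom r (7 / 5 * nu J) p.1, ‖f J p y‖ ≤ K J
  der : ∀ J, J0 ≤ J → ∀ p ∈ Ad (Zs J), ∀ y ∈ dom r (7 / 5 * nu J) p.1,
    ∀ y' ∈ dom r (7 / 5 * nu J) p.1, (∀ i, y (.inl i) = y' (.inl i)) →
      ‖X J p y - X J p y' - (y - y')‖ ≤ ‖y - y'‖ / 10
  ind : ∀ J, J0 ≤ J → ∀ W, (W, 0) ∈ Ad (Zs J) → ∀ y ∈ dom r (7 / 5 * nu J) W,
    X J (W, 0) y = X J0 (W, 1) y ∧ f J (W, 0) y = f J0 (W, 1) y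
  conj : ∀ p ∈ Ad (Zs J0), ∀ y ∈ dom r (7 / 5 * nu J0) p.1,
    X J0 p (star y) = star (X J0 p y) ∧ f J0 p (star y) = star (f J0 p y)
  loc : ∀ J, J0 ≤ J → ∀ p ∈ Ad (Zs J), ∀ y ∈ dom r (7 / 5 * nu J) p.1, ∀ Z, (∀ l, Z ≤ p.1 l) →
    Zs J ≤ Z → ∃ g : (ι → ℝ) × ℝ → α ⊕ ι → ℂ, ContinuousWithinAt g (Ad (Zs J)) p ∧ g p = y ∧
      (∀ᶠ q in 𝓝[Ad (Zs J)] p, X J q (g q) = X J p y) ∧
      (∃ τ : ℂ, ‖τ‖ ≤ Real.exp (-Z ^ 2 / 5) ∧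
        HasFDerivWithinAt (fun q => f J q (g q)) (dP (D J p y) τ) (Ad (Zs J)) p) ∧
      ∀ j, ∀ m ∈ Icc (p.1 j / 20) (p.1 j / 2), ∃ L : ((ι → ℝ) × ℝ) →L[ℝ] ℂ,
        ‖L‖ ≤ Real.exp (-Z ^ 2 / 5) ∧
          HasFDerivWithinAt (fun q => O J q (g q) j m) L (Ad (Zs J)) p
  prof : ∀ J, J0 ≤ J → ∀ p ∈ Ad (Zs J), ∀ y ∈ dom r (7 / 5 * nu J) p.1, ∀ j,
    ∃ V V1 V2, Prof (K J) (p.1 j) (y (.inr j)) (O J p y j) V V1 V2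
  df : ∀ J, J0 ≤ J → ∀ W, (W, 1) ∈ Ad (Zs J) → ∀ y ∈ dom r (7 / 5 * nu J) W, ∀ j,
    DF J (K J) (W j) (y (.inr j)) (D J (W, 1) y j)

namespace FD

variable (F : FD α ι)

/-- the domain of the members -/
abbrev dm (J : ℕ) (p : (ι → ℝ) × ℝ) : Set (α ⊕ ι → ℂ) := dom F.r (7 / 5 * nu J) p.1

open Classical in
/-- the parameters of the member with constraint values `x` -/
def inv (J : ℕ) (p : (ι → ℝ) × ℝ) (x : α ⊕ ι → ℂ) : α ⊕ ι → ℂ :=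
  if h : ∃ y ∈ F.dm J p, F.X J p y = x then h.choose else 0

/-- the diagonal cut -/
def dg (Z : ℝ) : (ι → ℝ) × ℝ := (fun _ => Z, 1)

/-- `Ψ` is a normal form with inverse `Θ` near `0` -/
structure NFm (Ψ Θ : (α ⊕ ι → ℂ) → α ⊕ ι → ℂ) (r : ℝ) : Prop where
  r0 : 0 < r
  le : r ≤ F.r
  hol : DifferentiableOn ℂ Θ (ball 0 r)
  hol' : ∀ᶠ x in 𝓝 (Θ 0), DifferentiableAt ℂ Ψ x
  right : ∀ x ∈ ball 0 r, Ψ (Θ x) = x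
  left : ∀ᶠ x in 𝓝 (Θ 0), Θ (Ψ x) = x
  inl : ∀ x i, Ψ x (.inl i) = x (.inl i)
  conj : ∀ x ∈ ball 0 r, Θ (star x) = star (Θ x)
  conj' : ∀ᶠ x in 𝓝 (Θ 0), Ψ (star x) = star (Ψ x)
  near : ∃ C Z1 : ℝ, 0 < Z1 ∧ ∀ (n : ℕ) (Z : ℝ), Z = Z1 * 2 ^ n →
    ‖F.X F.J0 (dg Z) 0 - Θ 0‖ ≤ C / (Z ^ 4 * √Z) ∧ ∀ y ∈ F.dm F.J0 (dg Z),
      (∀ l, ‖y (.inr l)‖ ≤ 1 / (4 * Z ^ 2)) → ∀ l,
        ‖Ψ (F.X F.J0 (dg Z) y) (.inr l) - gam Z (y (.inr l))‖ ≤ C / (Z ^ 4 * √Z)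

/-- the reduced functional in normal coordinates -/
def fN (Θ : (α ⊕ ι → ℂ) → α ⊕ ι → ℂ) (J : ℕ) (W : ι → ℝ) (x : α ⊕ ι → ℂ) : ℂ :=
  F.f J (W, 1) (F.inv J (W, 1) (Θ x))

/-- the output of the block -/
structure Out (Ψ Θ : (α ⊕ ι → ℂ) → α ⊕ ι → ℂ) (r : ℝ) : Prop where
  nf : F.NFm Ψ Θ r
  base : Tendsto (fun Z => F.X F.J0 (dg Z) 0) atTop (𝓝 (Θ 0))
  fam0 : ∃ δ, ∃ G : Fam (cpr α ι) (fun _ => kap) (nu F.J0) δ, G.f = F.fN Θ F.J0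
  real : RealF (F.fN Θ F.J0)
  fam : ∀ δ : ℝ, 0 < δ → ∀ ν₁ : ℝ, ∃ ν, ν₁ ≤ ν ∧ ∃ G : Fam (cpr α ι) (fun _ => kap) ν δ,
    Near (F.fN Θ F.J0) G.f
  mem : ∃ r' Z1 : ℝ, 0 < r' ∧ (∀ Z, Z1 ≤ Z → ∀ x : α ⊕ ι → ℂ, ‖x‖ < r' →
      (∀ l, ‖x (.inr l)‖ < 1 / Z ^ 2) → F.inv F.J0 (dg Z) (Θ x) ∈ F.dm F.J0 (dg Z) ∧
        F.X F.J0 (dg Z) (F.inv F.J0 (dg Z) (Θ x)) = Θ x ∧
        F.inv F.J0 (dg Z) (Θ (star x)) = star (F.inv F.J0 (dg Z) (Θ x)) ∧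
        ∀ l, ‖F.inv F.J0 (dg Z) (Θ x) (.inr l)‖ ≤ 2 * ‖x (.inr l)‖ + 1 / Z ^ 4) ∧
    ContinuousOn (fun q : ℝ × (α ⊕ ι → ℂ) => F.inv F.J0 (dg q.1) (Θ q.2))
      {q | Z1 ≤ q.1 ∧ ‖q.2‖ < r' ∧ ∀ l, ‖q.2 (.inr l)‖ < 1 / q.1 ^ 2}

end FD

/-- the statement of the block -/
def NF (α ι : Type) [Fintype α] [Fintype ι] : Prop := ∀ F : FD α ι, ∃ Ψ Θ r, F.Out Ψ Θ r

end

end Vale.Agent.P218Q
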