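import Vale.Agent.P218Q.Bas

/-!
# P218, block NF: extrapolation of second order jets
-/

set_option linter.all false

open Set Filter Topology Metric
open scoped ComplexConjugate

namespace Vale.Agent.P218Q

noncomputable section

variable {α ι : Type} [Fintype α] [Fintype ι]

theorem tail {G : Type} [NormedAddCommGroup G] {a : ℕ → G} {l : G} {b : ℕ → ℝ}
    (ha : Tendsto a atTop (𝓝 l)) (hb : ∀ n, b (n + 1) ≤ 3 / 4 * b n)
    (h : ∀ k, ‖a (k + 1) - a k‖ ≤ b k) (n : ℕ) : ‖l - a n‖ ≤ 4 * b n := by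
  have i : ∀ k, ‖a (k + n) - a n‖ ≤ 4 * b n - 4 * b (k + n) := fun k => by
    induction k with
    | zero => simp
    | succ k ih =>
      rw [Nat.add_right_comm]
      linarith [norm_sub_le_norm_sub_add_norm_sub (a (k + n + 1)) (a (k + n)) (a n), h (k + n),
        hb (k + n)]
  exact le_of_tendsto' (((tendsto_add_atTop_iff_nat n).2 ha).sub_const _).norm fun k =>
    by linarith [i k, (norm_nonneg _).trans (h (k + n))]

theorem lim_hol {U : Set (α ⊕ ι → ℂ)} (hU : IsOpen U) {u : ℕ → (α ⊕ ι → ℂ) → α ⊕ ι → ℂ}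
    {b : ℕ → ℝ} (hu : ∀ n, DifferentiableOn ℂ (u n) U) (hb : ∀ n, b (n + 1) ≤ 3 / 4 * b n)
    (h : ∀ n, ∀ x ∈ U, ‖u (n + 1) x - u n x‖ ≤ b n) :
    ∃ v, DifferentiableOn ℂ v U ∧ ∀ x ∈ U, Tendsto (u · x) atTop (𝓝 (v x)) := by
  have s : ∀ x ∈ U, Summable b := fun x hx => summable_of_ratio_norm_eventually_le
    (r := 3 / 4) (by norm_num) (.of_forall fun n => by
      simpa only [Real.norm_of_nonneg ((norm_nonneg _).trans (h _ x hx))] using hb n)
  have s' := fun x hx => Summable.of_norm_bounded (s x hx) fun n => h n x hx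
  refine ⟨fun x => u 0 x + ∑' n, (u (n + 1) x - u n x), fun x hx => ?_, fun x hx => ?_⟩
  · obtain ⟨r, r0, hr⟩ := Metric.isOpen_iff.1 hU x hx
    have m : ∀ y ∈ ball x (r / 2), ball y (r / 2) ⊆ U := fun y hy =>
      (ball_subset_ball' (by linarith [mem_ball.1 hy])).trans hr
    have d := fun n => (hu (n + 1)).sub (hu n)
    exact (hu 0 x hx).add (hasFDerivAt_tsum_of_isPreconnected ((s x hx).div_const (r / 2))
      isOpen_ball (convex_ball x (r / 2)).isPreconnected (fun n y hy => ((d n).differentiableAt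
        (hU.mem_nhds (m y hy (mem_ball_self (by linarith))))).hasFDerivAt)
      (fun n y hy => P281.MF.norm_fderiv_le_of_ball (by linarith) ((d n).mono (m y hy))
        fun z hz => h n z (m y hy hz)) (mem_ball_self (by linarith)) (s' x hx)
      (mem_ball_self (by linarith))).differentiableAt.differentiableWithinAt
  · have := (s' x hx).hasSum.tendsto_sum_nat.const_add (u 0 x)
    simpa only [Finset.sum_range_sub (u · x), add_sub_cancel] using this

theorem pa_pa (x : α ⊕ ι → ℂ) : pa α ι (pa α ι x) = pa α ι x := by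
  funext s
  rcases s with i | j <;> rfl

theorem pc_pc (x : α ⊕ ι → ℂ) : pc α ι (pc α ι x) = pc α ι x := by
  funext s
  rcases s with i | j <;> rfl

theorem pa_pc0 (x : α ⊕ ι → ℂ) : pa α ι (pc α ι x) = 0 := by
  funext s
  rcases s with i | j <;> rfl

theorem pc_pa0 (x : α ⊕ ι → ℂ) : pc α ι (pa α ι x) = 0 := by
  funext s
  rcases s with i | j <;> rfl

theorem pa_star (x : α ⊕ ι → ℂ) : pa α ι (star x) = star (pa α ι x) := by
  funext s
  rcases s with i | j <;> simp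

theorem pc_star (x : α ⊕ ι → ℂ) : pc α ι (star x) = star (pc α ι x) := by
  funext s
  rcases s with i | j <;> simp

/-- a polydisc -/
def Bx (r ρ : ℝ) : Set (α ⊕ ι → ℂ) := {x | ‖pa α ι x‖ < r ∧ ‖pc α ι x‖ < ρ}

theorem open_Bx (r ρ : ℝ) : IsOpen (Bx r ρ : Set (α ⊕ ι → ℂ)) :=
  (isOpen_lt (pa α ι).continuous.norm continuous_const).inter
    (isOpen_lt (pc α ι).continuous.norm continuous_const)

/-- the Taylor polynomial of order two in the second group of variables -/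
def T2 (h : (α ⊕ ι → ℂ) → α ⊕ ι → ℂ) (x : α ⊕ ι → ℂ) : α ⊕ ι → ℂ :=
  ∑ k ∈ Finset.range 3, (k.factorial : ℂ)⁻¹ • iteratedFDeriv ℂ k h (pa α ι x) fun _ => pc α ι x

variable {h g : (α ⊕ ι → ℂ) → α ⊕ ι → ℂ} {r ρ M : ℝ} {x : α ⊕ ι → ℂ}

theorem line_mem (hx : ‖pa α ι x‖ < r) {t : ℂ} (ht : ‖t‖ * ‖pc α ι x‖ < ρ) :
    pa α ι x + t • pc α ι x ∈ Bx r ρ := by
  simpa [Bx, pa_pa, pc_pc, pa_pc0, pc_pa0, norm_smul] using ⟨hx, ht⟩

theorem pa_mem (hx : ‖pa α ι x‖ < r) (h0 : 0 < ρ) : pa α ι x ∈ Bx r ρ := by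
  simpa using line_mem hx (t := 0) (ρ := ρ) (by simpa)

theorem line_diff (hh : DifferentiableOn ℂ h (Bx r ρ)) (hx : ‖pa α ι x‖ < r) {t : ℂ}
    (ht : ‖t‖ * ‖pc α ι x‖ < ρ) : DifferentiableAt ℂ (fun t : ℂ => h (pa α ι x + t • pc α ι x)) t :=
  (hh.differentiableAt ((open_Bx r ρ).mem_nhds (line_mem hx ht))).comp t (by fun_prop)

theorem T2_eq (hh : DifferentiableOn ℂ h (Bx r ρ)) (h0 : 0 < ρ) (hx : ‖pa α ι x‖ < r) (t : ℂ) :
    T2 h (pa α ι x + t • pc α ι x) = ∑ k ∈ Finset.range 3, (t ^ k / k.factorial) •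
      iteratedDeriv k (fun t : ℂ => h (pa α ι x + t • pc α ι x)) 0 :=
  Finset.sum_congr rfl fun k _ => by
    rw [P281.MF.iteratedDeriv_line (open_Bx r ρ) (P281.MF.contDiffOn_of_differentiableOn
      (open_Bx r ρ) hh k) (line_mem hx (by simpa))]
    simp only [map_add, map_smul, pa_pa, pc_pc, pa_pc0, pc_pa0, smul_zero, add_zero, zero_add,
      zero_smul, ContinuousMultilinearMap.map_smul_univ, smul_smul]
    simp [div_eq_inv_mul]

theorem T2_one (hh : DifferentiableOn ℂ h (Bx r ρ)) (h0 : 0 < ρ) (hx : ‖pa α ι x‖ < r) :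
    T2 h x = ∑ k ∈ Finset.range 3, (k.factorial : ℂ)⁻¹ •
      iteratedDeriv k (fun t : ℂ => h (pa α ι x + t • pc α ι x)) 0 := by
  simpa [pa_pc] using T2_eq hh h0 hx 1

theorem T2_diff (hh : DifferentiableOn ℂ h (Bx r ρ)) (h0 : 0 < ρ) (hx : ‖pa α ι x‖ < r) :
    DifferentiableAt ℂ (T2 h) x := by
  classical
  refine DifferentiableAt.fun_sum fun k _ => DifferentiableAt.fun_const_smul ?_ _
  exact ((((P281.MF.analyticOnNhd_of_differentiableOn (open_Bx r ρ) hh).iteratedFDeriv k _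
    (pa_mem hx h0)).differentiableAt.hasFDerivAt.comp x (pa α ι).hasFDerivAt
      ).continuousMultilinearMap_apply fun _ => (pc α ι).hasFDerivAt).differentiableAt

theorem T2_sub (hh : DifferentiableOn ℂ h (Bx r ρ)) (hg : DifferentiableOn ℂ g (Bx r ρ))
    (h0 : 0 < ρ) (hx : ‖pa α ι x‖ < r) : T2 (h - g) x = T2 h x - T2 g x := by
  rw [T2, T2, T2, ← Finset.sum_sub_distrib]
  refine Finset.sum_congr rfl fun k _ => ?_
  rw [iteratedFDeriv_sub_apply (P281.MF.analyticAt_of_differentiableOn (open_Bx r ρ) hh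
    (pa_mem hx h0)).contDiffAt (P281.MF.analyticAt_of_differentiableOn (open_Bx r ρ) hg
    (pa_mem hx h0)).contDiffAt, ContinuousMultilinearMap.sub_apply, smul_sub]

theorem T2_le (hh : DifferentiableOn ℂ h (Bx r ρ)) (h0 : 0 < ρ) (hx : ‖pa α ι x‖ < r)
    (hM : ∀ y ∈ Bx r ρ, ‖h y‖ ≤ M) : ‖T2 h x‖ ≤ 3 * M * (1 + ‖pc α ι x‖ / ρ) ^ 2 := by
  set u := 1 + ‖pc α ι x‖ / ρ with hu
  have u1 : 1 ≤ u := le_add_of_nonneg_right (by positivity)
  have M0 := (norm_nonneg _).trans (hM _ (pa_mem hx h0))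
  have a : ∀ t : ℂ, ‖t‖ ≤ u⁻¹ → ‖t‖ * ‖pc α ι x‖ < ρ := fun t ht =>
    (mul_le_mul_of_nonneg_right ht (norm_nonneg _)).trans_lt (by
      rw [inv_mul_lt_iff₀ (by linarith), hu, add_mul, div_mul_cancel₀ _ h0.ne']
      linarith)
  rw [T2_one hh h0 hx]
  refine (norm_sum_le_of_le (n := fun _ => M * u ^ 2) _ fun k hk => ?_).trans (by simp; linarith)
  have := Complex.norm_iteratedDeriv_le_of_forall_mem_sphere_norm_le (c := 0) (R := u⁻¹) k
    (by positivity) (DifferentiableOn.diffContOnCl fun t ht => (line_diff hh hx (a t (by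
      simpa using closure_ball_subset_closedBall ht))).differentiableWithinAt) fun t ht =>
        hM _ (line_mem hx (a t (by simpa using sphere_subset_closedBall ht)))
  rw [norm_smul, norm_inv, Complex.norm_natCast, inv_mul_le_iff₀ (by positivity)]
  refine this.trans ?_
  rw [inv_pow, div_inv_eq_mul, mul_assoc]
  gcongr
  exact Nat.lt_succ_iff.1 (Finset.mem_range.1 hk)

theorem T2_rem (hh : DifferentiableOn ℂ h (Bx r ρ)) (h0 : 0 < ρ)
    (hM : ∀ y ∈ Bx r ρ, ‖h y - T2 h y‖ ≤ M) (hx : x ∈ Bx r (ρ / 4)) :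
    ‖h x - T2 h x‖ ≤ M / 64 := by
  have a : ∀ t ∈ ball (0 : ℂ) 4, ‖t‖ * ‖pc α ι x‖ < ρ := fun t ht => by
    nlinarith [mem_ball_zero_iff.1 ht, hx.2, norm_nonneg t, norm_nonneg (pc α ι x)]
  obtain ⟨G, G1, G2⟩ := (DifferentiableOn.analyticAt (fun t ht => (line_diff hh hx.1
    (a t ht)).differentiableWithinAt) (ball_mem_nhds 0 four_pos)).exists_eq_sum_add_pow_mul 3
  have e : ∀ t : ℂ, h (pa α ι x + t • pc α ι x) - T2 h (pa α ι x + t • pc α ι x) = t ^ 3 • G t :=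
    fun t => by rw [T2_eq hh h0 hx.1, sub_eq_iff_eq_add']; exact G2 t
  have d : DifferentiableOn ℂ (fun t : ℂ => t ^ 3 • G t) (ball 0 4) := by
    intro t ht
    have d1 : DifferentiableAt ℂ (fun t : ℂ => pa α ι x + t • pc α ι x) t := by fun_prop
    have d2 := (T2_diff hh h0 (line_mem hx.1 (a t ht)).1).comp t d1
    exact ((line_diff hh hx.1 (a t ht)).sub d2).differentiableWithinAt.congr
      (fun t _ => (e t).symm) (e t).symm
  have := Complex.dist_le_mul_div_pow_of_mapsTo_ball_of_isLittleO (c := 0) (z := 1) (R₂ := M)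
    (n := 2) d (fun t ht => by simpa [e] using hM _ (line_mem hx.1 (a t ht)))
    (by simpa using ((Asymptotics.isLittleO_pow_pow (𝕜 := ℂ) (show 2 < 3 by norm_num)).smul_isBigO
      (G1.continuousAt.tendsto.isBigO_one ℂ)).norm_right) (by simp)
  rw [← e 1] at this
  simpa [div_eq_mul_inv, show (4 : ℝ) ^ 3 = 64 by norm_num, pa_pc] using this

theorem star_Bx (hx : x ∈ Bx r ρ) : star x ∈ Bx r ρ := by
  simpa [Bx, pa_star, pc_star] using hx

theorem T2_star (hh : DifferentiableOn ℂ h (Bx r ρ)) (h0 : 0 < ρ) (hx : ‖pa α ι x‖ < r)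
    (hs : ∀ y ∈ Bx r ρ, h (star y) = star (h y)) : T2 h (star x) = star (T2 h x) := by
  rw [T2_one hh h0 hx, T2_one hh h0 (by rwa [pa_star, norm_star]), star_sum]
  refine Finset.sum_congr rfl fun k _ => ?_
  have a : ∀ (φ : ℂ → α ⊕ ι → ℂ) (k : ℕ), iteratedDeriv k (star ∘ φ ∘ conj) =
      star ∘ iteratedDeriv k φ ∘ conj := fun φ k => by
    induction k with
    | zero => simp
    | succ k ih => rw [iteratedDeriv_succ, ih, deriv_star_conj, iteratedDeriv_succ]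
  have b : (fun t : ℂ => h (pa α ι (star x) + t • pc α ι (star x))) =ᶠ[𝓝 0]
      star ∘ (fun t : ℂ => h (pa α ι x + t • pc α ι x)) ∘ conj := by
    filter_upwards [(show Continuous fun t : ℂ => ‖t‖ * ‖pc α ι x‖ by
      fun_prop).continuousAt.eventually_lt_const (by simpa using h0)] with t ht
    simp only [Function.comp_apply]
    rw [← hs _ (line_mem hx (by simpa using ht))]
    simp [pa_star, pc_star]
  rw [b.iteratedDeriv_eq, a]
  simp

theorem extrap {g : ℕ → (α ⊕ ι → ℂ) → α ⊕ ι → ℂ} {ρ e : ℕ → ℝ} (h0 : ∀ n, 0 < ρ n)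
    (h1 : ∀ n, ρ n ≤ 1) (hρ : ∀ n, ρ (n + 1) = ρ n / 4) (e0 : ∀ n, 0 < e n)
    (he : ∀ n, e n / 32 ≤ e (n + 1) ∧ e (n + 1) ≤ e n / 22)
    (hg : ∀ n, DifferentiableOn ℂ (g n) (Bx r (ρ n))) (hM : ∀ x ∈ Bx r (ρ 0), ‖g 0 x‖ ≤ M)
    (hd : ∀ n, ∀ x ∈ Bx r (ρ (n + 1)), ‖g (n + 1) x - g n x‖ ≤ e n)
    (hs : ∀ n, ∀ x ∈ Bx r (ρ n), g n (star x) = star (g n x)) :
    ∃ Γ C, DifferentiableOn ℂ Γ (Bx r 1) ∧ (∀ x ∈ Bx r 1, Γ (star x) = star (Γ x)) ∧
      ∀ n, ∀ x ∈ Bx r (ρ n), ‖Γ x - g n x‖ ≤ C * e n := by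
  have sub : ∀ n, (Bx r (ρ (n + 1)) : Set (α ⊕ ι → ℂ)) ⊆ Bx r (ρ n) := fun n x hx =>
    ⟨hx.1, by linarith [hx.2, hρ n, h0 n]⟩
  have a : ∀ n x, ‖pa α ι x‖ < r → ‖T2 (g (n + 1)) x - T2 (g n) x‖ ≤
      3 * e n * (1 + ‖pc α ι x‖ / ρ (n + 1)) ^ 2 := fun n x hx => by
    rw [← T2_sub (hg _) ((hg n).mono (sub n)) (h0 _) hx]
    exact T2_le ((hg _).sub ((hg n).mono (sub n))) (h0 _) hx (hd n)
  have b : ∀ s : ℝ, 0 ≤ s → ∀ n, 3 * e (n + 1) * (1 + s / ρ (n + 1 + 1)) ^ 2 ≤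
      3 / 4 * (3 * e n * (1 + s / ρ (n + 1)) ^ 2) := fun s hs n => by
    have := h0 (n + 1)
    have := e0 n
    calc _ ≤ 3 * (e n / 22) * (4 * (1 + s / ρ (n + 1))) ^ 2 := by
          have := h0 (n + 1 + 1)
          gcongr
          · exact (he n).2
          · rw [hρ (n + 1), div_div_eq_mul_div, mul_div_right_comm]
            linarith
      _ ≤ _ := by nlinarith [mul_nonneg this.le (sq_nonneg (1 + s / ρ (n + 1)))]
  obtain ⟨Γ, G1, G2⟩ := lim_hol (b := fun n => 3 * e n * (1 + 1 / ρ (n + 1)) ^ 2) (open_Bx r 1) (fun n x hx => (T2_diff (hg n) (h0 n)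
    hx.1).differentiableWithinAt) (b 1 one_pos.le) fun n x hx => (a n x hx.1).trans (by
      have := e0 n
      have := h0 (n + 1)
      gcongr
      exact hx.2.le)
  set D := max 832 (13 * M / e 0)
  have c : ∀ {ρ : ℝ} {x : α ⊕ ι → ℂ} {s C : ℝ}, 0 < ρ → 0 ≤ C → ‖pc α ι x‖ < s * ρ →
      3 * C * (1 + ‖pc α ι x‖ / ρ) ^ 2 ≤ 3 * C * (1 + s) ^ 2 := fun h0 hC h => by
    gcongr
    exact (div_le_iff₀ h0).2 h.le
  have d : ∀ n, ∀ x ∈ Bx r (ρ n), ‖g n x - T2 (g n) x‖ ≤ D * e n := fun n => by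
    induction n with
    | zero =>
      intro x hx
      have := (T2_le (hg 0) (h0 0) hx.1 hM).trans (c (s := 1) (h0 0)
        ((norm_nonneg _).trans (hM x hx)) (by simpa using hx.2))
      linarith [norm_sub_le (g 0 x) (T2 (g 0) x), hM x hx,
        (div_le_iff₀ (e0 0)).1 (le_max_right 832 (13 * M / e 0))]
    | succ n ih =>
      intro x hx
      have a1 := T2_rem (hg n) (h0 n) ih (hρ n ▸ hx)
      have a2 := (a n x hx.1).trans (c (s := 1) (h0 _) (e0 n).le (by simpa using hx.2))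
      have a3 := norm_sub_le (g (n + 1) x - g n x + (g n x - T2 (g n) x))
        (T2 (g (n + 1)) x - T2 (g n) x)
      have a4 := norm_add_le (g (n + 1) x - g n x) (g n x - T2 (g n) x)
      have a5 : 832 ≤ D := le_max_left _ _
      rw [show ∀ a b c d : α ⊕ ι → ℂ, a - b + (b - c) - (d - c) = a - d from
        fun _ _ _ _ => by abel] at a3
      nlinarith [hd n x hx, mul_le_mul_of_nonneg_left (he n).1 (show 0 ≤ D by linarith), e0 n]
  refine ⟨Γ, 300 + D, G1, fun x hx => tendsto_nhds_unique (G2 _ (star_Bx hx)) ?_, fun n x hx => ?_⟩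
  · exact (G2 x hx).star.congr fun n => (T2_star (hg n) (h0 n) hx.1 (hs n)).symm
  · have := tail (G2 x ⟨hx.1, hx.2.trans_le (h1 n)⟩) (b _ (norm_nonneg _)) (fun k => a k x hx.1) n
    have a2 := c (s := 4) (h0 (n + 1)) (e0 n).le (show ‖pc α ι x‖ < _ by linarith [hx.2, hρ n])
    linarith [norm_sub_le_norm_sub_add_norm_sub (Γ x) (T2 (g n) x) (g n x), d n x hx,
      norm_sub_rev (g n x) (T2 (g n) x)]

end

end Vale.Agent.P218Q
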