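import Vale.Agent.P218Q.Path
import Vale.Agent.P218Q.Tay

/-!
# P218, block NF: consequences of PATH
-/

set_option linter.all false

open Set Filter Topology Metric

namespace Vale.Agent.P218Q

open Vale.Agent.P218S Vale.Agent.P218G Vale.Agent.P218T

noncomputable section

/-- the size of the errors -/
def ee (Z : ℝ) : ℝ := 1 / (Z ^ 4 * √Z)

theorem ee_eq (C Z : ℝ) : C / (Z ^ 4 * √Z) = C * ee Z := by rw [ee, mul_one_div]

theorem ee_pos {Z : ℝ} (h : 0 < Z) : 0 < ee Z := by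
  unfold ee
  positivity

theorem ee_le {Z W a : ℝ} (h : 0 < W) (ha : 1 ≤ a) (hW : W ≤ a * Z) : ee Z ≤ a ^ 5 * ee W := by
  have h0 : 0 < Z := by nlinarith
  have : √W ≤ a * √Z := Real.sqrt_le_iff.2 ⟨by positivity, by
    rw [mul_pow, Real.sq_sqrt h0.le]
    nlinarith [mul_pos h0 (one_pos.trans_le ha)]⟩
  rw [ee, ← ee_eq, div_le_div_iff₀ (by positivity) (by positivity)]
  calc _ ≤ 1 * ((a * Z) ^ 4 * (a * √Z)) := by gcongr
    _ = _ := by ring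

theorem ee_two {Z : ℝ} (h : 0 < Z) : ee Z / 32 ≤ ee (Z * 2) ∧ ee (Z * 2) ≤ ee Z / 22 := by
  have := ee_le (Z := Z) (a := 2) (W := Z * 2) (by linarith) one_le_two (by linarith)
  refine ⟨by linarith, ?_⟩
  have : 11 / 8 * √Z ≤ √(Z * 2) := Real.le_sqrt_of_sq_le (by
    rw [mul_pow, Real.sq_sqrt h.le]
    linarith)
  rw [ee, ee, div_div]
  refine one_div_le_one_div_of_le (by positivity) ?_
  calc _ = (Z * 2) ^ 4 * (11 / 8 * √Z) := by ring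
    _ ≤ _ := by gcongr

theorem ev_ee (C : ℝ) {ε : ℝ} (h : 0 < ε) : ∀ᶠ Z : ℝ in atTop, C * ee Z ≤ ε / Z ^ 4 := by
  filter_upwards [eventually_ge_atTop ((C / ε) ^ 2), eventually_gt_atTop 0] with Z h1 h2
  rw [← ee_eq, mul_comm, ← div_div]
  gcongr
  rw [div_le_iff₀' (by positivity), ← div_le_iff₀ h]
  exact Real.le_sqrt_of_sq_le h1

theorem fine {Z W : ℝ} {c : ℂ} (hZ : 10 ^ 19 ≤ Z) (hW : Z ≤ W) (h : ‖c‖ * W ^ 2 ≤ 3 / 2) :
    10 ^ 18 / (W ^ 6 * ‖vb W c‖) ≤ ee Z := by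
  have h1 := norm_sub_norm_le 2 (vb W c)
  rw [norm_sub_rev, Complex.norm_ofNat, vb_two (by linarith)] at h1
  have h2 : 1 / 2 ≤ ‖vb W c‖ := by nlinarith [norm_nonneg c]
  have h0 : 0 < Z := by linarith
  have h3 : √Z ≤ Z := Real.sqrt_le_self_iff.2 (Or.inr (by linarith))
  rw [ee, div_le_div_iff₀ (by have := h0.trans_le hW; positivity) (by positivity)]
  calc _ ≤ Z / 2 * (Z ^ 4 * Z) := by gcongr; linarith
    _ = 1 * (Z ^ 6 * (1 / 2)) := by ring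
    _ ≤ _ := by gcongr

variable {α ι : Type} [Fintype α] [Fintype ι]

theorem dg_mem {Zs Z t : ℝ} (h : Zs ≤ Z) (h0 : 0 ≤ Z) (ht : t ∈ Icc (0 : ℝ) 1) :
    ((fun _ => Z, t) : (ι → ℝ) × ℝ) ∈ Ad Zs :=
  ⟨fun _ => h, fun _ _ => by simp only; linarith, ht⟩

theorem lt_pa {x : α ⊕ ι → ℂ} {r : ℝ} (h : ‖pa α ι x‖ < r) (i : α) : ‖x (.inl i)‖ < r :=
  (norm_le_pi_norm (pa α ι x) (.inl i)).trans_lt h

theorem pa_lt {x : α ⊕ ι → ℂ} {r : ℝ} (h0 : 0 < r) (h : ∀ i, ‖x (.inl i)‖ < r) :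
    ‖pa α ι x‖ < r :=
  (pi_norm_lt_iff h0).2 fun s => by rcases s with i | j <;> simp [h, h0]

namespace FD

variable {F : FD α ι} {J : ℕ}

theorem down (hP : PATH F) (hJ : F.J0 ≤ J) : ∃ C, 0 ≤ C ∧ ∀ᶠ Z : ℝ in atTop,
    ∀ p ∈ Ad (F.Zs J), ∀ q ∈ Ad (F.Zs J), (∀ l, Z ≤ q.1 l ∧ q.1 l ≤ p.1 l ∧ p.1 l ≤ 10 * Z) →
    ∀ y ∈ F.dm J p, (∀ l, gam (p.1 l) (y (.inr l)) ∈ Dm (29 / 20 * nu J) (p.1 l)) →
    ∃ y' ∈ F.dm J q, F.X J q y' = F.X J p y ∧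
      (q.1 = p.1 → ‖F.f J q y' - F.f J p y‖ ≤ Real.exp (-(Z / 2) ^ 2 / 2)) ∧
      ∀ l, ∀ s ≤ 9 / 10, ‖gam (p.1 l) (y (.inr l))‖ * q.1 l ^ 2 ≤ s →
        ‖y' (.inr l)‖ * q.1 l ^ 2 ≤ 21 / 20 * s + 1 / 100 ∧
        ‖gam (p.1 l) (y (.inr l)) - gam (q.1 l) (y' (.inr l))‖ ≤
          10 ^ 18 / (p.1 l ^ 6 * ‖vb (p.1 l) (y (.inr l))‖) + C * ee Z := by
  obtain ⟨K, hK⟩ := hP J hJ
  have hν := nuJ hJ
  refine ⟨32 * |K| + 1, by positivity, ?_⟩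
  filter_upwards [(tendsto_id.atTop_div_const two_pos).eventually hK, ev_ee (32 * |K|) one_pos,
    eventually_ge_atTop (10 ^ 19)] with Z h1 h2 h3 p hp q hq hW y hy hD
  obtain ⟨y', a1, a2, a3, a4⟩ := h1 p hp q hq (fun l => (hW l).2.1)
    (fun l => by linarith [(hW l).1, id_def Z]) (fun l => by linarith [(hW l).2.2, id_def Z]) y hy hD
  refine ⟨y', a1, a2, a4, fun l s hs h => ?_⟩
  obtain ⟨w1, w2, w3⟩ := hW l
  have h0 : 0 < Z := by linarith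
  have b1 : K / (id Z / 2) ^ 4 / √(id Z / 2) ≤ 32 * |K| * ee Z := by
    rw [div_div, ee_eq, id]
    have := ee_le (Z := Z / 2) (a := 2) h0 one_le_two (by linarith)
    nlinarith [ee_pos (half_pos h0), le_abs_self K, abs_nonneg K]
  have b2 := a3 l
  rw [← div_div K] at b2
  have b3 := b2.trans (add_le_add_three (crude hν h0 (w1.trans w2) (hy.2 l))
    (crude hν h0 w1 (a1.2 l)) (b1.trans h2))
  have b4 := mul_le_mul b3 (pow_le_pow_left₀ (by linarith) (w2.trans w3) 2) (by positivity)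
    (by positivity)
  have b5 : (10 ^ 5 / Z ^ 4 + 10 ^ 5 / Z ^ 4 + 1 / Z ^ 4) * (10 * Z) ^ 2 ≤ 1 / 200 := by
    field_simp
    nlinarith
  have b6 := mul_le_mul_of_nonneg_right ((le_gam (a1.2 l) (by linarith) (by linarith)).trans
    (mul_le_mul_of_nonneg_left (norm_le_norm_add_norm_sub (gam (p.1 l) (y (.inr l))) _)
      (by norm_num))) (sq_nonneg (q.1 l))
  have b7 : ‖y' (.inr l)‖ * q.1 l ^ 2 ≤ 21 / 20 * s + 1 / 100 := by linarith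
  exact ⟨b7, by linarith [fine h3 w1 (c := y' (.inr l)) (by linarith)]⟩

theorem half (hP : PATH F) (hJ : F.J0 ≤ J) : ∃ C, 0 ≤ C ∧ ∀ᶠ Z : ℝ in atTop,
    ∀ p ∈ Ad (F.Zs J), ∀ q ∈ Ad (F.Zs J), (∀ l, Z ≤ q.1 l ∧ q.1 l ≤ p.1 l ∧ p.1 l ≤ 10 * Z) →
    ∀ y ∈ F.dm J p, (∀ l, ‖y (.inr l)‖ * p.1 l ^ 2 ≤ 1 ∧ ‖y (.inr l)‖ * q.1 l ^ 2 ≤ 4 / 5) →
    ∃ y' ∈ F.dm J q, F.X J q y' = F.X J p y ∧
      ∀ l, ‖gam (p.1 l) (y (.inr l)) - gam (q.1 l) (y' (.inr l))‖ ≤ C * ee Z := by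
  obtain ⟨C, C0, hC⟩ := down hP hJ
  have hν := nuJ hJ
  refine ⟨C + 1, by positivity, ?_⟩
  filter_upwards [hC, eventually_ge_atTop (10 ^ 19), eventually_ge_atTop (15 * nu J)]
    with Z h1 h2 h3 p hp q hq hW y hy h
  have a := fun l => gam_le (hy.2 l) (by linarith) (by linarith [(hW l).1, (hW l).2.1])
  obtain ⟨y', a1, a2, -, a3⟩ := h1 p hp q hq hW y hy fun l => mem_Dm
    (by nlinarith [(h l).1, mul_le_mul_of_nonneg_right (a l) (sq_nonneg (p.1 l))]) (by linarith)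
    (by nlinarith [(hW l).1, (hW l).2.1]) (by linarith [(hW l).1, (hW l).2.1])
  refine ⟨y', a1, a2, fun l => ?_⟩
  have := mul_le_mul_of_nonneg_right (a l) (sq_nonneg (q.1 l))
  linarith [(a3 l _ le_rfl (by linarith [(h l).2])).2,
    fine h2 ((hW l).1.trans (hW l).2.1) ((h l).1.trans (by norm_num))]

theorem pa_dm {p : (ι → ℝ) × ℝ} {x : α ⊕ ι → ℂ} (hx : ‖pa α ι x‖ < F.r)
    (h : ∀ l, 2 ≤ p.1 l ∧ 6 * nu J ≤ p.1 l) (hJ : F.J0 ≤ J) : pa α ι x ∈ F.dm J p :=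
  ⟨lt_pa (x := x) hx, fun l => mem_dsc (h l).1 (by nlinarith [(h l).1, (h l).2, nuJ hJ]) (by simp)⟩

theorem cen (hP : PATH F) (hJ : F.J0 ≤ J) : ∃ C, 0 ≤ C ∧ ∀ᶠ Z : ℝ in atTop,
    ∀ p ∈ Ad (F.Zs J), ∀ q ∈ Ad (F.Zs J), (∀ l, Z ≤ q.1 l ∧ q.1 l ≤ p.1 l ∧ p.1 l ≤ 10 * Z) →
    ∀ x, ‖pa α ι x‖ < F.r → ‖F.X J p (pa α ι x) - F.X J q (pa α ι x)‖ ≤ C * ee Z := by
  obtain ⟨C, C0, hC⟩ := half hP hJ
  have hν := nuJ hJ
  refine ⟨2 * C, by positivity, ?_⟩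
  filter_upwards [hC, eventually_ge_atTop (6 * nu J)] with Z h1 h2 p hp q hq hW x hx
  obtain ⟨y', a1, a2, a3⟩ := h1 p hp q hq hW _ (pa_dm hx (fun l => by
    constructor <;> linarith [(hW l).1, (hW l).2.1]) hJ) (by simp; norm_num)
  have hi : ∀ i, y' (.inl i) = pa α ι x (.inl i) := fun i => by rw [← F.inl J q y', a2, F.inl]
  have e0 := mul_nonneg C0 (ee_pos (show 0 < Z by linarith)).le
  have := norm_le_of (x := y' - pa α ι x) (e := 21 / 20 * (C * ee Z)) (by positivity)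
    (by simp [hi]) fun l => by
      have := a3 l
      simp only [pa_inr, gam_zero, zero_sub, norm_neg, Pi.sub_apply, sub_zero] at this ⊢
      linarith [le_gam (a1.2 l) (by linarith) (by linarith [(hW l).1])]
  rw [← a2]
  linarith [lip_le hJ hq a1 (pa_dm hx (fun l => by constructor <;> linarith [(hW l).1]) hJ) hi]

end FD

end

end Vale.Agent.P218Q
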