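import Vale.Agent.P218Q.Spec

/-!
# P218, block NF: row IN (helper80)
-/

set_option linter.all false

open Set Filter Topology Metric

namespace Vale.Agent.P218Q.In

open Vale.Agent.P218S Vale.Agent.P218G Vale.Agent.P218T

noncomputable section

/-- the logarithm in the normal coordinate -/
def lm (Z : ℝ) (c : ℂ) : ℂ := 2 * Real.log Z - Complex.log (vb Z c)

/-- pointwise facts -/
structure Pt (y Z : ℝ) (c : ℂ) : Prop where
  re : 4 * y < Z ^ 2 * (vb Z c).re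
  sq : ‖vb Z c‖ ^ 2 ≤ 6 * (vb Z c).re
  v6 : ‖vb Z c‖ ≤ 6
  ch : ‖c‖ * (Z ^ 2 - 2) = ‖vb Z c - 2‖
  cz : ‖c‖ * Z ^ 2 ≤ 401 / 100
  yr : y < (yb Z c).re
  yn : ‖yb Z c‖ = Z ^ 2 * ‖vb Z c‖ / 4
  v0 : vb Z c ≠ 0
  ly : Complex.log (yb Z c) = 2 * Real.log Z + Complex.log (vb Z c) - Real.log 4
  l0 : 0 ≤ (Complex.log (yb Z c)).re
  l1 : ‖Complex.log (yb Z c)‖ ≤ Real.log ‖yb Z c‖ + 4
  l2 : ‖Complex.log (yb Z c)‖ ≤ 6 * Real.log Z + 7
  l3 : ‖lm Z c‖ ≤ 6 * Real.log Z + 7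

variable {y η Z : ℝ} {c c' : ℂ}

theorem pt (hZ : 100 ≤ Z) (hy : 1 ≤ y) (h : c ∈ dsc y Z) : Pt y Z c := by
  have Z0 : 0 < Z := by linarith
  have Z2 : 10000 ≤ Z ^ 2 := by nlinarith only [hZ]
  have d0 : 0 < 4 * y / Z ^ 2 := by positivity
  rw [dsc, mem_setOf] at h
  have a1 := (abs_le.1 (Complex.abs_re_le_norm (vb Z c - 3))).1
  rw [Complex.sub_re, Complex.re_ofNat] at a1
  have re : 4 * y < Z ^ 2 * (vb Z c).re := by
    rw [← div_lt_iff₀' (by positivity)]; linarith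
  have sq : ‖vb Z c‖ ^ 2 ≤ 6 * (vb Z c).re := by
    have := pow_le_pow_left₀ (norm_nonneg _) (h.le.trans (sub_le_self 3 d0.le)) 2
    simp only [Complex.sq_norm, Complex.normSq_apply, Complex.sub_re, Complex.sub_im,
      Complex.re_ofNat, Complex.im_ofNat] at this ⊢
    linarith
  have v6 : ‖vb Z c‖ ≤ 6 := by nlinarith only [sq, Complex.re_le_norm (vb Z c)]
  have ch : ‖c‖ * (Z ^ 2 - 2) = ‖vb Z c - 2‖ := by
    rw [vb, add_sub_cancel_left, norm_mul, show (Z : ℂ) ^ 2 - 2 = (Z ^ 2 - 2 : ℝ) by push_cast; rfl,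
      Complex.norm_real, Real.norm_of_nonneg (by linarith)]
  have v2 : ‖vb Z c - 2‖ ≤ 4 := by
    have := norm_add_le (vb Z c - 3) 1
    rw [norm_one, show vb Z c - 3 + 1 = vb Z c - 2 by ring] at this
    linarith
  have e : yb Z c = (Z ^ 2 / 4 : ℝ) * vb Z c := by rw [yb]; push_cast; ring
  have yr : y < (yb Z c).re := by rw [e, Complex.re_ofReal_mul]; linarith
  have yn : ‖yb Z c‖ = Z ^ 2 * ‖vb Z c‖ / 4 := by
    rw [e, norm_mul, Complex.norm_real, Real.norm_of_nonneg (by positivity)]; ring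
  have v0 : vb Z c ≠ 0 := fun k => by rw [k] at re; simp at re; linarith
  have ly : Complex.log (yb Z c) = 2 * Real.log Z + Complex.log (vb Z c) - Real.log 4 := by
    rw [e, Complex.log_ofReal_mul (by positivity) v0, Real.log_div (by positivity) (by norm_num),
      Real.log_pow]
    push_cast
    ring
  have y1 : 1 ≤ ‖yb Z c‖ := by linarith [Complex.re_le_norm (yb Z c)]
  have l0 := Real.log_nonneg y1
  have l1 : ‖Complex.log (yb Z c)‖ ≤ Real.log ‖yb Z c‖ + 4 := by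
    have := Complex.norm_le_abs_re_add_abs_im (Complex.log (yb Z c))
    rw [Complex.log_re, Complex.log_im, abs_of_nonneg l0] at this
    linarith [Complex.abs_arg_le_pi (yb Z c), Real.pi_le_four]
  have z0 := Real.log_nonneg (by linarith : 1 ≤ Z)
  have l2 : ‖Complex.log (yb Z c)‖ ≤ 2 * Real.log Z + 5 := by
    have : Real.log ‖yb Z c‖ ≤ Real.log (2 * Z ^ 2) :=
      Real.log_le_log (by linarith) (by nlinarith only [yn, v6, Z2])
    rw [Real.log_mul (by norm_num) (by positivity), Real.log_pow] at this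
    push_cast at this
    linarith [Real.log_two_lt_d9]
  refine ⟨re, sq, v6, ch, by nlinarith only [ch, v2, Z2, norm_nonneg c], yr, yn, v0, ly,
    by rwa [Complex.log_re], l1, by linarith, ?_⟩
  have e2 : lm Z c = (4 * Real.log Z - Real.log 4 : ℝ) - Complex.log (yb Z c) := by
    rw [ly, lm]; push_cast; ring
  have l4 : Real.log 4 ≤ 2 := by
    rw [show (4 : ℝ) = 2 ^ 2 by norm_num, Real.log_pow]; push_cast; linarith [Real.log_two_lt_d9]
  rw [e2]
  refine (norm_sub_le _ _).trans ?_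
  rw [Complex.norm_real, Real.norm_eq_abs]
  have l5 := Real.log_nonneg (by norm_num : (1 : ℝ) ≤ 4)
  have : |4 * Real.log Z - Real.log 4| ≤ 4 * Real.log Z + 2 :=
    abs_le.2 ⟨by linarith, by linarith⟩
  linarith

theorem ev_log {ε : ℝ} (ε0 : 0 < ε) (a : ℝ) : ∀ᶠ Z : ℝ in atTop, 6 * Real.log Z + a ≤ ε * Z := by
  filter_upwards [Real.isLittleO_log_id_atTop.bound (show 0 < ε / 12 by positivity),
    eventually_ge_atTop (2 * a / ε), eventually_ge_atTop 0] with Z h1 h2 h3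
  rw [div_le_iff₀ ε0] at h2
  rw [id, Real.norm_of_nonneg h3] at h1
  linarith [le_abs_self (Real.log Z), Real.norm_eq_abs (Real.log Z)]

theorem tip_eq (Z : ℝ) : tipv kap Z = Z ^ 2 / 2 + 4 * Real.log Z - 1 - Real.log 4 := by
  rw [tipv, kap, Real.log_pow]; push_cast; ring

theorem tip_bd (hZ : 100 ≤ Z) (hA : 6 * Real.log Z + 7 ≤ Z / 100) :
    Z ^ 2 * (49 / 100) ≤ tipv kap Z ∧ tipv kap Z ≤ Z ^ 2 * (51 / 100) := by
  have z0 := Real.log_nonneg (by linarith : 1 ≤ Z)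
  have l4 : Real.log 4 ≤ 3 := by linarith [Real.log_le_sub_one_of_pos (four_pos (α := ℝ))]
  have := Real.log_nonneg (by norm_num : (1 : ℝ) ≤ 4)
  rw [tip_eq]
  constructor <;> nlinarith only [hZ, hA, z0, l4, this]

namespace Pt

theorem cl (h : Pt y Z c) (hZ : 100 ≤ Z) (hA : 6 * Real.log Z + 7 ≤ Z / 100) :
    ‖c * lm Z c‖ * Z ≤ 1 / 20 ∧ ‖c * Complex.log (yb Z c)‖ * Z ≤ 1 / 20 := by
  have Z0 : 0 < Z := by linarith
  rw [norm_mul, norm_mul]
  constructor <;> refine le_of_mul_le_mul_right ?_ Z0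
  · nlinarith only [mul_le_mul h.cz (h.l3.trans hA) (norm_nonneg _) (by norm_num), Z0]
  · nlinarith only [mul_le_mul h.cz (h.l2.trans hA) (norm_nonneg _) (by norm_num), Z0]

theorem den (h : Pt y Z c) (hZ : 100 ≤ Z) (hA : 6 * Real.log Z + 7 ≤ Z / 100) :
    999 / 1000 ≤ ‖1 - c * lm Z c‖ ∧ ‖1 - c * lm Z c‖ ≤ 1001 / 1000 := by
  have a : ‖c * lm Z c‖ ≤ 1 / 1000 := by
    nlinarith only [(h.cl hZ hA).1, hZ, norm_nonneg (c * lm Z c)]
  have b := norm_sub_le 1 (c * lm Z c)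
  have b' := norm_sub_norm_le 1 (c * lm Z c)
  rw [norm_one] at b b'
  exact ⟨by linarith, by linarith⟩

theorem gam_mul (h : Pt y Z c) (hZ : 100 ≤ Z) (hA : 6 * Real.log Z + 7 ≤ Z / 100) :
    gam Z c * (1 - c * lm Z c) = c :=
  have : 1 - c * lm Z c ≠ 0 := norm_pos_iff.1 (by linarith [(h.den hZ hA).1])
  div_mul_cancel₀ _ this

theorem key (h : Pt y Z c) (hZ : 100 ≤ Z) (hA : 6 * Real.log Z + 7 ≤ Z / 100) (t : ℝ) :
    (2 + 2 * gam Z c * (tipv kap Z + t : ℝ)) * (1 - c * lm Z c) =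
      vb Z c + c * (2 * t + 2 * Complex.log (yb Z c)) := by
  have e := h.gam_mul hZ hA
  have e2 : vb Z c = 2 + c * (Z ^ 2 - 2) := rfl
  rw [h.ly, tip_eq]
  rw [lm] at e ⊢
  push_cast at e ⊢
  linear_combination (2 * ((Z : ℂ) ^ 2 / 2 + 4 * Real.log Z - 1 - Real.log 4 + t)) * e - e2

end Pt

theorem inn : IN := by
  intro y η η1 ηy
  filter_upwards [eventually_ge_atTop 100, ev_log (ε := 1 / 100) (by norm_num) (7 + y)]
    with Z hZ hB c hc c' hc' hg
  have p := pt hZ le_rfl hc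
  have y0 : 0 < y := by linarith
  have hA : 6 * Real.log Z + 7 ≤ Z / 100 := by linarith
  have Z0 : 0 < Z := by linarith
  have Z2 : 10000 ≤ Z ^ 2 := by nlinarith only [hZ]
  have z0 := Real.log_nonneg (by linarith : 1 ≤ Z)
  obtain ⟨t1, t2⟩ := tip_bd hZ hA
  obtain ⟨d1, d2⟩ := p.den hZ hA
  set T := tipv kap Z + y with hT
  set V := vb Z c with hV
  set N := 2 * y + 2 * Complex.log (yb Z c) + V * lm Z c with hN
  have n0 : 1 - c * lm Z c ≠ 0 := norm_pos_iff.1 (by linarith)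
  set e := 2 + 2 * gam Z c * T - V with he
  have e1 : e = c * N + c * lm Z c * e := by linear_combination p.key hZ hA y
  have N1 : ‖N‖ ≤ Z / 10 := by
    refine norm_add₃_le.trans ?_
    rw [norm_mul, norm_mul, norm_mul, Complex.norm_real, Real.norm_of_nonneg y0.le,
      Complex.norm_ofNat]
    nlinarith only [p.l2, mul_le_mul p.v6 p.l3 (norm_nonneg _) (by norm_num), hB, y0, z0]
  have e2 : ‖e‖ * Z ≤ 1 / 2 := by
    have := congrArg norm (show e * (1 - c * lm Z c) = c * N by linear_combination e1)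
    rw [norm_mul, norm_mul] at this
    refine le_of_mul_le_mul_right ?_ Z0
    nlinarith only [this, mul_le_mul p.cz N1 (norm_nonneg _) (by norm_num), Z0,
      mul_le_mul_of_nonneg_left d1 (mul_nonneg (norm_nonneg e) (sq_nonneg Z))]
  have hh : c * (Z ^ 2 - 2 : ℝ) = V - 2 := by rw [hV, vb]; push_cast; ring
  have e3 : 4 * y - ‖V‖ * (Z / 5) - 1 / 40 ≤ -e.re * (Z ^ 2 - 2) := by
    have k : -e * (Z ^ 2 - 2 : ℝ) = (4 * y : ℝ) + (4 : ℝ) * Complex.log (yb Z c) +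
        V * (2 * lm Z c - N) - c * lm Z c * e * (Z ^ 2 - 2 : ℝ) := by
      rw [e1]
      push_cast at hh ⊢
      linear_combination (-N) * hh - (c * lm Z c * (Z ^ 2 - 2)) * e1 + 2 * hN
    have k1 := congrArg Complex.re k
    rw [Complex.re_mul_ofReal, Complex.sub_re, Complex.add_re, Complex.add_re, Complex.ofReal_re,
      Complex.re_ofReal_mul, Complex.neg_re] at k1
    have k2 := (abs_le.1 (Complex.abs_re_le_norm (V * (2 * lm Z c - N)))).1
    have k3 := Complex.re_le_norm (c * lm Z c * e * (Z ^ 2 - 2 : ℝ))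
    rw [norm_mul, norm_mul, Complex.norm_real, Real.norm_of_nonneg (by linarith)] at k3
    have k4 := norm_sub_le (2 * lm Z c) N
    rw [norm_mul, Complex.norm_ofNat] at k4
    rw [norm_mul] at k2
    have k5 := mul_le_mul (p.cl hZ hA).1 e2 (by positivity) (by norm_num)
    have k6 : ‖2 * lm Z c - N‖ ≤ Z / 5 := by linarith [p.l3]
    nlinarith only [k1, k2, k3, k5, p.l0, mul_le_mul_of_nonneg_left k6 (norm_nonneg V),
      mul_nonneg (norm_nonneg (c * lm Z c)) (norm_nonneg e)]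
  set r := 2 * (c' - gam Z c) * T with hr
  have yZ : y ≤ Z ^ 2 / 100 := by nlinarith only [hB, z0, hZ]
  have r1 : ‖r‖ * Z ^ 2 ≤ 104 / 100 * η := by
    rw [hr, norm_mul, norm_mul, Complex.norm_real, Real.norm_of_nonneg (by linarith),
      Complex.norm_ofNat]
    rw [le_div_iff₀ (by positivity)] at hg
    have : T ≤ Z ^ 2 * (52 / 100) := by linarith
    nlinarith only [hg, mul_le_mul_of_nonneg_left this
      (mul_nonneg (norm_nonneg (c' - gam Z c)) (sq_nonneg Z))]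
  have r2 : ‖r‖ * Z ≤ 1 / 2 := by
    refine le_of_mul_le_mul_right ?_ Z0
    nlinarith only [r1, ηy, hB, z0, Z0]
  have u1 : ‖V + (e + r)‖ ^ 2 < 5 * (V.re + (e.re + r.re)) := by
    have k : V + (e + r) - 5 / 2 = 2 * (c' * T - 1 / 4) := by rw [he, hr]; ring
    have k1 : ‖V + (e + r) - 5 / 2‖ < 5 / 2 := by
      rw [k, norm_mul, Complex.norm_ofNat]; linarith [mem_setOf.1 hc']
    have := pow_lt_pow_left₀ k1 (norm_nonneg _) two_ne_zero
    rw [← Complex.add_re, ← Complex.add_re]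
    generalize V + (e + r) = u at *
    simp only [Complex.sq_norm, Complex.normSq_apply, Complex.sub_re, Complex.sub_im,
      Complex.div_ofNat_re, Complex.div_ofNat_im, Complex.re_ofNat, Complex.im_ofNat] at this ⊢
    linarith
  have u2 : ‖V‖ ^ 2 - 2 * ‖V‖ * ‖e + r‖ ≤ ‖V + (e + r)‖ ^ 2 := by
    have := sq_abs (‖V‖ - ‖-(e + r)‖) ▸ pow_le_pow_left₀ (abs_nonneg _)
      (abs_norm_sub_norm_le V (-(e + r))) 2
    rw [norm_neg, sub_neg_eq_add] at this
    nlinarith only [this, sq_nonneg ‖e + r‖]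
  have u3 : ‖e + r‖ * Z ≤ 1 := by nlinarith only [norm_add_le e r, e2, r2, Z0]
  have u4 : 4 * y - ‖V‖ * (Z / 5) - 1 / 20 ≤ -e.re * Z ^ 2 := by
    have := (abs_le.1 (Complex.abs_re_le_norm e)).2
    nlinarith only [e3, this, e2, hZ, norm_nonneg e]
  have u5 : 24 * (y - η) < (6 * V.re - ‖V‖ ^ 2) * Z ^ 2 := by
    have a := mul_lt_mul_of_pos_right (u2.trans_lt u1) (pow_pos Z0 2)
    have b := mul_le_mul_of_nonneg_right (Complex.re_le_norm r) (sq_nonneg Z)
    have c := mul_le_mul_of_nonneg_left u3 (mul_nonneg (norm_nonneg V) Z0.le)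
    nlinarith only [a, b, c, u4, r1, η1, sq_nonneg (‖V‖ * Z - 9)]
  have δ0 : 0 ≤ 4 * (y - η) / Z ^ 2 := div_nonneg (by linarith) (sq_nonneg Z)
  have δ1 : 4 * (y - η) / Z ^ 2 ≤ 1 := by rw [div_le_one (by positivity)]; linarith
  show ‖V - 3‖ < 3 - 4 * (y - η) / Z ^ 2
  refine lt_of_pow_lt_pow_left₀ 2 (by linarith) ?_
  rw [← div_lt_iff₀ (pow_pos Z0 2), show 24 * (y - η) / Z ^ 2 = 6 * (4 * (y - η) / Z ^ 2) by
    ring] at u5
  simp only [Complex.sq_norm, Complex.normSq_apply, Complex.sub_re, Complex.sub_im,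
    Complex.re_ofNat, Complex.im_ofNat] at u5 ⊢
  nlinarith only [u5, sq_nonneg (4 * (y - η) / Z ^ 2)]

end

end Vale.Agent.P218Q.In
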