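import Vale.Agent.P218Q.Spec

/-!
# P218, block NF, row JET: means of holomorphic functions of jets; JE and JO (helper21)
-/

set_option linter.all false

open Set Filter Topology Metric Asymptotics

namespace Vale.Agent.P218Q

open Vale.Agent.P218T

noncomputable section

namespace Jet

variable {f g : ℝ → ℂ}

lemma av_eq (f : ℝ → ℂ) : av f = (2 * Real.pi)⁻¹ • ∫ θ in (0 : ℝ)..2 * Real.pi, f θ := by
  rw [av, interval_average_eq, sub_zero]

lemma av_add (hf : Continuous f) (hg : Continuous g) : av (fun θ => f θ + g θ) = av f + av g := by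
  rw [av_eq, intervalIntegral.integral_add (hf.intervalIntegrable _ _) (hg.intervalIntegrable _ _),
    smul_add, av_eq, av_eq]

lemma av_sub (hf : Continuous f) (hg : Continuous g) : av (fun θ => f θ - g θ) = av f - av g := by
  rw [av_eq, intervalIntegral.integral_sub (hf.intervalIntegrable _ _) (hg.intervalIntegrable _ _),
    smul_sub, av_eq, av_eq]

lemma av_const (c : ℂ) : av (fun _ => c) = c := by
  rw [av_eq, intervalIntegral.integral_const, sub_zero, inv_smul_smul₀ Real.two_pi_pos.ne']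

lemma av_mul (f : ℝ → ℂ) (c : ℂ) : av (fun θ => f θ * c) = av f * c := by
  rw [av_eq, intervalIntegral.integral_mul_const, av_eq, smul_mul_assoc]

lemma av_sum {ι : Type} [Fintype ι] {F : ι → ℝ → ℂ} (h : ∀ i, Continuous (F i)) :
    av (fun θ => ∑ i, F i θ) = ∑ i, av (F i) := by
  simp only [av_eq]
  rw [intervalIntegral.integral_finsetSum fun i _ => (h i).intervalIntegrable _ _, Finset.smul_sum]

lemma av_le {B : ℝ} (h : ∀ θ, ‖f θ‖ ≤ B) : ‖av f‖ ≤ B := by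
  have := intervalIntegral.norm_integral_le_of_norm_le_const (a := 0) (b := 2 * Real.pi)
    fun θ _ => h θ
  rw [sub_zero, abs_of_pos Real.two_pi_pos] at this
  rwa [av_eq, norm_smul, norm_inv, Real.norm_of_nonneg Real.two_pi_pos.le,
    inv_mul_le_iff₀ Real.two_pi_pos, mul_comm _ B]

lemma second {φ : ℂ → ℂ} {T B : ℝ} (hT : 1 < T) (hd : DifferentiableOn ℂ φ (ball 0 T))
    (hb : ∀ t ∈ ball (0 : ℂ) T, ‖φ t‖ ≤ B) : ‖φ 1 - φ 0 - deriv φ 0‖ ≤ 4 * B / T ^ 2 := by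
  have T0 : 0 < T := by linarith
  have a : ∀ t ∈ ball (0 : ℂ) T, ‖φ t - φ 0‖ ≤ 2 * B := fun t ht =>
    (norm_sub_le _ _).trans (by linarith [hb t ht, hb 0 (mem_ball_self T0)])
  have b := Complex.norm_deriv_le_div_of_mapsTo_ball hd (R₂ := 2 * B)
    (fun t ht => mem_closedBall_iff_norm.2 (a t ht)) T0
  have := Complex.dist_le_mul_div_pow_of_mapsTo_ball_of_isLittleO (n := 1) (R₂ := 4 * B) (z := 1)
    (f := fun t => φ t - t * deriv φ 0) (hd.sub (by fun_prop)) (fun t ht => ?_) ?_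
    (by simpa using hT)
  · simpa [dist_eq_norm, sub_right_comm, div_eq_mul_inv] using this
  · rw [mem_closedBall_iff_norm, zero_mul, sub_zero, sub_right_comm]
    refine (norm_sub_le _ _).trans ?_
    rw [norm_mul]
    have := mul_le_mul (mem_ball_zero_iff.1 ht).le b (norm_nonneg _) T0.le
    rw [mul_div_cancel₀ _ T0.ne'] at this
    linarith [a t ht]
  · simpa [sub_right_comm] using
      (hd.differentiableAt (ball_mem_nhds 0 T0)).hasDerivAt.isLittleO.norm_right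

/-- **the mean of a holomorphic function of a jet** -/
theorem tool {ι : Type} [Fintype ι] {R : (ι → ℂ) → ℂ} {x0 : ι → ℂ} {x : ℝ → ι → ℂ} {w : ι → ℝ}
    {a B : ℝ} (hc : ∀ i, Continuous fun θ => x θ i) (hm : ∀ i, av (fun θ => x θ i) = x0 i)
    (a0 : 0 < a) (a1 : a < 1 / 10) (hx : ∀ θ i, ‖x θ i - x0 i‖ ≤ a * w i)
    (h : ∀ y, (∀ i, ‖y i - x0 i‖ ≤ w i / 10) → DifferentiableAt ℂ R y ∧ ‖R y‖ ≤ B) :
    Continuous (fun θ => R (x θ)) ∧ ‖av (fun θ => R (x θ)) - R x0‖ ≤ 400 * B * a ^ 2 := by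
  classical
  have hT : 1 < 1 / (10 * a) := by rw [lt_div_iff₀ (by positivity)]; linarith
  have k : ∀ θ, ∀ t ∈ ball (0 : ℂ) (1 / (10 * a)), _ := fun θ t ht =>
    h (x0 + t • (x θ - x0)) fun i => by
      rw [Pi.add_apply, add_sub_cancel_left, Pi.smul_apply, norm_smul]
      exact (mul_le_mul (mem_ball_zero_iff.1 ht).le (hx θ i) (norm_nonneg _)
        (by positivity)).trans_eq (by field_simp)
  have c0 : Continuous x := continuous_pi hc
  have c1 : Continuous fun θ => R (x θ) := continuous_iff_continuousAt.2 fun θ =>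
    ContinuousAt.comp (by simpa using (k θ 1 (by simpa using hT)).1.continuousAt) c0.continuousAt
  have d0 : DifferentiableAt ℂ R x0 := by simpa using (k 0 0 (mem_ball_self (by positivity))).1
  have e : ∀ θ, fderiv ℂ R x0 (x θ - x0) =
      ∑ i, (x θ i - x0 i) * fderiv ℂ R x0 (Pi.single i 1) := fun θ => by
    conv_lhs => rw [pi_eq_sum_univ' (x θ - x0)]
    simp [Pi.single_eq_same]
  refine ⟨c1, ?_⟩
  rw [show av (fun θ => R (x θ)) - R x0 =
      av fun θ => R (x θ) - R x0 - fderiv ℂ R x0 (x θ - x0) by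
    rw [av_sub (f := fun θ => R (x θ) - R x0) (c1.sub continuous_const) (by fun_prop),
      av_sub c1 continuous_const, av_const]
    simp only [e]
    rw [av_sum fun i => by fun_prop]
    simp [av_mul, av_sub (hc _) continuous_const, av_const, hm]]
  refine av_le fun θ => ?_
  have l : ∀ t : ℂ, HasDerivAt (fun t : ℂ => x0 + t • (x θ - x0)) (x θ - x0) t := fun t => by
    simpa using ((hasDerivAt_id t).smul_const (x θ - x0)).const_add x0
  have := second (φ := fun t => R (x0 + t • (x θ - x0))) hT (fun t ht =>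
    ((k θ t ht).1.comp t (l t).differentiableAt).differentiableWithinAt) fun t ht => (k θ t ht).2
  rw [show deriv (fun t : ℂ => R (x0 + t • (x θ - x0))) 0 = _ from
    (d0.hasFDerivAt.comp_hasDerivAt_of_eq (0 : ℂ) (l 0) (by simp)).deriv] at this
  simp only [one_smul, add_sub_cancel, zero_smul, add_zero] at this
  exact this.trans_eq (by field_simp; ring)

lemma nrm {y x : ℂ} {r : ℝ} (h : ‖y - x‖ ≤ r) : ‖x‖ - r ≤ ‖y‖ ∧ ‖y‖ ≤ ‖x‖ + r := by
  have := abs_le.1 ((abs_norm_sub_norm_le y x).trans h)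
  constructor <;> linarith

/-- the nonlinear terms -/
def RE (x : Fin 6 → ℂ) : ℂ := (x 0 * x 1 ^ 2 * (x 3 + 2) + x 2 ^ 2 * (x 5 / x 0 + 4) +
  2 * x 1 * x 2 * x 4) / (4 * x 0 ^ 2 + x 0 * x 1 ^ 2 + x 2 ^ 2) - x 5 / x 0

lemma RE_bd {y : Fin 6 → ℂ} {s A a : ℝ} (hs : 0 < s) (hA : 0 ≤ A) (ha : 0 ≤ a)
    (h0 : 9 / 10 * s ^ 2 ≤ ‖y 0‖) (h0' : ‖y 0‖ ≤ 11 / 10 * s ^ 2) (h1 : ‖y 1‖ ≤ 11 / 10 * s)
    (h2 : ‖y 2‖ ≤ s ^ 2 / 10) (h3 : ‖y 3‖ ≤ a + A) (h4 : ‖y 4‖ ≤ A * s) (h5 : ‖y 5‖ ≤ A * s ^ 2) :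
    DifferentiableAt ℂ RE y ∧ ‖RE y‖ ≤ 3 * (1 + a + A) := by
  have v0 : 0 < ‖y 0‖ := lt_of_lt_of_le (by positivity) h0
  have p2 : ‖y 1 ^ 2‖ ≤ (11 / 10 * s) ^ 2 := by rw [norm_pow]; gcongr
  have q2 : ‖y 2 ^ 2‖ ≤ (s ^ 2 / 10) ^ 2 := by rw [norm_pow]; gcongr
  have D : 2 * s ^ 4 ≤ ‖4 * y 0 ^ 2 + y 0 * y 1 ^ 2 + y 2 ^ 2‖ := by
    have a1 : 9 / 10 * s ^ 2 * (239 / 100 * s ^ 2) ≤ ‖y 0 * (4 * y 0 + y 1 ^ 2)‖ := by
      rw [norm_mul]
      refine mul_le_mul h0 ?_ (by positivity) v0.le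
      have := (nrm (y := 4 * y 0 + y 1 ^ 2) (x := 4 * y 0) (by simpa using p2)).1
      rw [norm_mul, Complex.norm_ofNat] at this
      linarith
    have := (nrm (y := 4 * y 0 ^ 2 + y 0 * y 1 ^ 2 + y 2 ^ 2) (x := y 0 * (4 * y 0 + y 1 ^ 2))
      (le_of_eq_of_le (congrArg norm (by ring)) q2)).1
    linarith [pow_pos hs 4]
  have D0 : 4 * y 0 ^ 2 + y 0 * y 1 ^ 2 + y 2 ^ 2 ≠ 0 :=
    norm_pos_iff.1 (lt_of_lt_of_le (by positivity) D)
  have y0 := norm_pos_iff.1 v0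
  refine ⟨by unfold RE; fun_prop (disch := assumption), ?_⟩
  have c : ‖y 5 / y 0‖ ≤ 2 * A := by
    rw [norm_div, div_le_iff₀ v0]
    nlinarith [mul_nonneg hA (sq_nonneg s)]
  have n1 : ‖y 0 * y 1 ^ 2 * (y 3 + 2)‖ ≤ 11 / 10 * s ^ 2 * (11 / 10 * s) ^ 2 * (a + A + 2) := by
    rw [norm_mul, norm_mul]
    gcongr
    exact (norm_add_le _ _).trans (by simpa using h3)
  have n2 : ‖y 2 ^ 2 * (y 5 / y 0 + 4)‖ ≤ (s ^ 2 / 10) ^ 2 * (2 * A + 4) := by
    rw [norm_mul]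
    gcongr
    exact (norm_add_le _ _).trans (by simpa using c)
  have n3 : ‖2 * y 1 * y 2 * y 4‖ ≤ 2 * (11 / 10 * s) * (s ^ 2 / 10) * (A * s) := by
    rw [norm_mul, norm_mul, norm_mul, Complex.norm_ofNat]
    gcongr
  refine (norm_sub_le _ _).trans ((add_le_add (b := 3 + a + A) ?_ c).trans (by linarith))
  rw [norm_div, div_le_iff₀ (norm_pos_iff.2 D0)]
  refine norm_add₃_le.trans (le_trans ?_ (mul_le_mul_of_nonneg_left D (by positivity)))
  nlinarith [pow_pos hs 4, mul_nonneg hA (pow_pos hs 4).le, mul_nonneg ha (pow_pos hs 4).le]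

lemma norm_sqrt (w : ℂ) : ‖Complex.sqrt w‖ = √‖w‖ := by
  rw [← HJ.sqrt_sq w, norm_pow, Real.sqrt_sq (norm_nonneg _), HJ.sqrt_sq]

lemma one_add {t : ℂ} (h : |t.im| ≤ 2) :
    (1 + Real.exp t.re ^ 2) / 2 ≤ ‖1 + Complex.exp t‖ ^ 2 := by
  have a := Real.one_sub_sq_div_two_le_cos (x := t.im / 2)
  have b := Real.cos_two_mul (t.im / 2)
  have c := Real.sin_sq_add_cos_sq t.im
  have d := abs_le.1 h
  rw [mul_div_cancel₀ _ two_ne_zero] at b
  have e : -1 / 2 ≤ Real.cos t.im := by nlinarith [show 1 / 2 ≤ Real.cos (t.im / 2) by nlinarith]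
  rw [Complex.sq_norm, Complex.normSq_apply]
  simp only [Complex.add_re, Complex.one_re, Complex.add_im, Complex.one_im, Complex.exp_re,
    Complex.exp_im]
  nlinarith [mul_le_mul_of_nonneg_left e (Real.exp_pos t.re).le, sq_nonneg (Real.exp t.re - 1)]

lemma oi_bd (m s : ℝ) {V p q : ℂ} (hV : ‖V‖ ≤ 8) (hp : ‖p‖ ≤ 8) (hq : ‖q‖ ≤ ‖V‖) :
    1 + Complex.exp (-(s ^ 2 + V - m ^ 2) / 4) ≠ 0 ∧ ‖oi m s V p q‖ ≤
      12 * Real.exp 2 * Real.exp (-m ^ 2 / 4) * Real.exp (-|s ^ 2 - m ^ 2| / 4) := by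
  have r := abs_le.1 ((Complex.abs_re_le_norm V).trans hV)
  have i := (Complex.abs_im_le_norm V).trans hV
  have a := one_add (t := -(s ^ 2 + V - m ^ 2) / 4) (by
    simp [← Complex.ofReal_pow, abs_div]
    linarith)
  have re : (-(s ^ 2 + V - m ^ 2) / 4 : ℂ).re = -(s ^ 2 + V.re - m ^ 2) / 4 := by
    simp [← Complex.ofReal_pow]
  rw [re] at a
  set u := -(s ^ 2 + V.re - m ^ 2) / 4 with hu
  have x0 := Real.exp_pos u
  have n0 : 0 < ‖1 + Complex.exp (-(s ^ 2 + V - m ^ 2) / 4)‖ ^ 2 := lt_of_lt_of_le (by positivity) a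
  refine ⟨fun e => by rw [e] at n0; simp at n0, ?_⟩
  have b : ‖Complex.sqrt (V + p ^ 2 / 4 + q ^ 2 / (4 * V))‖ ≤ 6 := by
    rw [norm_sqrt]
    refine Real.sqrt_le_iff.2 ⟨by norm_num, norm_add₃_le.trans ?_⟩
    have : ‖q ^ 2 / (4 * V)‖ ≤ 2 := by
      rw [norm_div, norm_pow, norm_mul, Complex.norm_ofNat]
      exact div_le_of_le_mul₀ (by positivity) (by norm_num) (by nlinarith [norm_nonneg q])
    rw [norm_div, norm_pow, Complex.norm_ofNat]
    nlinarith [norm_nonneg p]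
  have c : ‖Complex.exp (-(s ^ 2 + V) / 4)‖ = Real.exp (-m ^ 2 / 4) * Real.exp u := by
    rw [Complex.norm_exp, ← Real.exp_add, hu]
    congr 1
    simp [← Complex.ofReal_pow]
    ring
  have d : Real.exp u ≤ Real.exp 2 * Real.exp (-|s ^ 2 - m ^ 2| / 4) * (1 + Real.exp u ^ 2) := by
    rw [← Real.exp_add, mul_add, mul_one, ← Real.exp_nat_mul, ← Real.exp_add]
    rcases abs_cases (s ^ 2 - m ^ 2) with e | e
    · exact le_add_of_le_of_nonneg (Real.exp_le_exp.2 (by linarith [e.1])) (by positivity)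
    · exact le_add_of_nonneg_of_le (by positivity) (Real.exp_le_exp.2 (by push_cast; linarith [e.1]))
  rw [oi, lg, norm_mul, norm_mul, c, norm_div, norm_one, norm_pow]
  refine (mul_le_mul_of_nonneg_left b (by positivity)).trans ?_
  rw [one_div, mul_assoc, inv_mul_le_iff₀ n0]
  refine le_trans ?_ (mul_le_mul_of_nonneg_right a (by positivity))
  linarith [mul_le_mul_of_nonneg_left d (Real.exp_pos (-m ^ 2 / 4)).le]

lemma slit {V w : ℂ} (h : 0 < V.re) (e : ‖w - V‖ < ‖V‖) : w ∈ Complex.slitPlane := by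
  by_contra c
  simp only [Complex.mem_slitPlane_iff, not_or, not_lt, ne_eq, not_not] at c
  have := pow_lt_pow_left₀ e (norm_nonneg _) two_ne_zero
  simp only [Complex.sq_norm, Complex.normSq_apply, Complex.sub_re, Complex.sub_im, c.2] at this
  nlinarith [mul_nonneg h.le (neg_nonneg.2 c.1)]

variable {V p q a b c : ℝ → ℂ} {V0 p0 a0 : ℂ} {a1 a2 : ℝ}

lemma base (h : Circ V p q a b c V0 p0 a0 a1 a2) :
    ∃ s, 0 < s ∧ √‖V0‖ = s ∧ ‖V0‖ = s ^ 2 ∧ ‖p0‖ ≤ s :=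
  ⟨_, Real.sqrt_pos.2 (h.re.trans_le (Complex.re_le_norm _)), rfl,
    (Real.sq_sqrt (norm_nonneg _)).symm, Real.le_sqrt_of_sq_le h.p1⟩

end Jet

open Jet in
theorem je : JE := by
  refine ⟨1500, fun z V p q a b c V0 p0 a0 a1 a2 h e => ?_⟩
  obtain ⟨s, hs, s1, s2, s3⟩ := base h
  have A0 : 0 ≤ a2 := (norm_nonneg _).trans (h.ba 0)
  have a0' := h.pos
  have k : a1 * (a2 / a1) = a2 := mul_div_cancel₀ _ a0'.ne'
  obtain ⟨c1, t⟩ := tool (R := RE) (x0 := ![V0, p0, 0, a0, 0, 0])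
    (x := fun θ => ![V θ, p θ, q θ, a θ, b θ, c θ])
    (w := ![s ^ 2, s, s ^ 2, a2 / a1, a2 / a1 * s, a2 / a1 * s ^ 2]) (a := a1)
    (B := 3 * (1 + ‖a0‖ + a2 / a1 / 10))
    (fun i => by fin_cases i; exacts [h.cV, h.cp, h.cq, h.ca, h.cb, h.cc])
    (fun i => by fin_cases i; exacts [h.mV, h.mp, h.mq, h.ma, h.mb, h.mc]) a0'
    (by linarith [h.sm])
    (fun θ i => by
      fin_cases i
      exacts [s2 ▸ h.bV θ, s1 ▸ h.bp θ, by simpa [s2] using h.bq θ, k.symm ▸ h.ba θ,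
        by simpa [← mul_assoc, k, s1] using h.bb θ, by simpa [← mul_assoc, k, s2] using h.bc θ])
    fun y hy => RE_bd hs (by positivity) (norm_nonneg _)
      (by have := (nrm (hy 0)).1; simp at this; linarith)
      (by have := (nrm (hy 0)).2; simp at this; linarith)
      (by have := (nrm (hy 1)).2; simp at this; linarith) (by simpa using hy 2)
      (by simpa using (nrm (hy 3)).2) (by have := hy 4; simp at this; linarith)
      (by have := hy 5; simp at this; linarith)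
  have v0 : V0 ≠ 0 := norm_pos_iff.1 (by rw [s2]; positivity)
  have n : ‖p0 ^ 2 / (4 * V0)‖ ≤ 1 / 4 := by
    rw [norm_div, norm_mul, norm_pow, Complex.norm_ofNat, div_le_iff₀ (by rw [s2]; positivity)]
    linarith [h.p1]
  have v1 : 4 * V0 + p0 ^ 2 ≠ 0 := fun e => by
    rw [eq_neg_of_add_eq_zero_right e, neg_div, div_self (by simpa using v0)] at n
    norm_num at n
  have m : av (fun θ => RE ![V θ, p θ, q θ, a θ, b θ, c θ]) = a0 - p0 * (z / 2) + V0 - 2 := by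
    have := h.ca; have := h.cp; have := h.cV
    rw [← h.ma, ← h.mp, ← h.mV, ← av_mul, ← av_sub h.ca (by fun_prop), ← av_add (by fun_prop) h.cV,
      ← av_const 2, ← av_sub (by fun_prop) continuous_const]
    refine congrArg av (funext fun θ => ?_)
    simp only [RE, av_const, Matrix.cons_val]
    linear_combination -e θ
  rw [show a0 - M0.G z V0 p0 = (1 + p0 ^ 2 / (4 * V0)) *
      (a0 - p0 * (z / 2) + V0 - 2 - RE ![V0, p0, 0, a0, 0, 0]) by
    simp only [RE, M0.G, Matrix.cons_val]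
    rw [show 4 * V0 ^ 2 + V0 * p0 ^ 2 + 0 ^ 2 = V0 * (4 * V0 + p0 ^ 2) by ring]
    field_simp
    ring, ← m, norm_mul]
  refine (mul_le_mul ((norm_add_le _ _).trans (add_le_add norm_one.le n)) t (norm_nonneg _)
    (by norm_num)).trans ?_
  rw [show 400 * (3 * (1 + ‖a0‖ + a2 / a1 / 10)) * a1 ^ 2 =
    1200 * (a1 ^ 2 * (1 + ‖a0‖)) + 120 * (a1 * a2) by field_simp; ring]
  linarith [mul_nonneg a0'.le A0]

open Jet in
theorem jo : JO := by
  refine ⟨4800 * Real.exp 2,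
    fun m s V p q hV hp hq => (oi_bd m s hV hp hq).2.trans (by gcongr; norm_num),
    fun m s V p q a b c V0 p0 a0 a1 a2 h h7 => ?_⟩
  obtain ⟨r, hr, s1, s2, s3⟩ := base h
  have r3 : r ≤ 3 := by nlinarith
  refine (tool (R := fun x => oi m s (x 0) (x 1) (x 2)) (x0 := ![V0, p0, 0])
    (x := fun θ => ![V θ, p θ, q θ]) (w := ![r ^ 2, r, r ^ 2]) (a := a1)
    (B := 12 * Real.exp 2 * Real.exp (-m ^ 2 / 4) * Real.exp (-|s ^ 2 - m ^ 2| / 4))
    (fun i => by fin_cases i; exacts [h.cV, h.cp, h.cq])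
    (fun i => by fin_cases i; exacts [h.mV, h.mp, h.mq]) h.pos (by linarith [h.sm])
    (fun θ i => by
      fin_cases i
      exacts [s2 ▸ h.bV θ, s1 ▸ h.bp θ, by simpa [s2] using h.bq θ])
    fun y hy => ?_).2.trans_eq (by ring)
  have h0 : ‖y 0 - V0‖ ≤ r ^ 2 / 10 := hy 0
  have h1 : ‖y 1‖ ≤ 11 / 10 * r := by linarith [(nrm (show ‖y 1 - p0‖ ≤ r / 10 from hy 1)).2]
  have h2 : ‖y 2‖ ≤ r ^ 2 / 10 := by simpa using hy 2
  have h3 := nrm h0
  have r2 := pow_pos hr 2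
  obtain ⟨e1, e2⟩ := oi_bd m s (V := y 0) (p := y 1) (q := y 2) (by linarith) (by linarith)
    (by linarith)
  refine ⟨?_, e2⟩
  have v0 : 0 < ‖y 0‖ := by linarith
  have e3 : y 0 + y 1 ^ 2 / 4 + y 2 ^ 2 / (4 * y 0) ∈ Complex.slitPlane := slit h.re (by
    rw [add_assoc, add_sub_right_comm, ← add_assoc]
    refine norm_add₃_le.trans_lt ?_
    have : ‖y 2 ^ 2 / (4 * y 0)‖ ≤ r ^ 2 / 10 := by
      rw [norm_div, norm_pow, norm_mul, Complex.norm_ofNat, div_le_iff₀ (by positivity)]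
      nlinarith [norm_nonneg (y 2)]
    rw [norm_div, norm_pow, Complex.norm_ofNat]
    nlinarith [norm_nonneg (y 1)])
  have e4 : 4 * y 0 ≠ 0 := by simpa using v0
  have e5 := pow_ne_zero 2 e1
  refine .mul ?_ ((HJ.hasDerivAt_sqrt e3).differentiableAt.comp y
    (f := fun x : Fin 3 → ℂ => x 0 + x 1 ^ 2 / 4 + x 2 ^ 2 / (4 * x 0)) ?_)
  · unfold lg
    fun_prop (disch := assumption)
  · fun_prop (disch := assumption)

end

end Vale.Agent.P218Q
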