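import Vale.Agent.P218Q.Bas

/-!
# P218, block NF: the model observable
-/

set_option linter.all false

open Set Filter Topology Metric

namespace Vale.Agent.P218Q.Ob

open Vale.Agent.P218T

noncomputable section

theorem lipH {f : ℂ → ℂ} {a x y : ℂ} {R r B : ℝ}
    (h : ∀ z, ‖z - a‖ < R → DifferentiableAt ℂ f z ∧ ‖f z‖ ≤ B) (hr : r < R) (hx : ‖x - a‖ ≤ r)
    (hy : ‖y - a‖ ≤ r) : ‖f x - f y‖ ≤ 2 * B / (R - r) * ‖x - y‖ := by
  have h0 : 0 < R - r := sub_pos.2 hr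
  have h1 : ∀ z, ‖z - a‖ < R → ‖f z - f y‖ ≤ 2 * B := fun z hz => by
    linarith [norm_sub_le (f z) (f y), (h z hz).2, (h y (hy.trans_lt hr)).2]
  have h2 : ∀ z ∈ ball y (R - r), ‖z - a‖ < R := fun z hz => by
    linarith [norm_sub_le_norm_sub_add_norm_sub z y a, mem_ball_iff_norm.1 hz]
  rcases lt_or_ge ‖x - y‖ (R - r) with h3 | h3
  · simpa only [dist_eq_norm] using Complex.dist_le_div_mul_dist_of_mapsTo_ball
      (fun z hz => (h z (h2 z hz)).1.differentiableWithinAt)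
      (fun z hz => mem_closedBall_iff_norm.2 (h1 z (h2 z hz))) (mem_ball_iff_norm.2 h3)
  · have h4 := h1 x (hx.trans_lt hr)
    rw [div_mul_eq_mul_div, le_div_iff₀ h0]
    exact mul_le_mul h4 h3 h0.le ((norm_nonneg _).trans h4)

theorem lipV {f : ℂ → ℂ} {x y : ℂ} {B : ℝ}
    (h : ∀ z, ‖z - 2‖ < 2 → DifferentiableAt ℂ f z ∧ ‖f z‖ ≤ B) (hx : ‖x - 2‖ ≤ 17 / 10)
    (hy : ‖y - 2‖ ≤ 17 / 10) : ‖f x - f y‖ ≤ 7 * B * ‖x - y‖ := by
  have h0 := (norm_nonneg _).trans (h x (by linarith)).2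
  exact (lipH h (by norm_num) hx hy).trans
    (mul_le_mul_of_nonneg_right (by rw [div_le_iff₀ (by norm_num)]; linarith) (norm_nonneg _))

theorem lipW {f : ℂ → ℂ} {x y : ℂ} {B m : ℝ} (hm : 0 < m)
    (h : ∀ z, ‖z‖ * m ^ 2 < 3 / 2 → DifferentiableAt ℂ f z ∧ ‖f z‖ ≤ B)
    (hx : ‖x‖ * m ^ 2 ≤ 11 / 10) (hy : ‖y‖ * m ^ 2 ≤ 11 / 10) :
    ‖f x - f y‖ ≤ 5 * B * m ^ 2 * ‖x - y‖ := by
  have h0 : 0 < m ^ 2 := by positivity
  refine (lipH (a := 0) (R := 3 / 2 / m ^ 2) (r := 11 / 10 / m ^ 2)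
    (fun z hz => h z (by rwa [sub_zero, lt_div_iff₀ h0] at hz))
    (div_lt_div_of_pos_right (by norm_num) h0) (by rwa [sub_zero, le_div_iff₀ h0])
    (by rwa [sub_zero, le_div_iff₀ h0])).trans_eq ?_
  congr 1
  field_simp
  ring

/-- the exponential -/
def ex (t : ℂ) : ℂ := Complex.exp (-t / 4)

/-- the kernel -/
def kk (t : ℂ) : ℂ := ex t / (1 + ex t) ^ 2

/-- its primitive -/
def pp (t : ℂ) : ℂ := 1 / (1 + ex t)

/-- the majorant -/
def rh (m s : ℝ) : ℝ := 1 / (1 + (m * (s - m) / 4) ^ 2)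

variable {t V V' Q Q' w w' : ℂ} {m s : ℝ}

theorem norm_ex (t : ℂ) : ‖ex t‖ = Real.exp (-t.re / 4) := by
  rw [ex, Complex.norm_exp]
  simp

theorem one_ex (h : |t.im| ≤ 2) : 1 + ‖ex t‖ ^ 2 ≤ ‖1 + ex t‖ ^ 2 := by
  have h1 : 0 ≤ (ex t).re := by
    rw [ex, Complex.exp_re]
    refine mul_nonneg (Real.exp_nonneg _) (Real.cos_nonneg_of_neg_pi_div_two_le_of_le ?_ ?_) <;>
      simp <;> linarith [abs_le.1 h, Real.pi_gt_three]
  rw [Complex.sq_norm, Complex.sq_norm, Complex.normSq_add]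
  simp
  linarith

theorem one_le_ex (h : |t.im| ≤ 2) : 1 ≤ ‖1 + ex t‖ :=
  (one_le_sq_iff₀ (norm_nonneg _)).1 (by linarith [one_ex h, sq_nonneg ‖ex t‖])

theorem le_ex (h : |t.im| ≤ 2) : ‖ex t‖ ≤ ‖1 + ex t‖ :=
  (sq_le_sq₀ (norm_nonneg _) (norm_nonneg _)).1 (by linarith [one_ex h])

theorem ex_ne (h : |t.im| ≤ 2) : 1 + ex t ≠ 0 := norm_pos_iff.1 (by linarith [one_le_ex h])

theorem d_ex (t : ℂ) : HasDerivAt ex (-(ex t / 4)) t :=
  (((hasDerivAt_neg t).div_const 4).cexp).congr_deriv (by rw [ex]; ring)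

theorem d_pp (h : |t.im| ≤ 2) : HasDerivAt pp (kk t / 4) t :=
  ((hasDerivAt_const t 1).fun_div ((d_ex t).const_add 1) (ex_ne h)).congr_deriv
    (by rw [kk]; ring)

theorem d_kk (h : |t.im| ≤ 2) : DifferentiableAt ℂ kk t :=
  (d_ex t).differentiableAt.fun_div (((d_ex t).differentiableAt.const_add 1).fun_pow 2)
    (pow_ne_zero 2 (ex_ne h))

theorem kk_le (h : |t.im| ≤ 2) : ‖kk t‖ ≤ Real.exp (-|t.re| / 4) := by
  have h1 := one_ex h
  have h2 := sq_nonneg ‖ex t‖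
  rw [kk, norm_div, norm_pow, div_le_iff₀ (by linarith)]
  refine le_trans ?_ (mul_le_mul_of_nonneg_left h1 (Real.exp_nonneg _))
  rw [norm_ex]
  rcases le_total 0 t.re with h3 | h3
  · rw [abs_of_nonneg h3]
    exact le_mul_of_one_le_right (Real.exp_nonneg _) (by linarith [sq_nonneg (Real.exp (-t.re / 4))])
  · have h4 : Real.exp (- -t.re / 4) * Real.exp (-t.re / 4) = 1 := by
      rw [← Real.exp_add, show - -t.re / 4 + -t.re / 4 = 0 by ring, Real.exp_zero]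
    rw [abs_of_nonpos h3, mul_add, sq, ← mul_assoc, h4]
    linarith [Real.exp_nonneg (- -t.re / 4)]

theorem ball_re (h : ‖V - 2‖ < 2) : 0 < V.re ∧ V.re < 4 ∧ |V.im| ≤ 2 := by
  have h1 := abs_le.1 (Complex.abs_re_le_norm (V - 2))
  have h2 := Complex.abs_im_le_norm (V - 2)
  simp only [Complex.sub_re, Complex.re_ofNat, Complex.sub_im, Complex.im_ofNat, sub_zero] at h1 h2
  exact ⟨by linarith, by linarith, by linarith⟩

theorem t_im (h : ‖V - 2‖ < 2) (m s : ℝ) : |((s : ℂ) ^ 2 + V - m ^ 2).im| ≤ 2 := by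
  simpa [← Complex.ofReal_pow] using (ball_re h).2.2

theorem t_re (V : ℂ) (m s : ℝ) : ((s : ℂ) ^ 2 + V - m ^ 2).re = s ^ 2 + V.re - m ^ 2 := by
  simp [← Complex.ofReal_pow]

theorem rh_pos (m s : ℝ) : 0 < rh m s := by
  rw [rh]
  positivity

theorem kk_rh (h : ‖V - 2‖ < 2) (hm : 0 ≤ m) (hs : 0 ≤ s) :
    ‖kk (s ^ 2 + V - m ^ 2)‖ ≤ 6 * rh m s := by
  refine (kk_le (t_im h m s)).trans ?_
  obtain ⟨h1, h2, -⟩ := ball_re h
  have h3 : |m * (s - m)| ≤ |s ^ 2 - m ^ 2| := by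
    rw [show s ^ 2 - m ^ 2 = (s + m) * (s - m) by ring, abs_mul, abs_mul, abs_of_nonneg hm,
      abs_of_nonneg (add_nonneg hs hm)]
    exact mul_le_mul_of_nonneg_right (by linarith) (abs_nonneg _)
  have h4 : |s ^ 2 - m ^ 2| ≤ |s ^ 2 + V.re - m ^ 2| + 4 :=
    abs_le.2 ⟨by linarith [neg_abs_le (s ^ 2 + V.re - m ^ 2)],
      by linarith [le_abs_self (s ^ 2 + V.re - m ^ 2)]⟩
  obtain ⟨x, hx⟩ : ∃ x, x = m * (s - m) / 4 := ⟨_, rfl⟩
  have h5 : |x| = |m * (s - m)| / 4 := by rw [hx, abs_div, Nat.abs_ofNat]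
  have h6 := Real.quadratic_le_exp_of_nonneg (abs_nonneg x)
  rw [sq_abs] at h6
  rw [t_re, rh, ← hx, mul_one_div, le_div_iff₀ (by positivity)]
  have h7 : Real.exp (-|s ^ 2 + V.re - m ^ 2| / 4) * Real.exp |x| ≤ Real.exp 1 := by
    rw [← Real.exp_add]
    exact Real.exp_le_exp.2 (by linarith)
  nlinarith [Real.exp_one_lt_d9, mul_le_mul_of_nonneg_left
    (show 1 + x ^ 2 ≤ 2 * Real.exp |x| by linarith [abs_nonneg x])
    (Real.exp_nonneg (-|s ^ 2 + V.re - m ^ 2| / 4))]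

theorem int_le {f : ℝ → ℂ} {C : ℝ} (hm : 0 < m) (hC : 0 ≤ C)
    (h : ∀ s ∈ Icc (m - 1) (m + 1), ‖f s‖ ≤ C * rh m s) :
    ‖∫ s in (m - 1)..(m + 1), f s‖ ≤ 16 * C / m := by
  have hc : Continuous (rh m) := continuous_const.div (by fun_prop) fun s => by positivity
  refine (intervalIntegral.norm_integral_le_of_norm_le (by linarith)
    (Eventually.of_forall fun s hs => h s (Ioc_subset_Icc_self hs))
    ((continuous_const.mul hc).intervalIntegrable _ _)).trans ?_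
  rw [intervalIntegral.integral_const_mul, intervalIntegral.integral_eq_sub_of_hasDerivAt
    (f := fun s => 4 / m * Real.arctan (m * (s - m) / 4)) (fun s _ => HasDerivAt.congr_deriv
      ((((((hasDerivAt_id s).sub_const m).const_mul m).div_const 4).arctan).const_mul _)
      (by simp only [rh, id]; field_simp)) (hc.intervalIntegrable _ _), ← mul_sub,
    show 16 * C / m = C * (4 / m * 4) by ring]
  gcongr
  linarith [Real.arctan_lt_pi_div_two (m * (m + 1 - m) / 4),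
    Real.neg_pi_div_two_lt_arctan (m * (m - 1 - m) / 4), Real.pi_le_four]

theorem sqrt_le (h : ‖Q - 2‖ < 2) : ‖Complex.sqrt Q‖ ≤ 2 := by
  have h1 := norm_sub_norm_le Q 2
  rw [Complex.norm_ofNat] at h1
  refine (sq_le_sq₀ (norm_nonneg _) zero_le_two).1 ?_
  rw [← norm_pow, HJ.sqrt_sq]
  linarith

theorem d_sqrt (h : ‖Q - 2‖ < 2) : DifferentiableAt ℂ Complex.sqrt Q :=
  Complex.differentiableAt_sqrt (Or.inl (ball_re h).1)

theorem sqrt_lip (h : ‖Q - 2‖ ≤ 17 / 10) (h' : ‖Q' - 2‖ ≤ 17 / 10) :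
    ‖Complex.sqrt Q - Complex.sqrt Q'‖ ≤ 14 * ‖Q - Q'‖ :=
  (lipV (fun _ hz => ⟨d_sqrt hz, sqrt_le hz⟩) h h').trans_eq (by norm_num)

/-- the integrand -/
def ph (m s : ℝ) (V Q : ℂ) : ℂ := kk (s ^ 2 + V - m ^ 2) * Complex.sqrt Q

theorem d_kt {g : ℂ → ℂ} (hg : DifferentiableAt ℂ g w) (h : ‖g w - 2‖ < 2) (m s : ℝ) :
    DifferentiableAt ℂ (fun z => kk (s ^ 2 + g z - m ^ 2)) w :=
  DifferentiableAt.comp (f := fun z => (s : ℂ) ^ 2 + g z - m ^ 2) w (d_kk (t_im h m s))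
    ((hg.const_add _).sub_const _)

theorem ph_lip (hm : 0 ≤ m) (hs : 0 ≤ s) (h1 : ‖V - 2‖ ≤ 17 / 10) (h2 : ‖V' - 2‖ ≤ 17 / 10)
    (h3 : ‖Q - 2‖ ≤ 17 / 10) (h4 : ‖Q' - 2‖ ≤ 17 / 10) :
    ‖ph m s V Q - ph m s V' Q'‖ ≤ 84 * (‖V - V'‖ + ‖Q - Q'‖) * rh m s := by
  have h5 := lipV (f := fun V => kk (s ^ 2 + V - m ^ 2)) (fun z hz =>
    ⟨d_kt differentiableAt_id hz m s, kk_rh hz hm hs⟩) h1 h2
  rw [show ph m s V Q - ph m s V' Q' = (kk (s ^ 2 + V - m ^ 2) - kk (s ^ 2 + V' - m ^ 2)) *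
    Complex.sqrt Q + kk (s ^ 2 + V' - m ^ 2) * (Complex.sqrt Q - Complex.sqrt Q') by
      rw [ph, ph]; ring]
  refine (norm_add_le _ _).trans ?_
  have h0 := rh_pos m s
  rw [norm_mul, norm_mul]
  linarith [mul_le_mul h5 (sqrt_le (Q := Q) (by linarith)) (norm_nonneg _) (by positivity),
    mul_le_mul (kk_rh (V := V') (by linarith) hm hs) (sqrt_lip h3 h4) (norm_nonneg _)
      (by positivity)]

theorem kk_cont {V : ℝ → ℂ} {S : Set ℝ} (hV : ContinuousOn V S) (h : ∀ s ∈ S, ‖V s - 2‖ < 2) :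
    ContinuousOn (fun s : ℝ => kk (s ^ 2 + V s - m ^ 2)) S := fun s hs =>
  ContinuousAt.comp_continuousWithinAt (f := fun s : ℝ => (s : ℂ) ^ 2 + V s - m ^ 2)
    (d_kk (t_im (h s hs) m s)).continuousAt
    (((Continuous.continuousWithinAt (by fun_prop)).add (hV s hs)).sub continuousWithinAt_const)

theorem ph_int {V Q : ℝ → ℂ} (hV : ContinuousOn V (Icc (m - 1) (m + 1)))
    (hQ : ContinuousOn Q (Icc (m - 1) (m + 1)))
    (h : ∀ s ∈ Icc (m - 1) (m + 1), ‖V s - 2‖ < 2 ∧ ‖Q s - 2‖ < 2) :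
    IntervalIntegrable (fun s => ph m s (V s) (Q s)) MeasureTheory.volume (m - 1) (m + 1) :=
  ContinuousOn.intervalIntegrable_of_Icc (by linarith) ((kk_cont hV fun s hs => (h s hs).1).mul
    fun s hs => (d_sqrt (h s hs).2).continuousAt.comp_continuousWithinAt (hQ s hs))

/-- the argument of the square root -/
def qb (s : ℝ) (w : ℂ) : ℂ := vb s w + (2 * s * w) ^ 2 / 4

/-- the model observable -/
def Om (m : ℝ) (w : ℂ) : ℂ := ∫ s in (m - 1)..(m + 1), ph m s (vb s w) (qb s w)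

theorem vb_le {a : ℝ} (hm : 1000 ≤ m) (hs : s ∈ Icc (m - 1) (m + 1)) (hw : ‖w‖ * m ^ 2 ≤ a)
    (ha : a ≤ 2) : ‖vb s w - 2‖ ≤ a + 1 / 10 ∧ ‖2 * s * w‖ ≤ 1 / 10 ∧
      ‖qb s w - 2‖ ≤ a + 1 / 5 := by
  have h0 := norm_nonneg w
  have h1 : ‖vb s w - 2‖ ≤ a + 1 / 10 := by
    rw [vb_two (by linarith [hs.1])]
    nlinarith [mul_le_mul_of_nonneg_left (show s ^ 2 - 2 ≤ 21 / 20 * m ^ 2 by
      nlinarith [hs.1, hs.2]) h0]
  have h2 : ‖2 * s * w‖ ≤ 1 / 10 := by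
    rw [norm_mul, norm_mul, Complex.norm_ofNat, Complex.norm_real,
      Real.norm_of_nonneg (by linarith [hs.1])]
    nlinarith [mul_le_mul_of_nonneg_left (show 40 * s ≤ m ^ 2 by nlinarith [hs.2]) h0]
  refine ⟨h1, h2, ?_⟩
  rw [qb, add_sub_right_comm]
  refine (norm_add_le _ _).trans ?_
  rw [norm_div, norm_pow, Complex.norm_ofNat]
  nlinarith [norm_nonneg (2 * s * w)]

theorem c_vb (w : ℂ) : Continuous fun s : ℝ => vb s w := by
  unfold vb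
  fun_prop

theorem c_qb (w : ℂ) : Continuous fun s : ℝ => qb s w := (c_vb w).add (by fun_prop)

theorem d_qb (s : ℝ) : Differentiable ℂ (qb s) := (diff_vb s).add (by fun_prop)

theorem om_int (hm : 1000 ≤ m) (hw : ‖w‖ * m ^ 2 ≤ 3 / 2) : IntervalIntegrable
    (fun s => ph m s (vb s w) (qb s w)) MeasureTheory.volume (m - 1) (m + 1) :=
  ph_int (c_vb w).continuousOn (c_qb w).continuousOn fun s hs =>
    have := vb_le hm hs hw (by norm_num)
    ⟨by linarith, by linarith⟩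

/-- comparison with the model -/
theorem om_near {V V1 : ℝ → ℂ} {δ : ℝ} (hm : 1000 ≤ m) (hw : ‖w‖ * m ^ 2 ≤ 11 / 10)
    (hδ : δ ≤ 1 / 10) (hV : ContinuousOn V (Icc (m - 1) (m + 1)))
    (hV1 : ContinuousOn V1 (Icc (m - 1) (m + 1)))
    (h : ∀ s ∈ Icc (m - 1) (m + 1), ‖V s - vb s w‖ ≤ δ ∧ ‖V1 s - 2 * s * w‖ ≤ δ) :
    ‖om V V1 m - 2 * Real.pi * Real.exp (-m ^ 2 / 4) * Om m w‖ ≤
      40000 * δ / m * Real.exp (-m ^ 2 / 4) := by
  have h0 := (norm_nonneg _).trans (h m ⟨by linarith, by linarith⟩).1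
  have h1 : ∀ s ∈ Icc (m - 1) (m + 1), ‖V s - 2‖ ≤ 17 / 10 ∧
      ‖V s + V1 s ^ 2 / 4 - 2‖ ≤ 17 / 10 ∧ ‖V s + V1 s ^ 2 / 4 - qb s w‖ ≤ 2 * δ := fun s hs => by
    obtain ⟨a1, a2, a3⟩ := vb_le hm hs hw (by norm_num)
    obtain ⟨a4, a5⟩ := h s hs
    have a6 : ‖V s + V1 s ^ 2 / 4 - qb s w‖ ≤ 2 * δ := by
      rw [show V s + V1 s ^ 2 / 4 - qb s w = V s - vb s w + (V1 s - 2 * s * w) *
        ((V1 s - 2 * s * w) + 2 * (2 * s * w)) / 4 by rw [qb]; ring]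
      refine (norm_add_le _ _).trans ?_
      have a7 := norm_add_le (V1 s - 2 * s * w) (2 * (2 * s * w))
      rw [norm_mul 2, Complex.norm_ofNat] at a7
      rw [norm_div, norm_mul, Complex.norm_ofNat]
      linarith [mul_le_mul a5 (a7.trans (show _ ≤ 1 by linarith)) (norm_nonneg _) h0]
    exact ⟨by linarith [norm_sub_le_norm_sub_add_norm_sub (V s) (vb s w) 2],
      by linarith [norm_sub_le_norm_sub_add_norm_sub (V s + V1 s ^ 2 / 4) (qb s w) 2], a6⟩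
  have h2 : om V V1 m = 2 * Real.pi * Real.exp (-m ^ 2 / 4) *
      ∫ s in (m - 1)..(m + 1), ph m s (V s) (V s + V1 s ^ 2 / 4) := by
    rw [om, ← intervalIntegral.integral_const_mul]
    congr 1
    funext s
    rw [ph, kk, lg, ex, show -((s : ℂ) ^ 2 + V s) / 4 = -m ^ 2 / 4 + -(s ^ 2 + V s - m ^ 2) / 4 by
      ring, Complex.exp_add]
    push_cast
    ring
  rw [h2, Om, ← mul_sub, ← intervalIntegral.integral_sub (ph_int
    (Q := fun s => V s + V1 s ^ 2 / 4) hV (hV.add ((hV1.pow 2).div_const 4))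
    fun s hs => ⟨by linarith [(h1 s hs).1], by linarith [(h1 s hs).2.1]⟩) (om_int hm (by linarith)),
    norm_mul, norm_mul, norm_mul, Complex.norm_ofNat, Complex.norm_real, Complex.norm_real,
    Real.norm_of_nonneg Real.pi_pos.le, Real.norm_of_nonneg (Real.exp_nonneg _), mul_right_comm]
  refine mul_le_mul_of_nonneg_right ((mul_le_mul (show 2 * Real.pi ≤ 8 by linarith [Real.pi_le_four])
    (int_le (C := 84 * (3 * δ)) (by linarith) (by positivity) fun s hs => ?_) (norm_nonneg _)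
    (by norm_num)).trans ?_) (Real.exp_nonneg _)
  · obtain ⟨a1, -, a3⟩ := vb_le hm hs hw (by norm_num)
    exact (ph_lip (by linarith) (by linarith [hs.1]) (h1 s hs).1 (by linarith) (h1 s hs).2.1
      (by linarith)).trans (mul_le_mul_of_nonneg_right
        (by linarith [(h s hs).1, (h1 s hs).2.2]) (rh_pos m s).le)
  · rw [← mul_div_assoc]
    exact div_le_div_of_nonneg_right (by linarith) (by linarith)

end

end Vale.Agent.P218Q.Ob
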