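import Vale.Agent.P218Q.Spec
import Vale.Agent.P218Q.Bas

/-!
# P218, block NF: row PATH
-/

set_option linter.all false

open Set Filter Topology Metric

namespace Vale.Agent.P218Q

open Vale.Agent.P218S Vale.Agent.P218G Vale.Agent.P218T

noncomputable section

theorem rind {P : ℝ → Prop} (h0 : ∀ t ∈ Icc (0 : ℝ) 1, (∀ s ∈ Ico 0 t, P s) → P t)
    (h1 : ∀ t ∈ Ico (0 : ℝ) 1, P t → ∀ᶠ s in 𝓝[>] t, P s) : ∀ t ∈ Icc (0 : ℝ) 1, P t := by
  by_contra! h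
  set B := {t ∈ Icc (0 : ℝ) 1 | ¬P t}
  have hn : B.Nonempty := h
  have hb : BddBelow B := ⟨0, fun t ht => ht.1.1⟩
  have l0 : 0 ≤ sInf B := le_csInf hn fun t ht => ht.1.1
  have l1 : sInf B ≤ 1 := (csInf_le hb hn.choose_spec).trans hn.choose_spec.1.2
  have hP := h0 _ ⟨l0, l1⟩ fun s hs => by_contra fun h =>
    (csInf_le hb ⟨⟨hs.1, hs.2.le.trans l1⟩, h⟩).not_gt hs.2
  have a : ∀ t ∈ B, sInf B < t := fun t ht =>
    (csInf_le hb ht).lt_of_ne fun e => ht.2 (e ▸ hP)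
  obtain ⟨u, hu, hs⟩ := mem_nhdsGT_iff_exists_Ioo_subset.1
    (h1 _ ⟨l0, (a _ hn.choose_spec).trans_le hn.choose_spec.1.2⟩ hP)
  exact (le_csInf hn fun t ht => not_lt.1 fun e => ht.2 (hs ⟨a t ht, e⟩)).not_gt hu

theorem ev_exp (C : ℝ) (n : ℕ) {a : ℝ} (ha : 0 < a) :
    ∀ᶠ m : ℝ in atTop, C * m ^ n ≤ Real.exp (a * m ^ 2) := by
  have h := ((Real.tendsto_pow_mul_exp_neg_atTop_nhds_zero n).const_mul |C|).eventually_lt_const
    (show |C| * 0 < 1 by simp)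
  filter_upwards [h, eventually_ge_atTop (1 / a), eventually_gt_atTop 0] with m h1 h2 h3
  rw [div_le_iff₀' ha] at h2
  rw [Real.exp_neg, ← mul_assoc, mul_inv_lt_iff₀ (Real.exp_pos m), one_mul] at h1
  exact ((mul_le_mul_of_nonneg_right (le_abs_self C) (by positivity)).trans h1.le).trans
    (Real.exp_le_exp.2 (by nlinarith))

theorem crude {ν W Z : ℝ} {c : ℂ} (hν : 10 ^ 13 ≤ ν) (h0 : 0 < W) (h1 : W ≤ Z)
    (h2 : c ∈ dsc (7 / 5 * ν) Z) : 10 ^ 18 / (Z ^ 6 * ‖vb Z c‖) ≤ 10 ^ 5 / W ^ 4 := by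
  have a1 := dsc_low h2 (h0.trans_le h1).ne'
  rw [show (10 : ℝ) ^ 18 = 10 ^ 5 * 10 ^ 13 by norm_num, show Z ^ 6 * ‖vb Z c‖ =
    Z ^ 4 * (Z ^ 2 * ‖vb Z c‖) by ring, ← div_mul_div_comm]
  exact (mul_le_of_le_one_right (by positivity) ((div_le_one (by linarith)).2
    (by linarith))).trans (by gcongr)

variable {α ι : Type} [Fintype α] [Fintype ι]

namespace FD

variable {F : FD α ι} {J : ℕ} {p q : (ι → ℝ) × ℝ} {x y : α ⊕ ι → ℂ}

theorem loc' (hJ : F.J0 ≤ J) (hp : p ∈ Ad (F.Zs J)) (hy : y ∈ F.dm J p) (hx : F.X J p y = x)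
    {Z : ℝ} (hZ : ∀ l, Z ≤ p.1 l) (hs : F.Zs J ≤ Z) (h0 : 0 < Z) :
    ContinuousWithinAt (fun q => F.inv J q x) (Ad (F.Zs J)) p ∧
    (∀ᶠ q in 𝓝[Ad (F.Zs J)] p, F.inv J q x ∈ F.dm J q ∧ F.X J q (F.inv J q x) = x) ∧
    (∃ τ : ℂ, ‖τ‖ ≤ Real.exp (-Z ^ 2 / 5) ∧ HasFDerivWithinAt (fun q => F.f J q (F.inv J q x))
      (dP (F.D J p y) τ) (Ad (F.Zs J)) p) ∧
    ∀ j, ∀ m ∈ Icc (p.1 j / 20) (p.1 j / 2), ∃ L : ((ι → ℝ) × ℝ) →L[ℝ] ℂ,
      ‖L‖ ≤ Real.exp (-Z ^ 2 / 5) ∧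
        HasFDerivWithinAt (fun q => F.O J q (F.inv J q x) j m) L (Ad (F.Zs J)) p := by
  obtain ⟨g, c, e, h1, ⟨τ, t1, t2⟩, h2⟩ := F.loc J hJ p hp y hy Z hZ hs
  have h3 := ev_dom (continuous_fst.continuousWithinAt (s := Ad (F.Zs J)) (x := p))
    (e ▸ c.tendsto) (fun j => (h0.trans_le (hZ j)).ne') hy
  have h4 : (fun q => F.inv J q x) =ᶠ[𝓝[Ad (F.Zs J)] p] g := by
    filter_upwards [h1, h3, self_mem_nhdsWithin] with q a b c
    rw [← hx, ← a, inv_X hJ c b]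
  have h5 : F.inv J p x = g p := by rw [← hx, inv_X hJ hp hy, e]
  refine ⟨c.congr_of_eventuallyEq h4 h5, ?_, ⟨τ, t1, t2.congr_of_eventuallyEq
    (h4.mono fun q h => by simp only [h]) (by simp only [h5])⟩, fun j m hm => ?_⟩
  · filter_upwards [h1, h3, h4] with q a b c
    rw [c, a]
    exact ⟨b, hx⟩
  · obtain ⟨L, l1, l2⟩ := h2 j m hm
    exact ⟨L, l1, l2.congr_of_eventuallyEq (h4.mono fun q h => by simp only [h])
      (by simp only [h5])⟩

/-- a limit of members with constraint values converging to `x` is the member with values `x` -/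
theorem closed (hJ : F.J0 ≤ J) (hp : p ∈ Ad (F.Zs J)) (hy : y ∈ F.dm J p) {Z : ℝ}
    (hZ : ∀ l, Z ≤ p.1 l) (hs : F.Zs J ≤ Z) (h0 : 0 < Z) {P : ℕ → (ι → ℝ) × ℝ}
    {u : ℕ → α ⊕ ι → ℂ} (hP : Tendsto P atTop (𝓝[Ad (F.Zs J)] p)) (hu : Tendsto u atTop (𝓝 y))
    (h : ∀ n, u n ∈ F.dm J (P n) ∧ F.X J (P n) (u n) = x) : F.X J p y = x := by
  obtain ⟨c, e, -⟩ := loc' hJ hp hy rfl hZ hs h0
  have hi : ∀ i, y (.inl i) = x (.inl i) := fun i => tendsto_nhds_unique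
    (tendsto_pi_nhds.1 hu _) (tendsto_const_nhds.congr fun n => by rw [← (h n).2, F.inl])
  have a := ((hu.sub (c.tendsto.comp hP)).norm.const_mul (11 / 10))
  rw [inv_X hJ hp hy, sub_self, norm_zero, mul_zero] at a
  refine (sub_eq_zero.1 (norm_le_zero_iff.1 (ge_of_tendsto a ?_))).symm
  filter_upwards [hP.eventually e, hP.eventually self_mem_nhdsWithin] with n b d
  have := lip_le hJ d (h n).1 b.1 fun i => by
    rw [← F.inl J (P n) (u n), (h n).2, ← F.inl J (P n) (F.inv _ _ _), b.2, F.inl, hi]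
  rwa [(h n).2, b.2] at this

end FD

theorem path (hi : IN) (ho : OBS) (F : FD α ι) : PATH F := by
  intro J hJ
  have hν := FD.nuJ hJ
  obtain ⟨K', hK⟩ := ho (F.K J)
  obtain ⟨Z0, hZ0⟩ := eventually_atTop.1 (hi (29 / 20 * nu J) (nu J / 100) (by linarith)
    (by linarith))
  refine ⟨K', ?_⟩
  filter_upwards [hK, eventually_ge_atTop Z0, eventually_ge_atTop (F.Zs J),
    eventually_ge_atTop 10, ev_exp 20 5 (show (0 : ℝ) < 1 / 4 by norm_num),
    eventually_ge_atTop (K' ^ 2)] with m hO m1 m2 m3 m4 m5 p hp q hq hqp hq2 hp2 y hy hD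
  set g : ℝ → (ι → ℝ) × ℝ := fun t => p + t • (q - p) with hg
  set x := F.X J p y with hx
  set P : ℝ → Prop := fun t => F.inv J (g t) x ∈ F.dm J (g t) ∧
    F.X J (g t) (F.inv J (g t) x) = x with hP
  have g0 : g 0 = p := by simp [hg]
  have g1 : g 1 = q := by simp [hg]
  have gA : ∀ t ∈ Icc (0 : ℝ) 1, g t ∈ Ad (F.Zs J) := fun t ht =>
    (convex_Ad _).add_smul_sub_mem hp hq ht
  have gb : ∀ t ∈ Icc (0 : ℝ) 1, ∀ l, 2 * m ≤ (g t).1 l ∧ (g t).1 l ≤ p.1 l := fun t ht l => by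
    have := hqp l
    have := hq2 l
    simp only [hg, Prod.fst_add, Prod.smul_fst, Prod.fst_sub, Pi.add_apply, Pi.smul_apply,
      Pi.sub_apply, smul_eq_mul]
    constructor <;> nlinarith [ht.1, ht.2]
  have gd : ∀ t, HasDerivAt g (q - p) t := fun t => by
    simpa [hg] using ((hasDerivAt_id t).smul_const (q - p)).const_add p
  have gt : ∀ t ∈ Icc (0 : ℝ) 1, Tendsto g (𝓝[Icc 0 1] t) (𝓝[Ad (F.Zs J)] g t) := fun t ht =>
    (gd t).continuousAt.continuousWithinAt.tendsto_nhdsWithin gA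
  have L := fun t ht (h : P t) => FD.loc' hJ (gA t ht) h.1 h.2 (fun l => (gb t ht l).1)
    (by linarith) (by linarith)
  have n2 : |q.2 - p.2| ≤ 1 := abs_le.2 ⟨by linarith [hq.2.2.1, hp.2.2.2],
    by linarith [hq.2.2.2, hp.2.2.1]⟩
  have nq : ‖q - p‖ ≤ 20 * m := by
    refine norm_prod_le_iff.2 ⟨(pi_norm_le_iff_of_nonneg (by linarith)).2 fun l => ?_,
      n2.trans (by linarith)⟩
    exact abs_le.2 ⟨by simp; linarith [hq2 l, hp2 l], by simp; linarith [hqp l]⟩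
  have i0 : F.inv J (g 0) x = y := by rw [g0, hx, FD.inv_X hJ hp hy]
  have mI : ∀ t ∈ Icc (0 : ℝ) 1, ∀ l, m ∈ Icc ((g t).1 l / 20) ((g t).1 l / 2) := fun t ht l =>
    ⟨by linarith [(gb t ht l).2, hp2 l], by linarith [(gb t ht l).1]⟩
  have mv : ∀ t ∈ Icc (0 : ℝ) 1, ∀ (φ : (ι → ℝ) × ℝ → ℂ) (C : ℝ), (∀ s ∈ Icc 0 t,
      ∃ A : ((ι → ℝ) × ℝ) →L[ℝ] ℂ, ‖A (q - p)‖ ≤ C ∧ HasFDerivWithinAt φ A (Ad (F.Zs J)) (g s)) →
      ‖φ p - φ (g t)‖ ≤ C := fun t ht φ C h => by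
    choose! A a1 a2 using h
    have := (convex_Icc 0 t).norm_image_sub_le_of_norm_hasDerivWithin_le (f := φ ∘ g)
      (fun s hs => (a2 s hs).comp_hasDerivWithinAt s (gd s).hasDerivWithinAt fun u hu =>
        gA u ⟨hu.1, hu.2.trans ht.2⟩) a1 ⟨ht.1, le_rfl⟩ ⟨le_rfl, ht.1⟩
    simp only [Function.comp_apply, g0, zero_sub, norm_neg, Real.norm_of_nonneg ht.1] at this
    exact this.trans (mul_le_of_le_one_right ((norm_nonneg _).trans (a1 0 ⟨le_rfl, ht.1⟩)) ht.2)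
  have E : ∀ t ∈ Icc (0 : ℝ) 1, (∀ s ∈ Icc 0 t, P s) → ∀ l,
      ‖gam (p.1 l) (y (.inr l)) - gam ((g t).1 l) (F.inv J (g t) x (.inr l))‖ ≤
      10 ^ 18 / (p.1 l ^ 6 * ‖vb (p.1 l) (y (.inr l))‖) +
      10 ^ 18 / ((g t).1 l ^ 6 * ‖vb ((g t).1 l) (F.inv J (g t) x (.inr l))‖) +
      K' / (m ^ 4 * √m) := fun t ht h l => by
    have ht' := (h t ⟨ht.1, le_rfl⟩).1
    obtain ⟨V, V1, V2, a⟩ := F.prof J hJ p hp y hy l
    obtain ⟨U, U1, U2, b⟩ := F.prof J hJ _ (gA t ht) _ ht' l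
    refine hO _ _ _ _ _ _ _ _ _ _ _ _ (g0 ▸ mI 0 ⟨le_rfl, one_pos.le⟩ l) (mI t ht l)
      (dsc_anti (by linarith) _ (hy.2 l)) (dsc_anti (by linarith) _ (ht'.2 l)) a b ?_
    have := mv t ht (fun q => F.O J q (F.inv J q x) l m) (Real.exp (-m ^ 2 / 4) / m ^ 4)
      fun s hs => by
        have hs' : s ∈ Icc (0 : ℝ) 1 := ⟨hs.1, hs.2.trans ht.2⟩
        obtain ⟨A, a1, a2⟩ := (L s hs' (h s hs)).2.2.2 l m (mI s hs' l)
        refine ⟨A, (A.le_of_opNorm_le_of_le a1 nq).trans ?_, a2⟩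
        rw [le_div_iff₀ (by positivity), show -m ^ 2 / 4 = -m ^ 2 / 2 + 1 / 4 * m ^ 2 by ring,
          Real.exp_add, mul_assoc]
        exact mul_le_mul (Real.exp_le_exp.2 (by nlinarith)) (by linarith [pow_succ m 4])
          (by positivity) (by positivity)
    rwa [hx, FD.inv_X hJ hp hy] at this
  have I : ∀ t ∈ Icc (0 : ℝ) 1, (∀ s ∈ Icc 0 t, P s) → ∀ l,
      F.inv J (g t) x (.inr l) ∈ dsc (36 / 25 * nu J) ((g t).1 l) := fun t ht h l => by
    have ht' := (h t ⟨ht.1, le_rfl⟩).1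
    obtain ⟨b1, b2⟩ := gb t ht l
    have b0 : 0 < (g t).1 l := by linarith
    rw [show 36 / 25 * nu J = 29 / 20 * nu J - nu J / 100 by ring]
    refine hZ0 _ (by linarith) _ (dsc_anti (by linarith) _ (ht'.2 l)) _
      (Dm_mono (hD l) (by linarith) (by linarith) b2) ((E t ht h l).trans ?_)
    have a3 : K' / (m ^ 4 * √m) ≤ 20 ^ 4 / (g t).1 l ^ 4 := by
      have a4 := pow_le_pow_left₀ b0.le (b2.trans (hp2 l)) 4
      have a5 : K' ≤ √m := Real.le_sqrt_of_sq_le m5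
      have a6 : 0 < √m := Real.sqrt_pos.2 (by linarith)
      rw [div_le_div_iff₀ (by positivity) (by positivity)]
      calc _ ≤ √m * (20 * m) ^ 4 := mul_le_mul a5 a4 (by positivity) a6.le
        _ = _ := by ring
    refine (add_le_add_three (crude hν b0 b2 (hy.2 l)) (crude hν b0 le_rfl (ht'.2 l)) a3).trans ?_
    rw [← add_div, ← add_div]
    gcongr
    linarith
  have hall : ∀ t ∈ Icc (0 : ℝ) 1, P t := rind (fun t ht h => by
    rcases ht.1.eq_or_lt with rfl | t0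
    · simp only [hP]
      rw [i0, g0]
      exact ⟨hy, hx.symm⟩
    obtain ⟨s, -, s1, s2⟩ := exists_seq_strictMono_tendsto' t0
    have s3 : ∀ n, s n ∈ Icc (0 : ℝ) 1 := fun n => ⟨(s1 n).1.le, (s1 n).2.le.trans ht.2⟩
    have s4 := fun n => I _ (s3 n) fun u hu => h u ⟨hu.1, hu.2.trans_lt (s1 n).2⟩
    have s5 := fun n => h _ ⟨(s1 n).1.le, (s1 n).2⟩
    obtain ⟨w, -, φ, hφ, hw⟩ := tendsto_subseq_of_bounded (isBounded_closedBall (x := 0)
      (r := max F.r 1)) (x := fun n => F.inv J (g (s n)) x) fun n => mem_closedBall_zero_iff.2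
        ((pi_norm_le_iff_of_nonneg (by positivity)).2 fun k => by
          rcases k with i | l
          · exact ((s5 n).1.1 i).le.trans (le_max_left _ _)
          · have := (gb _ (s3 n) l).1
            have := dsc_norm (s4 n l) (by linarith) (by linarith)
            refine le_trans (le_of_mul_le_mul_right (this.trans ?_) (by nlinarith))
              (le_max_right _ _)
            nlinarith)
    have s6 := (gt t ht).comp ((tendsto_nhdsWithin_iff.2 ⟨s2, .of_forall s3⟩).comp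
      hφ.tendsto_atTop)
    have s7 := tendsto_pi_nhds.1 (continuous_fst.tendsto _ |>.comp (s6.mono_right
      nhdsWithin_le_nhds))
    have hm : w ∈ F.dm J (g t) := ⟨fun i => by
      rw [tendsto_nhds_unique (tendsto_pi_nhds.1 hw (.inl i)) (tendsto_const_nhds.congr fun n => by
        rw [Function.comp_apply, ← F.inl J _ (F.inv _ _ _), (s5 _).2, hx, F.inl])]
      exact hy.1 i, fun l => by
      have b0 : 0 < (g t).1 l := by linarith [(gb t ht l).1]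
      refine (le_of_tendsto_of_tendsto' (((cont_vb.tendsto _).comp ((s7 l).prodMk_nhds
        (tendsto_pi_nhds.1 hw (.inr l)))).sub_const 3).norm ((tendsto_const_nhds.div
        ((s7 l).pow 2) (pow_ne_zero 2 b0.ne')).const_sub 3) fun n => (s4 (φ n) l).le).trans_lt ?_
      exact sub_lt_sub_left (div_lt_div_of_pos_right (by linarith) (by positivity)) 3⟩
    have e := FD.closed hJ (gA t ht) hm (fun l => (gb t ht l).1) (by linarith) (by linarith) s6 hw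
      fun n => s5 _
    simp only [hP]
    rw [← e, FD.inv_X hJ (gA t ht) hm]
    exact ⟨hm, rfl⟩) fun t ht h => ((gt t ⟨ht.1, ht.2.le⟩).eventually (L t ⟨ht.1, ht.2.le⟩
      h).2.1).filter_mono (nhdsWithin_le_of_mem (mem_of_superset (Icc_mem_nhdsGT_of_mem ht)
        subset_rfl))
  have h1 : (1 : ℝ) ∈ Icc (0 : ℝ) 1 := ⟨one_pos.le, le_rfl⟩
  have a := hall 1 h1
  have b := E 1 h1 hall
  have c := mv 1 h1 (fun q => F.f J q (F.inv J q x)) (Real.exp (-m ^ 2 / 2))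
  simp only [hP, g1] at a b c
  refine ⟨_, a.1, a.2, b, fun e => ?_⟩
  rw [norm_sub_rev, ← FD.inv_X hJ hp hy]
  refine c fun s hs => ?_
  obtain ⟨τ, t1, t2⟩ := (L s hs (hall s hs)).2.2.1
  refine ⟨_, ?_, t2⟩
  simp only [dP, ContinuousLinearMap.coprod_apply, Prod.fst_sub, e, sub_self, map_zero, zero_add,
    ContinuousLinearMap.smulRight_apply, ContinuousLinearMap.id_apply, norm_smul]
  exact (mul_le_of_le_one_left (norm_nonneg _) n2).trans (t1.trans (Real.exp_le_exp.2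
    (by nlinarith)))

end

end Vale.Agent.P218Q
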