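import Vale.Agent.P218Q.Down

/-!
# P218, block NF: row TEL
-/

set_option linter.all false

open Set Filter Topology Metric

namespace Vale.Agent.P218Q

open Vale.Agent.P218S Vale.Agent.P218G Vale.Agent.P218T

noncomputable section

variable {α ι : Type} [Fintype α] [Fintype ι]

theorem loc_inv {Φ : (α ⊕ ι → ℂ) → α ⊕ ι → ℂ} {U : Set (α ⊕ ι → ℂ)} (hU : IsOpen U) (h : 0 ∈ U)
    (h0 : Φ 0 = 0) (hd : DifferentiableOn ℂ Φ U) (hi : ∀ v, fderiv ℂ Φ 0 v = 0 → v = 0)
    (hs : ∀ x ∈ U, Φ (star x) = star (Φ x)) : ∃ Ξ : (α ⊕ ι → ℂ) → α ⊕ ι → ℂ, Ξ 0 = 0 ∧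
      (∀ᶠ y in 𝓝 0, DifferentiableAt ℂ Ξ y ∧ Ξ y ∈ U ∧ Φ (Ξ y) = y ∧ Ξ (star y) = star (Ξ y)) ∧
      ∀ᶠ x in 𝓝 0, Ξ (Φ x) = x := by
  have a : ContDiffAt ℂ 1 Φ 0 := (P281.MF.analyticAt_of_differentiableOn hU hd h).contDiffAt
  obtain ⟨e, he⟩ := equiv_of_inj hi
  have b : HasFDerivAt Φ (e : (α ⊕ ι → ℂ) →L[ℂ] α ⊕ ι → ℂ) 0 :=
    he ▸ (a.differentiableAt one_ne_zero).hasFDerivAt
  have c := a.to_localInverse b one_ne_zero
  have l := (a.hasStrictFDerivAt' b one_ne_zero).eventually_left_inverse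
  have r := (a.hasStrictFDerivAt' b one_ne_zero).eventually_right_inverse
  have z := a.localInverse_apply_image b one_ne_zero
  rw [h0] at c r z
  have t := c.continuousAt.tendsto
  rw [z] at t
  have t' := t.star
  rw [star_zero] at t'
  refine ⟨_, z, ?_, l⟩
  filter_upwards [c.eventually (by simp), r, t.eventually (hU.mem_nhds h), t'.eventually l]
    with y h1 h2 h3 h4
  refine ⟨h1.differentiableAt one_ne_zero, h3, h2, ?_⟩
  rw [hs _ h3] at h4
  exact (congrArg (fun x => a.localInverse b one_ne_zero (star x)) h2).symm.trans h4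

/-- the vector of normal coordinates -/
def gv (Z : ℝ) (y : α ⊕ ι → ℂ) : α ⊕ ι → ℂ := Sum.elim (fun _ => 0) fun l => gam Z (y (.inr l))

theorem tel (F : FD α ι) (hP : PATH F) : TEL F := by
  obtain ⟨C1, c1, H1⟩ := FD.half hP le_rfl
  obtain ⟨C2, c2, H2⟩ := FD.cen hP le_rfl
  have hν := FD.nuJ (F := F) le_rfl
  have r0 := F.r0
  obtain ⟨Z1, hZ⟩ := eventually_atTop.1 (H1.and (H2.and ((ev_ee (4 * C2) one_pos).and
    ((eventually_ge_atTop (F.Zs F.J0)).and (eventually_ge_atTop (6 * nu F.J0))))))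
  have z1 : 6 * nu F.J0 ≤ Z1 := (hZ _ le_rfl).2.2.2.2
  set Z : ℕ → ℝ := fun n => Z1 * 2 ^ n with hz
  have zs : ∀ n, Z (n + 1) = Z n * 2 := fun n => by simp only [hz, pow_succ, mul_assoc]
  have zl : ∀ n, Z1 ≤ Z n := fun n =>
    le_mul_of_one_le_right (by linarith) (one_le_pow₀ one_le_two)
  have z6 : ∀ n, 6 * nu F.J0 ≤ Z n := fun n => z1.trans (zl n)
  have z0 : ∀ n, 0 < Z n := fun n => by linarith [z6 n]
  have z3 : ∀ n, 1000 ≤ Z n := fun n => by linarith [z6 n]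
  have zt : Tendsto Z atTop atTop :=
    (tendsto_pow_atTop_atTop_of_one_lt one_lt_two).const_mul_atTop (by linarith)
  have A : ∀ n, (FD.dg (Z n) : (ι → ℝ) × ℝ) ∈ Ad (F.Zs F.J0) := fun n =>
    dg_mem (hZ _ (zl n)).2.2.2.1 (z0 n).le ⟨one_pos.le, le_rfl⟩
  have W : ∀ n (l : ι), Z n ≤ (FD.dg (Z n) : (ι → ℝ) × ℝ).1 l ∧ (FD.dg (Z n) : (ι → ℝ) × ℝ).1 l ≤
      (FD.dg (Z (n + 1)) : (ι → ℝ) × ℝ).1 l ∧ (FD.dg (Z (n + 1)) : (ι → ℝ) × ℝ).1 l ≤ 10 * Z n :=
    fun n l => ⟨le_rfl, by simp only [FD.dg]; constructor <;> linarith [zs n, z0 n]⟩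
  set X := fun n => F.X F.J0 (FD.dg (Z n)) with hX
  set e := fun n => ee (Z n) with he
  have e0 : ∀ n, 0 < e n := fun n => ee_pos (z0 n)
  have e2 : ∀ n, e n / 32 ≤ e (n + 1) ∧ e (n + 1) ≤ e n / 22 := fun n => by
    simpa only [he, zs] using ee_two (z0 n)
  have pm : ∀ n x, ‖pa α ι x‖ < F.r → pa α ι x ∈ F.dm F.J0 (FD.dg (Z n)) := fun n x hx =>
    FD.pa_dm hx (fun l => ⟨(by norm_num : (2 : ℝ) ≤ 1000).trans (z3 n), z6 n⟩) le_rfl
  have b : ∀ n, C2 * e (n + 1) ≤ 3 / 4 * (C2 * e n) := fun n => by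
    nlinarith [mul_le_mul_of_nonneg_left (e2 n).2 c2, mul_nonneg c2 (e0 n).le]
  have d : ∀ n x, ‖pa α ι x‖ < F.r → ‖X (n + 1) (pa α ι x) - X n (pa α ι x)‖ ≤ C2 * e n :=
    fun n => (hZ _ (zl n)).2.1 _ (A _) _ (A _) (W n)
  obtain ⟨v, v1, v2⟩ := lim_hol (u := fun n x => X n (pa α ι x)) (open_Bx F.r 1) (fun n =>
    (F.holX _ le_rfl _ (A n)).comp (pa α ι).differentiableOn fun x hx => pm n x hx.1) b
    fun n x hx => d n x hx.1
  set N := fun x => pc α ι (v (pa α ι x)) with hN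
  have v3 : ∀ x, ‖pa α ι x‖ < F.r → Tendsto (fun n => pc α ι (X n (pa α ι x))) atTop (𝓝 (N x)) :=
    fun x hx => ((pc α ι).continuous.tendsto _).comp (by
      simpa only [pa_pa] using v2 _ (pa_mem hx one_pos))
  have pX : ∀ n x, pa α ι (X n x) = pa α ι x := fun n x => by
    funext s
    rcases s with i | j <;> simp [hX, F.inl]
  have N1 : ∀ n x, ‖pa α ι x‖ < F.r → ‖X n (pa α ι x) - (pa α ι x + N x)‖ ≤ 4 * (C2 * e n) :=
    fun n x hx => by
      have := tail (b := fun n => C2 * e n) (v3 x hx) b (fun k => by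
        rw [← map_sub]
        exact (norm_pc_le _).trans (d k x hx)) n
      rwa [← pa_pc (X n (pa α ι x)), pX, pa_pa, add_sub_add_left_eq_sub, norm_sub_rev]
  have N2 : ∀ x, ‖pa α ι x‖ < F.r → DifferentiableAt ℂ N x := fun x hx =>
    (pc α ι).differentiableAt.comp x ((v1.differentiableAt ((open_Bx _ _).mem_nhds
      (pa_mem hx one_pos))).comp x (pa α ι).differentiableAt)
  have N3 : ∀ x, ‖pa α ι x‖ < F.r → N (star x) = star (N x) := fun x hx =>
    tendsto_nhds_unique (v3 _ (by rwa [pa_star, norm_star])) ((v3 x hx).star.congr fun n => by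
      rw [pa_star, ← pc_star, ← (F.conj _ (A n) _ (pm n x hx)).1])
  have N4 : ∀ x, pa α ι (N x) = 0 := fun x => pa_pc0 _
  have N5 : ∀ x y, pa α ι x = pa α ι y → N x = N y := fun x y h => by simp only [hN, h]
  have N6 : ∀ x, pa α ι (x + N x) = pa α ι x := fun x => by rw [map_add, N4, add_zero]
  have N7 : ∀ x, pa α ι (x - N x) = pa α ι x := fun x => by rw [map_sub, N4, sub_zero]
  set ρ := fun n => 4 / 5 / Z n ^ 2 with hρ
  have ρ0 : ∀ n, 0 < ρ n := fun n => div_pos (by norm_num) (pow_pos (z0 n) 2)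
  have ρ1 : ∀ n, ρ n ≤ 1 := fun n => (div_le_one (pow_pos (z0 n) 2)).2 (by nlinarith [z3 n])
  have sm : ∀ n, 4 * (C2 * e n) ≤ ρ n / 8 := fun n => by
    have := z3 n
    refine (mul_assoc _ _ _).symm.trans_le ((hZ _ (zl n)).2.2.1.trans ?_)
    rw [hρ, div_div, div_div, div_le_div_iff₀ (by positivity) (by positivity)]
    nlinarith [mul_le_mul_of_nonneg_left (show 10 ≤ Z n ^ 2 by nlinarith) (sq_nonneg (Z n))]
  set y := fun n x => F.inv F.J0 (FD.dg (Z n)) (x + N x) with hy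
  have Y : ∀ n, ∀ x ∈ Bx F.r (ρ n), y n x ∈ F.dm F.J0 (FD.dg (Z n)) ∧
      (∀ l, ‖y n x (.inr l)‖ * Z n ^ 2 ≤ 1) ∧ X n (y n x) = x + N x := fun n x hx => by
    have := z0 n
    obtain ⟨w, w1, w2, w3⟩ := FD.surj le_rfl (A n) (e := 1 / Z n ^ 2) (x := x + N x)
      (by positivity) (fun l => ⟨(by norm_num : (2 : ℝ) ≤ 1000).trans (z3 n), by
        show _ < Z n ^ 2
        nlinarith [z6 n], (one_div_mul_cancel (pow_pos this 2).ne').le⟩)
      (lt_pa (by rw [N6]; exact hx.1)) (by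
        have := norm_sub_le (X n (pa α ι x) - (pa α ι x + N x)) (pc α ι x)
        rw [sub_sub, add_right_comm, pa_pc] at this
        rw [N6, show 9 / 10 * (1 / Z n ^ 2) = ρ n / 8 + ρ n by simp only [hρ]; ring]
        linarith [hx.2, N1 n x hx.1, sm n])
    simp only [hy, ← w3, FD.inv_X le_rfl (A n) w1]
    exact ⟨w1, fun l => (le_div_iff₀ (by positivity)).1 (w2 l), rfl⟩
  have G := fun n x hx l => (Y n x hx).1.2 l
  obtain ⟨Γ, C, G1, G2, G3⟩ := extrap (g := fun n x => gv (Z n) (y n x)) (M := 2) (r := F.r) ρ0 ρ1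
    (fun n => by simp only [hρ, zs]; ring) (e := fun n => (C1 + 1) * e n)
    (fun n => mul_pos (by linarith) (e0 n)) (fun n => by
      constructor <;> nlinarith [(e2 n).1, (e2 n).2])
    (fun n x hx => (differentiableAt_pi.2 fun s => by
      rcases s with i | l
      · exact differentiableAt_const _
      · have a := FD.diff_inv le_rfl (A n) (Y n x hx).1
        rw [show F.X _ _ _ = _ from (Y n x hx).2.2] at a
        have b := differentiableAt_pi.1 (a.comp x (differentiableAt_id.add (N2 x hx.1))) (.inr l)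
        exact DifferentiableAt.comp (g := gam (Z n)) x
          (diff_gam (G n x hx l) (by linarith) (z3 n)) b).differentiableWithinAt)
    (fun x hx => norm_le_of zero_le_two (fun _ => rfl) fun l => by
      have := gam_le (G 0 x hx l) (by linarith) (z3 0)
      refine this.trans ?_
      nlinarith [(Y 0 x hx).2.1 l, norm_nonneg (y 0 x (.inr l)), mul_le_mul_of_nonneg_left
        (show 1 ≤ Z 0 ^ 2 by nlinarith [z3 0]) (norm_nonneg (y 0 x (.inr l)))])
    (fun n x hx => by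
      obtain ⟨a1, a2, a3⟩ := Y _ x hx
      obtain ⟨w, w1, w2, w3⟩ := (hZ _ (zl n)).1 _ (A _) _ (A n) (W n) _ a1 fun l => ⟨a2 l, by
        have := a2 l
        rw [zs] at this
        show _ * Z n ^ 2 ≤ _
        linarith⟩
      have : y n x = w := by
        rw [hy]
        simp only [← a3, hX, ← w2, FD.inv_X le_rfl (A n) w1]
      refine norm_le_of (mul_pos (by linarith) (e0 n)).le (fun _ => sub_self _) fun l => ?_
      rw [this]
      exact (w3 l).trans (by linarith [e0 n]))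
    (fun n x hx => by
      have : y n (star x) = star (y n x) := by
        rw [← FD.inv_X le_rfl (A n) (star_dom (Y n x hx).1), (F.conj _ (A n) _ (Y n x hx).1).1,
          show F.X _ _ _ = _ from (Y n x hx).2.2, star_add, ← N3 x hx.1]
      funext s
      rcases s with i | l
      · simp [gv]
      · exact this ▸ star_gam (G n x hx l) (by linarith))
  set K := C * (C1 + 1)
  have G4 : ∀ n, ∀ x ∈ Bx F.r (ρ n), ‖pc α ι (Γ x) - gv (Z n) (y n x)‖ ≤ K * e n :=
    fun n x hx => by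
      rw [show gv (Z n) (y n x) = pc α ι (gv (Z n) (y n x)) from funext fun s => by
        rcases s with i | l <;> rfl, ← map_sub, mul_assoc]
      exact (norm_pc_le _).trans (G3 n x hx)
  have B0 : ∀ ρ : ℝ, 0 < ρ → (0 : α ⊕ ι → ℂ) ∈ Bx F.r ρ := fun ρ h => by simp [Bx, h, r0]
  have K0 : 0 ≤ K := nonneg_of_mul_nonneg_left ((norm_nonneg _).trans (G4 0 0 (B0 _ (ρ0 0))))
    (e0 0)
  have X0 : ∀ n, ‖X n 0 - N 0‖ ≤ 4 * (C2 * e n) := fun n => by simpa using N1 n 0 (by simpa)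
  have p0 : ∀ n, (0 : α ⊕ ι → ℂ) ∈ F.dm F.J0 (FD.dg (Z n)) := fun n => by
    simpa using pm n 0 (by simpa)
  have ev : ∀ C ε : ℝ, 0 < ε → ∀ᶠ n in atTop, C * e n ≤ ε * ρ n := fun C ε h =>
    (zt.eventually (ev_ee C h)).mono fun n hn => hn.trans (by
      have := z3 n
      simp only [hρ]
      rw [div_div, mul_div_assoc', div_le_div_iff₀ (by positivity) (by positivity)]
      nlinarith [mul_le_mul_of_nonneg_left (show 2 ≤ Z n ^ 2 by nlinarith)
        (show 0 ≤ ε * Z n ^ 2 by positivity)])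
  have key : ∀ n, ∀ x ∈ Bx F.r (ρ n), pa α ι x = 0 →
      ‖pc α ι (Γ x)‖ ≤ 2 * ‖x‖ + (K + 8 * C2) * e n ∧
      ‖x‖ ≤ 2 * ‖pc α ι (Γ x)‖ + (2 * K + 4 * C2) * e n := fun n x hx h0 => by
    obtain ⟨a1, -, a3⟩ := Y n x hx
    have hi : ∀ i, y n x (.inl i) = 0 := fun i => by
      rw [← F.inl F.J0 (FD.dg (Z n)) (y n x)]
      exact congrFun (((congrArg _ a3).trans (N6 x)).trans h0) (.inl i)
    have a4 := FD.lip_le le_rfl (A n) a1 (p0 n) hi
    have a5 := FD.lip_ge le_rfl (A n) a1 (p0 n) hi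
    have a6 : ‖y n x‖ ≤ 21 / 20 * ‖gv (Z n) (y n x)‖ := norm_le_of (by positivity) hi fun l =>
      (le_gam (a1.2 l) (by linarith) (z3 n)).trans (mul_le_mul_of_nonneg_left
        (norm_le_pi_norm (gv (Z n) (y n x)) (.inr l)) (by norm_num))
    have a7 : ‖gv (Z n) (y n x)‖ ≤ 21 / 20 * ‖y n x‖ := norm_le_of (by positivity) (fun _ => rfl)
      fun l => (gam_le (a1.2 l) (by linarith) (z3 n)).trans (mul_le_mul_of_nonneg_left
        (norm_le_pi_norm (y n x) (.inr l)) (by norm_num))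
    have a8 : X n (y n x) - X n 0 = x - (X n 0 - N 0) := by
      rw [a3, N5 x 0 (by simpa)]
      abel
    have a9 := abs_le.1 (abs_norm_sub_norm_le (pc α ι (Γ x)) (gv (Z n) (y n x)))
    have a10 := norm_sub_norm_le x (X n 0 - N 0)
    have a11 := norm_sub_le x (X n 0 - N 0)
    simp only [sub_zero] at a4 a5
    rw [← a8] at a10 a11
    constructor <;> linarith [G4 n x hx, X0 n, norm_nonneg x, norm_nonneg (pc α ι (Γ x)),
      mul_nonneg K0 (e0 n).le, mul_nonneg c2 (e0 n).le]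
  have g0 : pc α ι (Γ 0) = 0 := norm_le_zero_iff.1 (le_of_forall_pos_le_add fun ε h => by
    obtain ⟨n, hn⟩ := (ev (K + 8 * C2) ε h).exists
    have := (key n 0 (B0 _ (ρ0 n)) (map_zero _)).1
    rw [norm_zero] at this
    nlinarith [ρ1 n])
  have dΓ := (G1.differentiableAt ((open_Bx _ _).mem_nhds (B0 1 one_pos))).hasFDerivAt
  obtain ⟨Ξ, x0, x1, x2⟩ := loc_inv (Φ := fun x => pa α ι x + pc α ι (Γ x)) (open_Bx F.r 1)
    (B0 1 one_pos) (by simp [g0]) ((pa α ι).differentiableOn.add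
      ((pc α ι).differentiable.comp_differentiableOn G1)) (fun w hw => by
      erw [((pa α ι).hasFDerivAt.add ((pc α ι).hasFDerivAt.comp 0 dΓ)).fderiv] at hw
      have w1 : pa α ι w = 0 := by simpa [pa_pa, pa_pc0] using congrArg (pa α ι) hw
      have w2 : pc α ι (fderiv ℂ Γ 0 w) = 0 := by simpa [w1] using hw
      have w3 : pc α ι w = w := by simpa [w1] using pa_pc w
      by_contra h
      have w4 := norm_pos_iff.2 h
      have l : HasDerivAt (fun t : ℂ => t • w) w 0 := by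
        simpa using (hasDerivAt_id (0 : ℂ)).smul_const w
      have w5 := ((pc α ι).hasFDerivAt.comp 0 dΓ).comp_hasDerivAt_of_eq 0 l (by simp)
      have w6 := w5.isLittleO.def (c := ‖w‖ / 8) (by positivity)
      have w7 : Tendsto (fun n => ((ρ n / (2 * ‖w‖) : ℝ) : ℂ)) atTop (𝓝 0) := by
        have := ((tendsto_const_nhds.div_atTop ((tendsto_pow_atTop two_ne_zero).comp zt)
          (a := 4 / 5)).div_const (2 * ‖w‖)).ofReal
        rwa [zero_div, Complex.ofReal_zero] at this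
      obtain ⟨n, n1, n2⟩ := ((w7.eventually w6).and (ev (2 * K + 4 * C2) (1 / 4)
        (by norm_num))).exists
      have := ρ0 n
      have n3 : ‖((ρ n / (2 * ‖w‖) : ℝ) : ℂ)‖ * ‖w‖ = ρ n / 2 := by
        rw [Complex.norm_real, Real.norm_of_nonneg (by positivity)]
        field_simp
      have n4 := (key n (((ρ n / (2 * ‖w‖) : ℝ) : ℂ) • w) ⟨by simpa [w1], by
        rw [map_smul, w3, norm_smul, n3]
        linarith⟩ (by simp [w1])).2
      simp only [Function.comp_apply, zero_smul, g0, ContinuousLinearMap.comp_apply, w2,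
        smul_zero, sub_zero] at n1
      rw [norm_smul, n3] at n4
      linarith) fun x hx => by rw [G2 x hx, pa_star, pc_star, star_add]
  obtain ⟨r, r1, r2⟩ := Metric.eventually_nhds_iff_ball.1 x1
  have r3 := fun x (hx : x ∈ ball 0 (min r F.r)) => r2 x (ball_subset_ball (min_le_left _ _) hx)
  have S1 : ∀ x, x + N x - N (x + N x) = x := fun x => by rw [N5 _ _ (N6 x), add_sub_cancel_right]
  have n0 : ‖pa α ι (N 0)‖ < F.r := by rwa [N4, norm_zero]
  have t : Tendsto (fun x => x - N x) (𝓝 (Ξ 0 + N (Ξ 0))) (𝓝 0) := by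
    simpa [x0, N5 (N 0) 0 (by simp [N4])] using
      (continuousAt_id.fun_sub (N2 _ n0).continuousAt).tendsto
  have t1 := t.eventually ((open_Bx F.r 1).eventually_mem (B0 1 one_pos))
  refine ⟨fun x => pa α ι (x - N x) + pc α ι (Γ (x - N x)), fun x => Ξ x + N (Ξ x), min r F.r,
    lt_min r1 r0, min_le_right _ _, fun x hx => ((r3 x hx).1.add ((N2 _ (r3 x hx).2.1.1).comp x
      (r3 x hx).1)).differentiableWithinAt, t1.mono fun x hx => ?_, fun x hx => ?_,
    (t.eventually x2).mono fun x hx => ?_, fun x i => ?_, fun x hx => ?_, t1.mono fun x hx => ?_,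
    4 * C2 + K, Z1, by linarith, fun n Z' hn => ?_⟩
  · have := differentiableAt_id.sub (N2 x (N7 x ▸ hx.1))
    exact ((pa α ι).differentiableAt.comp x this).add ((pc α ι).differentiableAt.comp x
      ((G1.differentiableAt ((open_Bx _ _).mem_nhds hx)).comp x this))
  · rw [S1]
    exact (r3 x hx).2.2.1
  · rw [hx, N5 _ _ (N7 x), sub_add_cancel]
  · simp [N7]
  · rw [(r3 x hx).2.2.2, N3 _ (r3 x hx).2.1.1, star_add]
  · rw [N3 x (N7 x ▸ hx.1), ← star_sub, G2 _ hx, pa_star, pc_star, star_add]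
  obtain rfl : Z' = Z n := hn
  rw [ee_eq, x0, zero_add]
  refine ⟨by linarith [X0 n, mul_nonneg K0 (e0 n).le], fun w hw h l => ?_⟩
  have a0 := pa_lt r0 hw.1
  have a1 : X n w - N (X n w) ∈ Bx F.r (ρ n) := ⟨by rwa [N7, pX], by
    have a2 := FD.lip_le le_rfl (A n) hw (pm n w a0) fun _ => rfl
    have a3 : ‖w - pa α ι w‖ ≤ 1 / (4 * Z n ^ 2) :=
      norm_le_of (by positivity) (by simp) (by simpa using h)
    have a4 := norm_add_le (X n w - X n (pa α ι w)) (X n (pa α ι w) - (pa α ι w + N w))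
    rw [show 1 / (4 * Z n ^ 2) = 5 / 16 * ρ n by simp only [hρ]; ring] at a3
    rw [eq_sub_of_add_eq' (pa_pc _), N7, pX, N5 _ _ (pX n w), sub_sub, add_comm]
    rw [sub_add_sub_cancel] at a4
    linarith [N1 n w a0, sm n, ρ0 n]⟩
  have a5 := (norm_le_pi_norm _ (.inr l)).trans (G4 n _ a1)
  simp only [hy, N5 _ _ (N7 _), sub_add_cancel, hX, FD.inv_X le_rfl (A n) hw] at a5
  simp only [Pi.add_apply, pa_inr, zero_add]
  exact a5.trans (by linarith [mul_nonneg c2 (e0 n).le])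

end

end Vale.Agent.P218Q
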